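/-
Row 258 (S0498), DESIGN CREW, home section 5 (architect helper182).
THE INTERFACE BETWEEN Sec. 5 (+ Sec. 10.4) AND Secs. 6-10.3.

The proof of Proposition 2.3 (`NormalizedBound`) factors through ONE data structure, the *base segment*
(`BaseSeg`, the output of Prop. 5.6 + Prop. 5.8 on one normalized segment root `R`, for one tuple of increment levels):

  (T3)  Secs. 6, 7, 8, 9, 10.1-10.3 :  `CoreGoal`      = for all exponents `θ, Cb` there is `q ∈ (2,3)` with `CoreEstimate`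
  (T2)  Secs. 3, 4, 5, 10.4         :  `CoreEstimate`  ⟹  `NormalizedBound (A + c C_N)`          (`BaseGoal`)
  (T1)  Sec. 2                      :  `NormalizedBound (A + c C_N)` ⟹ uniform `LocalBound` ⟹ S0498.

`CoreEstimate` is display (11) ≤ `C_q η^{c_*} (1 + C_N) |R|` (last display of Sec. 10.3).

What a base segment contains (everything Secs. 6-10.3 may use about Sec. 5; tell helper182 if you need more):
* `root = R`, a finite rooted tree `T` of cells on which all four inputs are `L^q`-normalized, the ACTIVE summation cells `S ⊆ T`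
  with path multiplicity `≤ M` (10), admissible kernels on `S`;
* for every slot `l` two inherited mask families `cat l 0`, `cat l 1` of basic columns, defined on ALL cells below the root
  (extension past the tree by inheritance and refitting), `B_l = P_{cat l 0} F_l - P_{cat l 1} F_l` (current projections, (8),(9));
  every column is a bounded chart atom of complexity `≤ D = D_base`, carries its chart data (`chart`), has its own private label
  (labels of different catalogs are different), inverse private weight `≤ D`; at most `D` columns born on a path (all slots together);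
  current coefficient sums `≤ D/2` per catalog;
* the basic sides `U_l I` (rolling differences; zero in the two low slots): ONLY their support, local size and square
  budget `∑_{I ≤ R'} ‖U_l I‖² ≤ LU |R'|` on every subroot are exported;
* pair smallness: every pair of full arguments `Y = B + U` has form norm `≤ η` on every active cell.
All hypotheses are hereditary: `BaseSeg.restrict` to a cell `R' ∈ T` is again valid (restarts of Sec. 10.1).
-/
import Claimed.Agent.R258.Pack001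

set_option autoImplicit false
open MeasureTheory
open scoped ENNReal ContDiff

namespace Claimed.Agent.R258

/-! ## Quadratic chart atoms (Definition 4.1) -/

/-- `e(t) = exp(2π i t)` -/
noncomputable def ee (t : ℝ) : ℂ := Complex.exp (2 * Real.pi * t * Complex.I)

/-- the fixed Gevrey constant `c_0` of Definition 4.1 -/
def cGev : ℝ := 10

/-- The data of a quadratic chart atom (1): dimension, horizontal frequencies `θ`, rational matrix `C`, unrestricted
`λ, β`, amplitude `χ`, and a unimodular constant. -/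
structure Chart where
  d : ℕ
  th : Fin d → ℝ
  C : Matrix (Fin d) (Fin d) ℚ
  lam : ℝ
  bet : ℝ
  chi : (Fin d → ℝ) → ℂ
  unit : ℂ

/-- the bracket phase `(θ y)^T C (θ y - n)` -/
noncomputable def Chart.phase (a : Chart) (y : ℝ) (n : Fin a.d → ℤ) : ℝ :=
  ∑ i, ∑ j, (a.th i * y) * ((a.C i j : ℚ) : ℝ) * (a.th j * y - (n j : ℝ))

/-- the atom (1) -/
noncomputable def Chart.eval (a : Chart) (y : ℝ) : ℂ :=
  a.unit * ee (a.lam * y ^ 2 + a.bet * y) *
    ∑' n : Fin a.d → ℤ, a.chi (fun i => a.th i * y - (n i : ℝ)) * ee (a.phase y n)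

/-- height of a rational number -/
def qHeight (r : ℚ) : ℕ := max r.num.natAbs r.den

/-- complexity at most `H` -/
structure Chart.Cplx (a : Chart) (H : ℝ) : Prop where
  H_ge : Real.exp 2 ≤ H
  dim : (a.d : ℝ) ≤ Real.log H
  height : ∀ i j, (qHeight (a.C i j) : ℝ) ≤ H
  smooth : ContDiff ℝ ∞ a.chi
  supp : ∀ x, a.chi x ≠ 0 → ∀ i, |x i| ≤ H
  deriv : ∀ (n : ℕ) (x : Fin a.d → ℝ),
    ‖iteratedFDeriv ℝ n a.chi x‖ ≤ H ^ (cGev * ((n : ℝ) + 1)) * ((n : ℝ) + 1) ^ (cGev * ((n : ℝ) + 1))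
  unit : ‖a.unit‖ = 1

/-- bounded atom: supremum norm at most one -/
def Chart.Bdd (a : Chart) : Prop := ∀ y, ‖a.eval y‖ ≤ 1

/-! ## Forms of vector functions -/

/-- physical scalar component of an element of `L²(ℝ;HV)` -/
noncomputable def physFn (z : XV) : ℝ → ℂ := fun y => phys ((z : ℝ → HV) y)

/-- the form uses only the physical components -/
noncomputable def formV (I : Cell) (w : ℝ × ℝ → ℂ) (z : Fin 4 → XV) : ℂ := form I w fun j => physFn (z j)

/-- normalized `L²(I;HV)` norm -/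
noncomputable def n2 (I : Cell) (z : XV) : ℝ := ‖restr I.set z‖ / Real.sqrt I.len

/-- the pair `(Y, Y')` in the slots `l ≠ l'` has bilinear form norm `≤ η` against normalized `L²(I)` inputs -/
def PairSmall (I : Cell) (w : ℝ × ℝ → ℂ) (l l' : Fin 4) (Y Y' : XV) (η : ℝ) : Prop :=
  ∀ z : Fin 4 → XV, z l = Y → z l' = Y' →
    ‖formV I w z‖ ≤ η * ∏ j ∈ (Finset.univ.erase l).erase l', n2 I (z j)

/-! ## Base segments -/

/-- the data of a base segment -/
structure BaseSeg where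
  root : Cell
  T : Finset Cell
  S : Finset Cell
  w : Cell → ℝ × ℝ → ℂ
  f : Fin 4 → ℝ → ℂ
  chart : ℕ → Chart
  cat : Fin 4 → Fin 2 → Cell → Finset Col
  U : Fin 4 → Cell → XV

namespace BaseSeg

/-- `F_l = (f_l, 0)` -/
noncomputable def F (X : BaseSeg) (l : Fin 4) : XV := ofScalar (X.f l)

/-- the basic coarse argument `B_l` on the cell `I` -/
noncomputable def B (X : BaseSeg) (l : Fin 4) (I : Cell) : XV :=
  cproj (X.cat l 0 I) I (X.F l) - cproj (X.cat l 1 I) I (X.F l)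

/-- the full argument `Y_l = B_l + U_l` -/
noncomputable def Y (X : BaseSeg) (l : Fin 4) (I : Cell) : XV := X.B l I + X.U l I

/-- the arguments of a pattern (`pat l = true`: the basic side `U_l`) -/
noncomputable def arg (X : BaseSeg) (pat : Fin 4 → Bool) (I : Cell) : Fin 4 → XV :=
  fun l => if pat l then X.U l I else X.B l I

/-- the hypotheses on a base segment, with the budgets `η, D = D_base, M, LU` -/
structure Valid (X : BaseSeg) (c0 C0 q η D M LU : ℝ) : Prop where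
  tree : RootedTree X.root X.T
  S_sub : X.S ⊆ X.T
  adm : ∀ I ∈ X.S, Admissible c0 C0 I (X.w I)
  f_cs : ∀ l, BddCS (X.f l)
  f_norm : ∀ l, ∀ I ∈ X.T, nnorm q I (X.f l) ≤ 1
  /-- columns are available only below their birth cell -/
  cat_birth : ∀ l c I, ∀ Φ ∈ X.cat l c I, I ≤ Φ.birth
  /-- inheritance, on all cells below the root -/
  cat_mono : ∀ l c (I I' : Cell), I ≤ X.root → I' ≤ I → X.cat l c I ⊆ X.cat l c I'
  /-- private labels: a label determines its column and its catalog -/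
  lab_inj : ∀ l c I l' c' I', ∀ Φ ∈ X.cat l c I, ∀ Φ' ∈ X.cat l' c' I', Φ.lab = Φ'.lab → Φ = Φ' ∧ l = l' ∧ c = c'
  col_chart : ∀ l c I, ∀ Φ ∈ X.cat l c I, Φ.phi = (X.chart Φ.lab).eval
  col_cplx : ∀ l c I, ∀ Φ ∈ X.cat l c I, (X.chart Φ.lab).Cplx D
  col_bdd : ∀ l c I, ∀ Φ ∈ X.cat l c I, (X.chart Φ.lab).Bdd
  col_eps : ∀ l c I, ∀ Φ ∈ X.cat l c I, D⁻¹ ≤ Real.sqrt Φ.eps ∧ Φ.eps ≤ 1
  /-- path count of BIRTHS, all slots and catalogs together: at most `D` columns of the catalogs (on cells below the root) are born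
  at or above any given cell (this is the budget `∑_v 1_{J_v} ≤ D` of Sec. 3.2; by `cat_birth` it bounds `∑_{l,c} #(cat l c I)`) -/
  count : ∀ I, I ≤ X.root → ∀ A : Finset Col,
    (∀ Φ ∈ A, (∃ l c I', I' ≤ X.root ∧ Φ ∈ X.cat l c I') ∧ I ≤ Φ.birth) → (A.card : ℝ) ≤ D
  /-- current coefficient sums -/
  coef : ∀ l c, ∀ I ∈ X.T, ∃ a : Col → ℂ,
    cproj (X.cat l c I) I (X.F l) = ∑ Φ ∈ X.cat l c I, a Φ • Φ.vec I ∧ ∑ Φ ∈ X.cat l c I, ‖a Φ‖ ≤ D / 2
  U_supp : ∀ l I, restr I.set (X.U l I) = X.U l I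
  U_size : ∀ l, ∀ I ∈ X.T, n2 I (X.U l I) ≤ 1
  /-- the square budget of the basic sides on every subroot -/
  U_sq : ∀ l, ∀ R' ∈ X.T, ∀ A : Finset Cell, (∀ I ∈ A, I ≤ R') → ∑ I ∈ A, ‖X.U l I‖ ^ 2 ≤ LU * R'.len
  /-- pair smallness of the full arguments -/
  pair : ∀ I ∈ X.S, ∀ l l' : Fin 4, l ≠ l' → PairSmall I (X.w I) l l' (X.Y l I) (X.Y l' I) η
  /-- (10): path multiplicity of the active collection -/
  mult : ∀ J ∈ X.T, ∀ A ⊆ X.S, (∀ I ∈ A, J ≤ I) → (A.card : ℝ) ≤ M
  /-- past the tree the lists are continued by pure inheritance: no column is born off the tree (request of helper244) -/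
  cat_tree : ∀ l c I, I ≤ X.root → ∀ Φ ∈ X.cat l c I, ∃ I' ∈ X.T, I ≤ I' ∧ Φ ∈ X.cat l c I'
  /-- the basic sides involve only finitely many private labels (request of helper68; `LabFree N0 (X.U l I)` of Loc/IfaceTag.lean) -/
  U_lab : ∃ N0 : ℕ, ∀ l I v, N0 ≤ v → ∀ᵐ y ∂(volume : Measure ℝ), (X.U l I : ℝ → HV) y (v + 1) = 0

/-- validity at accuracy log `k` with the absolute exponents `θ` (quality) and `Cb` (budgets) -/
def Ok (X : BaseSeg) (c0 C0 q θ Cb k : ℝ) : Prop :=
  ∃ D M LU : ℝ, Real.exp k ≤ D ∧ D ≤ Real.exp (k ^ Cb) ∧ M ≤ D ^ Cb ∧ LU ≤ k ^ Cb ∧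
    X.Valid c0 C0 q (Real.exp (-(k ^ θ))) D M LU

open Classical in
/-- restriction to a subroot (restarts) -/
noncomputable def restrict (X : BaseSeg) (R' : Cell) : BaseSeg :=
  { X with root := R', T := X.T.filter (· ≤ R'), S := X.S.filter (· ≤ R') }

end BaseSeg

/-- admissible patterns: at most one basic side -/
def PatOk (pat : Fin 4 → Bool) : Prop := (Finset.univ.filter fun l => pat l = true).card ≤ 1

/-- **The core estimate** (last display of Sec. 10.3):
`∑_{I active} |I| min(η, |H_I(z)|) ≤ C_q η^{c_*} (1 + C_N) |R|` on every base segment and pattern. -/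
def CoreEstimate (c0 C0 q θ Cb cs Cq kmin : ℝ) : Prop :=
  ∀ k : ℝ, kmin ≤ k → ∀ X : BaseSeg, X.Ok c0 C0 q θ Cb k →
  ∀ (N : ℕ) (CN : ℝ) (s0 : ℤ), 0 ≤ CN → LocalBound c0 C0 q N CN →
    (∀ I ∈ X.S, s0 ≤ I.depth ∧ I.depth < s0 + N) →
  ∀ pat : Fin 4 → Bool, PatOk pat →
    ∑ I ∈ X.S, I.len * min (Real.exp (-(k ^ θ))) ‖formV I (X.w I) (X.arg pat I)‖
      ≤ Cq * Real.exp (-(k ^ θ)) ^ cs * (1 + CN) * X.root.len

/-- (T3) the goal of Secs. 6-10.3 -/
def CoreGoal (c0 C0 : ℝ) : Prop :=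
  ∀ θ Cb : ℝ, 0 < θ → θ < 1 → 1 ≤ Cb →
    ∃ q : ℝ, 2 < q ∧ q < 3 ∧ ∃ cs Cq kmin : ℝ, 0 < cs ∧ CoreEstimate c0 C0 q θ Cb cs Cq kmin

/-- (T2) the goal of Secs. 3, 4, 5, 10.4 -/
def BaseGoal (c0 C0 : ℝ) : Prop :=
  ∃ θ Cb : ℝ, 0 < θ ∧ θ < 1 ∧ 1 ≤ Cb ∧ ∀ q : ℝ, 2 < q → q < 3 →
    ∀ cs Cq kmin : ℝ, 0 < cs → CoreEstimate c0 C0 q θ Cb cs Cq kmin →
    ∀ c : ℝ, 0 < c → ∃ A : ℝ, ∀ (N : ℕ) (CN : ℝ), 0 ≤ CN → LocalBound c0 C0 q N CN →
      NormalizedBound c0 C0 q N (A + c * CN)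

/-- Proposition 2.3 in the form consumed by Sec. 2. -/
def NormalizedGoal (c0 C0 : ℝ) : Prop :=
  ∃ q : ℝ, 2 < q ∧ q < 3 ∧ ∀ c : ℝ, 0 < c → ∃ A : ℝ, ∀ (N : ℕ) (CN : ℝ), 0 ≤ CN →
    LocalBound c0 C0 q N CN → NormalizedBound c0 C0 q N (A + c * CN)

theorem normalizedGoal_of (c0 C0 : ℝ) (h2 : BaseGoal c0 C0) (h3 : CoreGoal c0 C0) : NormalizedGoal c0 C0 := by
  obtain ⟨θ, Cb, hθ0, hθ1, hCb, h⟩ := h2
  obtain ⟨q, hq2, hq3, cs, Cq, kmin, hcs, hcore⟩ := h3 θ Cb hθ0 hθ1 hCb
  exact ⟨q, hq2, hq3, h q hq2 hq3 cs Cq kmin hcs hcore⟩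

end Claimed.Agent.R258
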