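/-
Row 258, Sec. 5.3, LEAF P-S5-EXPAND (architect helper182).   THE TWO-EARLIEST-INCREMENTS EXPANSION (first half of Lemma 5.5), purely algebraic.

Levels `t = 1, 2, …` update the slot `pos4 t = t mod 4`; `g t` is the approximant of level `t` (`g 0 = 0`); `lastLev l τ` is the last level `≤ τ` that updates the slot `l`
(`0` if there is none).  For `1 ≤ u < t`, `pos4 u ≠ pos4 t`, the tuple arguments (8) are `xarg F g u t`:
   slot `pos4 u`: `g_u - g_{u-4}`;   slot `pos4 t`: `g_t - g_{t-4}`;   other slots `e`: `F_e - g_{e,prev}`.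
`psiRem M F g τ` = the terms with at most one increment at the terminal level `τ`: four terminal residuals, or one whole terminal projection and three terminal residuals.

PROOF of `s5x_expand`: induction on `τ`.  `psiRem 0 = M F` (`g 0 = 0`, `M` vanishes when an argument is `0`).   Step `t-1 → t`, `j = pos4 t`, `δ = g t - g (lastLev j (t-1))`:
only the slot `j` changes: `R_j^{old} = R_j^{new} + δ`, `G_j^{new} = G_j^{old} + δ`, so by multilinearity
   `psiRem (t-1) - psiRem t = ∑_{l ≠ j} M(G_l at l, δ at j, R elsewhere)`,     and `G_l = g (lastLev l (t-1)) = ∑_{1 ≤ u < t, pos4 u = l} (g u - g (lastLev l (u-1)))` (telescoping).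
Fill the sorries IN PLACE; auxiliary lemmas with prefix `s5x_`.
-/
import Mathlib

set_option autoImplicit false

namespace Claimed.Agent.R258

/-- the slot updated at level `t` -/
def pos4 (t : ℕ) : Fin 4 := ⟨t % 4, Nat.mod_lt _ (by norm_num)⟩

/-- the last level `≤ τ` (and `≥ 1`) updating the slot `l`; `0` if there is none -/
def lastLev (l : Fin 4) : ℕ → ℕ
  | 0 => 0
  | τ + 1 => if pos4 (τ + 1) = l then τ + 1 else lastLev l τ

theorem s5x_lastLev_succ (l : Fin 4) (τ : ℕ) :
    lastLev l (τ + 1) = if pos4 (τ + 1) = l then τ + 1 else lastLev l τ := rfl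

theorem s5x_pos4_eq_iff (t : ℕ) (l : Fin 4) : pos4 t = l ↔ t % 4 = l.val := by
  rw [Fin.ext_iff]; rfl

theorem s5x_pos4_val (t : ℕ) : (pos4 t).val = t % 4 := rfl

theorem s5x_lastLev_le (l : Fin 4) (τ : ℕ) : lastLev l τ ≤ τ := by
  induction τ with
  | zero => exact le_rfl
  | succ τ ih =>
    rw [s5x_lastLev_succ]
    split_ifs
    · exact le_rfl
    · omega

/-- for `τ ≥ 4` the last level lies in `(τ-4, τ]` -/
theorem s5x_lastLev_gt (l : Fin 4) (τ : ℕ) (h : 4 ≤ τ) : τ < lastLev l τ + 4 := by
  obtain ⟨n, rfl⟩ : ∃ n, τ = n + 4 := ⟨τ - 4, by omega⟩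
  have hl := l.isLt
  rw [show n + 4 = n + 3 + 1 from rfl, s5x_lastLev_succ, show n + 3 = n + 2 + 1 from rfl,
    s5x_lastLev_succ, show n + 2 = n + 1 + 1 from rfl, s5x_lastLev_succ, s5x_lastLev_succ]
  simp only [s5x_pos4_eq_iff]
  split_ifs <;> omega

theorem s5x_lastLev_pos4 (l : Fin 4) (τ : ℕ) (h : lastLev l τ ≠ 0) : pos4 (lastLev l τ) = l := by
  induction τ with
  | zero => exact absurd rfl h
  | succ τ ih =>
    rw [s5x_lastLev_succ] at h ⊢
    split_ifs at h ⊢ with h1
    · exact h1
    · exact ih h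

theorem s5x_lastLev_self (t : ℕ) (h : 5 ≤ t) : lastLev (pos4 t) (t - 1) = t - 4 := by
  obtain ⟨n, rfl⟩ : ∃ n, t = n + 5 := ⟨t - 5, by omega⟩
  rw [show n + 5 - 1 = n + 3 + 1 from rfl, s5x_lastLev_succ, show n + 3 = n + 2 + 1 from rfl,
    s5x_lastLev_succ, show n + 2 = n + 1 + 1 from rfl, s5x_lastLev_succ, s5x_lastLev_succ]
  simp only [s5x_pos4_eq_iff, s5x_pos4_val]
  split_ifs <;> omega

theorem s5x_lastLev_self_small (t : ℕ) (h : t ≤ 4) : lastLev (pos4 t) (t - 1) = 0 := by
  interval_cases t <;> decide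

section
variable {V : Type*} [AddCommGroup V] [Module ℂ V]

/-- the arguments (8) of the tuple `(u,t)` -/
def xarg (F : Fin 4 → V) (g : ℕ → V) (u t : ℕ) : Fin 4 → V := fun l =>
  if l = pos4 u then g u - g (lastLev l (u - 1))
  else if l = pos4 t then g t - g (lastLev l (t - 1))
  else F l - g (lastLev l (t - 1))

/-- the terms with at most one increment at the terminal level `τ` -/
def psiRem (M : MultilinearMap ℂ (fun _ : Fin 4 => V) ℂ) (F : Fin 4 → V) (g : ℕ → V) (τ : ℕ) : ℂ :=
  M (fun l => F l - g (lastLev l τ)) +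
    ∑ l, M (Function.update (fun l' => F l' - g (lastLev l' τ)) l (g (lastLev l τ)))

omit [Module ℂ V] in
theorem s5x_tele (g : ℕ → V) (hg : g 0 = 0) (l : Fin 4) (τ : ℕ) :
    g (lastLev l τ) = ∑ u ∈ (Finset.Ico 1 (τ + 1)).filter (fun u => pos4 u = l),
      (g u - g (lastLev l (u - 1))) := by
  induction τ with
  | zero => simp [lastLev, hg]
  | succ τ ih =>
    rw [Finset.sum_filter, Finset.sum_Ico_succ_top (by omega), ← Finset.sum_filter, ← ih,
      s5x_lastLev_succ]
    by_cases h : pos4 (τ + 1) = l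
    · simp [h]
    · simp [h]

theorem s5x_step (M : MultilinearMap ℂ (fun _ : Fin 4 => V) ℂ) (F : Fin 4 → V) (g : ℕ → V)
    (hg : g 0 = 0) (τ : ℕ) :
    psiRem M F g τ = ∑ u ∈ (Finset.Ico 1 (τ + 1)).filter (fun u => pos4 u ≠ pos4 (τ + 1)),
      M (xarg F g u (τ + 1)) + psiRem M F g (τ + 1) := by
  obtain ⟨j, hj⟩ : ∃ j, pos4 (τ + 1) = j := ⟨_, rfl⟩
  obtain ⟨R, hR⟩ : ∃ R : Fin 4 → V, R = fun l => F l - g (lastLev l τ) := ⟨_, rfl⟩
  obtain ⟨δ, hδ⟩ : ∃ δ : V, δ = g (τ + 1) - g (lastLev j τ) := ⟨_, rfl⟩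
  have hLj : lastLev j (τ + 1) = τ + 1 := by rw [s5x_lastLev_succ, if_pos hj]
  have hLl : ∀ l, l ≠ j → lastLev l (τ + 1) = lastLev l τ := fun l hl => by
    rw [s5x_lastLev_succ, if_neg (fun h => hl (h.symm.trans hj))]
  have hRa : ∀ l, R l = F l - g (lastLev l τ) := fun l => by rw [hR]
  have hR' : (fun l => F l - g (lastLev l (τ + 1))) = Function.update R j (R j - δ) := by
    funext l
    by_cases h : l = j
    · subst h
      rw [Function.update_self, hLj, hRa, hδ]
      abel
    · rw [Function.update_of_ne h, hLl l h, hRa]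
  have e0 : M R = M (Function.update R j (R j - δ)) + M (Function.update R j δ) := by
    rw [← MultilinearMap.map_update_add, sub_add_cancel, Function.update_eq_self]
  have ej : M (Function.update (Function.update R j (R j - δ)) j (g (lastLev j (τ + 1)))) =
      M (Function.update R j (g (lastLev j τ))) + M (Function.update R j δ) := by
    rw [Function.update_idem, ← MultilinearMap.map_update_add, hLj, hδ]
    congr 2
    abel
  have el : ∀ l, l ≠ j →
      M (Function.update R l (g (lastLev l τ))) =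
        ∑ u ∈ (Finset.Ico 1 (τ + 1)).filter (fun u => pos4 u = l), M (xarg F g u (τ + 1)) +
        M (Function.update (Function.update R j (R j - δ)) l (g (lastLev l (τ + 1)))) := by
    intro l hl
    rw [hLl l hl, Function.update_comm hl.symm, MultilinearMap.map_update_sub]
    have h1 : Function.update (Function.update R l (g (lastLev l τ))) j (R j) =
        Function.update R l (g (lastLev l τ)) := by
      rw [Function.update_comm hl, Function.update_eq_self]
    rw [h1]
    have h2 : M (Function.update (Function.update R l (g (lastLev l τ))) j δ) =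
        ∑ u ∈ (Finset.Ico 1 (τ + 1)).filter (fun u => pos4 u = l), M (xarg F g u (τ + 1)) := by
      rw [Function.update_comm hl, s5x_tele g hg l τ, MultilinearMap.map_update_sum]
      refine Finset.sum_congr rfl fun u hu => ?_
      have hu' : pos4 u = l := (Finset.mem_filter.1 hu).2
      congr 1
      funext l'
      unfold xarg
      rw [hu', hj, Nat.add_sub_cancel]
      by_cases c1 : l' = l
      · subst c1
        rw [if_pos rfl, Function.update_self]
      · rw [if_neg c1, Function.update_of_ne c1]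
        by_cases c2 : l' = j
        · subst c2
          rw [if_pos rfl, Function.update_self, hδ]
        · rw [if_neg c2, Function.update_of_ne c2, hRa]
    rw [h2]
    abel
  have hsum : ∑ u ∈ (Finset.Ico 1 (τ + 1)).filter (fun u => pos4 u ≠ j), M (xarg F g u (τ + 1)) =
      ∑ l ∈ Finset.univ.erase j,
        ∑ u ∈ (Finset.Ico 1 (τ + 1)).filter (fun u => pos4 u = l), M (xarg F g u (τ + 1)) := by
    rw [← Finset.sum_fiberwise_of_maps_to (s := (Finset.Ico 1 (τ + 1)).filter (fun u => pos4 u ≠ j))
      (t := Finset.univ.erase j) (g := pos4)]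
    · refine Finset.sum_congr rfl fun l hl => ?_
      have hl' : l ≠ j := Finset.ne_of_mem_erase hl
      congr 1
      rw [Finset.filter_filter]
      refine Finset.filter_congr fun u _ => ?_
      constructor
      · exact fun h => h.2
      · exact fun h => ⟨h ▸ hl', h⟩
    · intro u hu
      exact Finset.mem_erase.2 ⟨(Finset.mem_filter.1 hu).2, Finset.mem_univ _⟩
  unfold psiRem
  rw [hR', ← hR, hj, hsum, e0, ← Finset.add_sum_erase _ _ (Finset.mem_univ j),
    ← Finset.add_sum_erase (a := j) Finset.univ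
      (fun l => M (Function.update (Function.update R j (R j - δ)) l (g (lastLev l (τ + 1)))))
      (Finset.mem_univ j), ej,
    Finset.sum_congr rfl (fun l hl => el l (Finset.ne_of_mem_erase hl)), Finset.sum_add_distrib]
  abel

theorem s5x_expand (M : MultilinearMap ℂ (fun _ : Fin 4 => V) ℂ) (F : Fin 4 → V) (g : ℕ → V) (hg : g 0 = 0) (τ : ℕ) :
    M F = ∑ t ∈ Finset.Icc 1 τ, ∑ u ∈ (Finset.Ico 1 t).filter (fun u => pos4 u ≠ pos4 t), M (xarg F g u t)
      + psiRem M F g τ := by
  induction τ with
  | zero =>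
    simp [psiRem, lastLev, hg]
  | succ τ ih =>
    rw [Finset.sum_Icc_succ_top (by omega), add_assoc, ← s5x_step M F g hg τ]
    exact ih

end

end Claimed.Agent.R258
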