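/-
Row 258, Sec. 5, LEAF P-S5-FORM (architect helper182).   API of the form `formV` on `XV = L²(ℝ;HV)`.
No paper reading.  `form I w z = |I|^{-2} ∫∫ w(x,t) ∏_j z_j(x+jt)`, `formV I w z = form I w (physFn ∘ z)`, `n2 I z = ‖restr I z‖ / √|I|`.
Facts used: `w` is bounded (`Admissible.deriv` with `n = 0`), continuous, and vanishes unless all four `x + j t ∈ I` (`Admissible.supp`);
for `i ≠ j` the map `(x,t) ↦ (x+it, x+jt)` is a linear automorphism of `ℝ²` of determinant `j - i`; hence (Cauchy-Schwarz, pairs `(0,1)` and `(2,3)`)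
  `∫∫ |w| ∏ |z_j(x+jt)| ≤ ‖w‖_∞ ∏_j ‖z_j‖_{L²(I)}`      (this is Lemma 2.1 with exponents (2,2,2,2); if block [S2] has it, use it)
which gives integrability of every term, multilinearity and the bound; null sets of `ℝ` pull back to null sets of `ℝ²` under `(x,t) ↦ x+jt`.
Fill the sorries IN PLACE, auxiliary lemmas with prefix `s5f_`.
CHANGE (helper247, 09:50Z): `s5f_form_congr` and `s5f_restr` need `hc0 : 0 < c0` (for `c0 < 0` the kernel may live outside `I` and both are false).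
-/
import Claimed.Agent.R258.Pack006
import Claimed.Agent.R258.Pack011
import Claimed.Agent.R258.Pack005
import Claimed.Agent.R258.Pack014

set_option autoImplicit false
open MeasureTheory

namespace Claimed.Agent.R258

/-- the form depends only on the a.e. classes of its four inputs (no hypothesis on the kernel) -/
theorem s5f_form_congr_ae (I : Cell) (w : ℝ × ℝ → ℂ) (g g' : Fin 4 → ℝ → ℂ)
    (hg : ∀ l, g l =ᵐ[volume] g' l) : form I w g = form I w g' := by
  unfold form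
  congr 1
  apply integral_congr_ae
  have h : ∀ l : Fin 4, ∀ᵐ p : ℝ × ℝ,
      g l (p.1 + (l : ℝ) * p.2) = g' l (p.1 + (l : ℝ) * p.2) := fun l => s2_ae_comp (l : ℝ) (hg l)
  filter_upwards [ae_all_iff.2 h] with p hp
  congr 1
  exact Finset.prod_congr rfl fun l _ => hp l

/-- the form depends only on the a.e. classes on `I` of its four inputs -/
theorem s5f_form_congr (c0 C0 : ℝ) (hc0 : 0 < c0) (I : Cell) (w : ℝ × ℝ → ℂ) (h : Admissible c0 C0 I w)
    (g g' : Fin 4 → ℝ → ℂ)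
    (hg : ∀ l, g l =ᵐ[volume.restrict I.set] g' l) : form I w g = form I w g' := by
  unfold form
  congr 1
  apply integral_congr_ae
  have h1 : ∀ l : Fin 4, ∀ᵐ p : ℝ × ℝ, p.1 + (l : ℝ) * p.2 ∈ I.set →
      g l (p.1 + (l : ℝ) * p.2) = g' l (p.1 + (l : ℝ) * p.2) := fun l =>
    s2_ae_comp (l : ℝ) ((ae_restrict_iff' (cell_measurableSet I)).1 (hg l))
  filter_upwards [ae_all_iff.2 h1] with p hp
  by_cases hw : w p = 0
  · simp [hw]
  · congr 1
    exact Finset.prod_congr rfl fun l _ => hp l (nb_adm_mem hc0 h hw l)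

theorem s5f_phys_measurable (z : XV) : Measurable (physFn z) :=
  ((xv_continuous_coord 0).comp_stronglyMeasurable (Lp.stronglyMeasurable z)).measurable

theorem s5f_phys_sq_integrable (z : XV) : Integrable (fun y => ‖physFn z y‖ ^ 2) :=
  (memLp_two_iff_integrable_sq_norm (xv_physFn_aesm z)).1 (xv_physFn_memLp z)

/-- admissible inputs of the local form on `I`: measurable and square integrable on `I` -/
def S5fOk (I : Cell) (f : ℝ → ℂ) : Prop := Measurable f ∧ IntegrableOn (fun y => ‖f y‖ ^ 2) I.set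

theorem s5f_ok_phys (I : Cell) (z : XV) : S5fOk I (physFn z) :=
  ⟨s5f_phys_measurable z, (s5f_phys_sq_integrable z).integrableOn⟩

theorem s5f_ok_of_bdd (I : Cell) {f : ℝ → ℂ} (hm : Measurable f) {B : ℝ} (hb : ∀ y, ‖f y‖ ≤ B) :
    S5fOk I f := by
  refine ⟨hm, Measure.integrableOn_of_bounded (M := B ^ 2) (cell_volume_ne_top I)
    (hm.norm.pow_const 2).aestronglyMeasurable (Filter.Eventually.of_forall fun y => ?_)⟩
  rw [Real.norm_of_nonneg (by positivity)]
  exact pow_le_pow_left₀ (norm_nonneg _) (hb y) 2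

theorem s5f_ok_add {I : Cell} {a b : ℝ → ℂ} (ha : S5fOk I a) (hb : S5fOk I b) :
    S5fOk I (fun y => a y + b y) := by
  refine ⟨ha.1.add hb.1, ?_⟩
  refine Integrable.mono' ((ha.2.add hb.2).const_mul 2)
    ((ha.1.add hb.1).norm.pow_const 2).aestronglyMeasurable (Filter.Eventually.of_forall fun y => ?_)
  rw [Real.norm_of_nonneg (by positivity)]
  have h1 := norm_add_le (a y) (b y)
  have h2 : ‖a y + b y‖ ^ 2 ≤ (‖a y‖ + ‖b y‖) ^ 2 := pow_le_pow_left₀ (norm_nonneg _) h1 2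
  simp only [Pi.add_apply]
  nlinarith [sq_nonneg (‖a y‖ - ‖b y‖)]

theorem s5f_ok_update {I : Cell} {g : Fin 4 → ℝ → ℂ} (hg : ∀ j, S5fOk I (g j)) (l : Fin 4) {a : ℝ → ℂ}
    (ha : S5fOk I a) : ∀ j, S5fOk I (Function.update g l a j) := by
  intro j
  by_cases h : j = l
  · subst h; simpa using ha
  · simpa [Function.update_of_ne h] using hg j

theorem s5f_ok_update' {I : Cell} {g : Fin 4 → ℝ → ℂ} (l : Fin 4) (hg : ∀ j, j ≠ l → S5fOk I (g j))
    {a : ℝ → ℂ} (ha : S5fOk I a) : ∀ j, S5fOk I (Function.update g l a j) := by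
  intro j
  by_cases h : j = l
  · subst h; simpa using ha
  · simpa [Function.update_of_ne h] using hg j h

theorem s5f_integrable {c0 C0 : ℝ} (hc0 : 0 < c0) {I : Cell} {w : ℝ × ℝ → ℂ} (h : Admissible c0 C0 I w)
    {g : Fin 4 → ℝ → ℂ} (hg : ∀ j, S5fOk I (g j)) :
    Integrable (fun p : ℝ × ℝ => w p * ∏ j : Fin 4, g j (p.1 + (j : ℝ) * p.2)) :=
  nb_form_integrable hc0 h g (fun j => (hg j).1) (fun j => (hg j).2)

theorem s5f_prod_update (g : Fin 4 → ℝ → ℂ) (l : Fin 4) (a : ℝ → ℂ) (y : Fin 4 → ℝ) :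
    ∏ j, (Function.update g l a) j (y j) = a (y l) * ∏ j ∈ Finset.univ.erase l, g j (y j) := by
  rw [← Finset.mul_prod_erase Finset.univ _ (Finset.mem_univ l), Function.update_self]
  congr 1
  refine Finset.prod_congr rfl fun j hj => ?_
  rw [Function.update_of_ne (Finset.ne_of_mem_erase hj)]

theorem s5f_form_update_add {c0 C0 : ℝ} (hc0 : 0 < c0) {I : Cell} {w : ℝ × ℝ → ℂ}
    (h : Admissible c0 C0 I w) {g : Fin 4 → ℝ → ℂ} (l : Fin 4) (hg : ∀ j, j ≠ l → S5fOk I (g j))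
    {a b : ℝ → ℂ} (ha : S5fOk I a) (hb : S5fOk I b) :
    form I w (Function.update g l (fun y => a y + b y))
      = form I w (Function.update g l a) + form I w (Function.update g l b) := by
  unfold form
  rw [← mul_add, ← integral_add (s5f_integrable hc0 h (s5f_ok_update' l hg ha))
    (s5f_integrable hc0 h (s5f_ok_update' l hg hb))]
  congr 2
  funext p
  simp only [s5f_prod_update g l _ (fun j : Fin 4 => p.1 + (j : ℝ) * p.2)]
  ring

theorem s5f_form_update_smul (I : Cell) (w : ℝ × ℝ → ℂ) (g : Fin 4 → ℝ → ℂ) (l : Fin 4) (c : ℂ)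
    (a : ℝ → ℂ) :
    form I w (Function.update g l (fun y => c * a y)) = c * form I w (Function.update g l a) := by
  unfold form
  have e : ∫ p : ℝ × ℝ, w p * ∏ j : Fin 4,
        Function.update g l (fun y => c * a y) j (p.1 + (j : ℝ) * p.2)
      = c * ∫ p : ℝ × ℝ, w p * ∏ j : Fin 4, Function.update g l a j (p.1 + (j : ℝ) * p.2) := by
    rw [← integral_const_mul]
    congr 1
    funext p
    simp only [s5f_prod_update g l _ (fun j : Fin 4 => p.1 + (j : ℝ) * p.2)]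
    ring
  rw [e]
  ring

theorem s5f_update_ae (g : Fin 4 → ℝ → ℂ) (l : Fin 4) {a b : ℝ → ℂ} (hab : a =ᵐ[volume] b) :
    ∀ j, Function.update g l a j =ᵐ[volume] Function.update g l b j := by
  intro j
  by_cases h : j = l
  · subst h; simpa using hab
  · simp [Function.update_of_ne h]

theorem s5f_formV_update (I : Cell) (w : ℝ × ℝ → ℂ) (z : Fin 4 → XV) (l : Fin 4) (v : XV) :
    formV I w (Function.update z l v)
      = form I w (Function.update (fun j => physFn (z j)) l (physFn v)) := by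
  unfold formV
  congr 1
  funext j
  exact Function.apply_update (fun _ => physFn) z l v j

/-- `formV` is multilinear -/
theorem s5f_multilinear (c0 C0 : ℝ) (hc0 : 0 < c0) (I : Cell) (w : ℝ × ℝ → ℂ) (h : Admissible c0 C0 I w) :
    ∃ M : MultilinearMap ℂ (fun _ : Fin 4 => XV) ℂ, ∀ z, M z = formV I w z := by
  refine ⟨{ toFun := fun z => formV I w z, map_update_add' := ?_, map_update_smul' := ?_ },
    fun z => rfl⟩
  · intro inst z l x y
    have : inst = instDecidableEqFin 4 := Subsingleton.elim _ _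
    subst this
    simp only [s5f_formV_update]
    rw [s5f_form_congr_ae I w _ _ (s5f_update_ae _ l (xv_physFn_add x y))]
    exact s5f_form_update_add hc0 h l (fun j _ => s5f_ok_phys I (z j)) (s5f_ok_phys I x)
      (s5f_ok_phys I y)
  · intro inst z l c x
    have : inst = instDecidableEqFin 4 := Subsingleton.elim _ _
    subst this
    simp only [s5f_formV_update]
    rw [s5f_form_congr_ae I w _ _ (s5f_update_ae _ l (xv_physFn_smul c x)), smul_eq_mul]
    exact s5f_form_update_smul I w _ l c _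

/-- Lemma 2.1 with exponents `(2,2,2,2)` for measurable inputs which are square integrable on `I` -/
theorem s5f_form_le {c0 C0 : ℝ} (hc0 : 0 < c0) {I : Cell} {w : ℝ × ℝ → ℂ} (h : Admissible c0 C0 I w)
    {g : Fin 4 → ℝ → ℂ} (hg : ∀ j, S5fOk I (g j)) :
    ‖form I w g‖ ≤ (C0 * 2) ^ (C0 * 2) * ∏ j : Fin 4, nnorm 2 I (g j) := by
  have hK0 : 0 ≤ (C0 * 2) ^ (C0 * 2) := (norm_nonneg _).trans (s2_adm_bound h 0)
  have hlen : 0 < I.len := cell_len_pos I
  have hR0 : 0 ≤ (C0 * 2) ^ (C0 * 2) * ∏ j : Fin 4, nnorm 2 I (g j) :=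
    mul_nonneg hK0 (Finset.prod_nonneg fun j _ => nnorm_nonneg _ _ _)
  rw [← ENNReal.ofReal_le_ofReal_iff hR0, ofReal_norm]
  have h1 := s2_local_abs_enn h hc0 (fun j y => ‖g j y‖ₑ) (fun j => (hg j).1.enorm)
  have h2 : ‖form I w g‖ₑ ≤ (ENNReal.ofReal (I.len ^ 2))⁻¹ *
      ∫⁻ p : ℝ × ℝ, ‖w p‖ₑ * ∏ j : Fin 4, ‖g j (p.1 + (j : ℝ) * p.2)‖ₑ := by
    unfold form
    rw [enorm_mul]
    have e1 : ‖(((I.len ^ 2)⁻¹ : ℝ) : ℂ)‖ₑ = (ENNReal.ofReal (I.len ^ 2))⁻¹ := by
      rw [← ofReal_norm, Complex.norm_real, Real.norm_eq_abs, abs_of_pos (by positivity),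
        ENNReal.ofReal_inv_of_pos (by positivity)]
    rw [e1]
    gcongr
    refine (enorm_integral_le_lintegral_enorm _).trans (le_of_eq ?_)
    refine lintegral_congr fun p => ?_
    rw [enorm_mul, Fin.prod_univ_four, Fin.prod_univ_four, enorm_mul, enorm_mul, enorm_mul]
  refine h2.trans (h1.trans (le_of_eq ?_))
  rw [ENNReal.ofReal_mul hK0, ENNReal.ofReal_prod_of_nonneg (fun j _ => nnorm_nonneg _ _ _)]
  congr 1
  refine Finset.prod_congr rfl fun j _ => ?_
  rw [ofReal_nnorm_eq (by norm_num) I (g j) (by simpa only [Real.rpow_two] using (hg j).2)]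

/-- the normalized `L²(I)` norm of the physical component is at most `n2` -/
theorem s5f_nnorm_phys_le (I : Cell) (z : XV) : nnorm 2 I (physFn z) ≤ n2 I z := by
  have hlen := cell_len_pos I
  have h1 : nnorm 2 I (physFn z) ^ 2 = I.len⁻¹ * ∫ y in I.set, ‖physFn z y‖ ^ 2 := by
    have := nnorm_rpow (p := 2) (by norm_num) I (physFn z)
    simpa only [Real.rpow_two] using this
  have h2 : n2 I z ^ 2 = I.len⁻¹ * ∫ y in I.set, ‖(z : ℝ → HV) y‖ ^ 2 := by
    rw [xv_n2_sq, xv_normsq_restr (cell_measurableSet I), div_eq_inv_mul]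
  have h3 : ∫ y in I.set, ‖physFn z y‖ ^ 2 ≤ ∫ y in I.set, ‖(z : ℝ → HV) y‖ ^ 2 :=
    integral_mono (s5f_phys_sq_integrable z).integrableOn (xv_integrable_normsq z).integrableOn
      fun y => pow_le_pow_left₀ (norm_nonneg _) (xv_physFn_norm_le z y) 2
  refine le_of_pow_le_pow_left₀ (n := 2) (by norm_num) (xv_n2_nonneg I z) ?_
  rw [h1, h2]
  exact mul_le_mul_of_nonneg_left h3 (by positivity)

/-- Lemma 2.1 with exponents `(2,2,2,2)` -/
theorem s5f_bound (c0 C0 : ℝ) (hc0 : 0 < c0) (hC0 : 1 ≤ C0) :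
    ∃ Cw : ℝ, 1 ≤ Cw ∧ ∀ (I : Cell) (w : ℝ × ℝ → ℂ), Admissible c0 C0 I w → ∀ z : Fin 4 → XV,
      ‖formV I w z‖ ≤ Cw * ∏ l, n2 I (z l) := by
  refine ⟨max 1 ((C0 * 2) ^ (C0 * 2)), le_max_left _ _, fun I w h z => ?_⟩
  have h1 := s5f_form_le hc0 h (g := fun j => physFn (z j)) (fun j => s5f_ok_phys I (z j))
  have hK0 : 0 ≤ (C0 * 2) ^ (C0 * 2) := (norm_nonneg _).trans (s2_adm_bound h 0)
  have h2 : ∏ j : Fin 4, nnorm 2 I (physFn (z j)) ≤ ∏ l, n2 I (z l) :=
    Finset.prod_le_prod (fun j _ => nnorm_nonneg _ _ _) fun j _ => s5f_nnorm_phys_le I (z j)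
  have h3 : 0 ≤ ∏ l, n2 I (z l) := Finset.prod_nonneg fun j _ => xv_n2_nonneg _ _
  calc ‖formV I w z‖ ≤ (C0 * 2) ^ (C0 * 2) * ∏ j : Fin 4, nnorm 2 I (physFn (z j)) := h1
    _ ≤ (C0 * 2) ^ (C0 * 2) * ∏ l, n2 I (z l) := mul_le_mul_of_nonneg_left h2 hK0
    _ ≤ _ := mul_le_mul_of_nonneg_right (le_max_right _ _) h3

/-- locality -/
theorem s5f_restr (c0 C0 : ℝ) (hc0 : 0 < c0) (I : Cell) (w : ℝ × ℝ → ℂ) (h : Admissible c0 C0 I w) (z : Fin 4 → XV) :
    formV I w (fun l => restr I.set (z l)) = formV I w z := by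
  unfold formV
  refine s5f_form_congr c0 C0 hc0 I w h _ _ fun l => ?_
  exact Filter.EventuallyEq.trans
    (ae_restrict_of_ae (xv_physFn_restr (cell_measurableSet I) (z l)))
    (indicator_ae_eq_restrict (cell_measurableSet I))

/-- scalar inputs -/
theorem s5f_scalar (c0 C0 : ℝ) (I : Cell) (w : ℝ × ℝ → ℂ) (h : Admissible c0 C0 I w) (f : Fin 4 → ℝ → ℂ)
    (hf : ∀ l, BddCS (f l)) : formV I w (fun l => ofScalar (f l)) = form I w f := by
  unfold formV
  exact s5f_form_congr_ae I w _ _ fun l => xv_physFn_ofScalar ((hf l).memLp 2)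

/-- physical component of a scalar input -/
theorem s5f_phys_ofScalar (f : ℝ → ℂ) (hf : BddCS f) : physFn (ofScalar f) =ᵐ[volume] f := by
  exact xv_physFn_ofScalar (hf.memLp 2)

/-- physical component of a restricted column (`φ` measurable and bounded) -/
theorem s5f_phys_vec (Φ : Col) (I : Cell) (hm : Measurable Φ.phi) (hb : ∀ y, ‖Φ.phi y‖ ≤ 1) :
    physFn (Φ.vec I) =ᵐ[volume] I.set.indicator Φ.phi := by
  exact xv_physFn_vec (xv_reg_of_measurable ⟨hm, hb⟩ I)

theorem s5f_phys_add (x y : XV) : physFn (x + y) =ᵐ[volume] fun t => physFn x t + physFn y t := by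
  exact xv_physFn_add x y

theorem s5f_phys_smul (c : ℂ) (x : XV) : physFn (c • x) =ᵐ[volume] fun t => c * physFn x t := by
  exact xv_physFn_smul c x

theorem s5f_phys_restr (E : Set ℝ) (hE : MeasurableSet E) (x : XV) :
    physFn (restr E x) =ᵐ[volume] E.indicator (physFn x) := by
  exact xv_physFn_restr hE x

theorem s5f_n2_nonneg (I : Cell) (z : XV) : 0 ≤ n2 I z := by
  unfold n2; positivity

theorem s5f_n2_add (I : Cell) (x y : XV) : n2 I (x + y) ≤ n2 I x + n2 I y := by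
  exact xv_n2_add_le I x y

theorem s5f_n2_sub (I : Cell) (x y : XV) : n2 I (x - y) ≤ n2 I x + n2 I y := by
  have h := xv_n2_add_le I x ((-1 : ℂ) • y)
  rw [xv_n2_smul, norm_neg, norm_one, one_mul] at h
  simpa [sub_eq_add_neg] using h

theorem s5f_n2_smul (I : Cell) (c : ℂ) (x : XV) : n2 I (c • x) = ‖c‖ * n2 I x := by
  exact xv_n2_smul I c x

/-- `|I| ‖z‖²_{2,I} = ‖1_I z‖²` -/
theorem s5f_len_n2_sq (I : Cell) (z : XV) : I.len * n2 I z ^ 2 = ‖restr I.set z‖ ^ 2 := by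
  rw [xv_normsq_restr_eq, mul_comm]

/-- normalized `L²` norm of a scalar input is at most its normalized `L^q` norm, `q ≥ 2` -/
theorem s5f_n2_le_nnorm (q : ℝ) (hq : 2 ≤ q) (I : Cell) (f : ℝ → ℂ) (hf : BddCS f) :
    n2 I (ofScalar f) ≤ nnorm q I f := by
  rw [xv_n2_ofScalar I (hf.memLp 2)]
  exact nnorm_mono_exponent (by norm_num) hq hf.meas.aestronglyMeasurable
    (hf.integrableOn_rpow_cell (by linarith) I)

/-- the form of three bounded functions against an `L²` input -/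
theorem s5f_trip_le {c0 C0 : ℝ} (hc0 : 0 < c0) {I : Cell} {w : ℝ × ℝ → ℂ} (h : Admissible c0 C0 I w)
    (l : Fin 4) (φ : Fin 4 → ℝ → ℂ) (hm : ∀ m, m ≠ l → Measurable (φ m))
    (hb : ∀ m, m ≠ l → ∀ y, ‖φ m y‖ ≤ 1) (u : XV) :
    ‖form I w (Function.update φ l (physFn u))‖ ≤ (C0 * 2) ^ (C0 * 2) * n2 I u := by
  have hK0 : 0 ≤ (C0 * 2) ^ (C0 * 2) := (norm_nonneg _).trans (s2_adm_bound h 0)
  have h1 := s5f_form_le hc0 h (g := Function.update φ l (physFn u))
    (s5f_ok_update' l (fun j hj => s5f_ok_of_bdd I (hm j hj) (hb j hj)) (s5f_ok_phys I u))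
  refine h1.trans (mul_le_mul_of_nonneg_left ?_ hK0)
  rw [← Finset.mul_prod_erase Finset.univ _ (Finset.mem_univ l), Function.update_self]
  have h2 : ∏ j ∈ Finset.univ.erase l, nnorm 2 I (Function.update φ l (physFn u) j) ≤ 1 := by
    refine Finset.prod_le_one (fun j _ => nnorm_nonneg _ _ _) fun j hj => ?_
    have hj' := Finset.ne_of_mem_erase hj
    rw [Function.update_of_ne hj']
    exact nnorm_le_of_supLe (by norm_num) zero_le_one fun y _ => hb j hj' y
  calc nnorm 2 I (physFn u) * ∏ j ∈ Finset.univ.erase l, nnorm 2 I (Function.update φ l (physFn u) j)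
      ≤ nnorm 2 I (physFn u) * 1 := mul_le_mul_of_nonneg_left h2 (nnorm_nonneg _ _ _)
    _ ≤ n2 I u := by rw [mul_one]; exact s5f_nnorm_phys_le I u

/-- the norm `𝒜_I` controls the form -/
theorem s5f_tripNorm (c0 C0 : ℝ) (hc0 : 0 < c0) (hC0 : 1 ≤ C0) (I : Cell) (w : ℝ × ℝ → ℂ) (h : Admissible c0 C0 I w)
    (l : Fin 4) (φ : Fin 4 → ℝ → ℂ) (hm : ∀ m, m ≠ l → Measurable (φ m)) (hb : ∀ m, m ≠ l → ∀ y, ‖φ m y‖ ≤ 1) (u : XV) :
    ‖form I w (Function.update φ l (physFn u))‖ ≤ tripNorm I w l φ * n2 I u := by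
  have hK0 : 0 ≤ (C0 * 2) ^ (C0 * 2) := (norm_nonneg _).trans (s2_adm_bound h 0)
  have hE := s5f_trip_le hc0 h l φ hm hb
  have hbdd : BddAbove {x : ℝ | ∃ u : XV, n2 I u ≤ 1 ∧
      x = ‖form I w (Function.update φ l (physFn u))‖} := by
    refine ⟨(C0 * 2) ^ (C0 * 2), ?_⟩
    rintro x ⟨v, hv, rfl⟩
    exact (hE v).trans (by nlinarith)
  rcases (xv_n2_nonneg I u).eq_or_lt with h0 | h0
  · have := hE u
    rw [← h0] at this ⊢
    simpa using this
  · set n := n2 I u with hn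
    have hmem : ‖form I w (Function.update φ l (physFn (((n⁻¹ : ℝ) : ℂ) • u)))‖ ≤ tripNorm I w l φ := by
      refine le_csSup hbdd ⟨((n⁻¹ : ℝ) : ℂ) • u, ?_, rfl⟩
      rw [xv_n2_smul, Complex.norm_real, Real.norm_of_nonneg (by positivity), ← hn,
        inv_mul_cancel₀ h0.ne']
    rw [s5f_form_congr_ae I w _ _ (s5f_update_ae _ l (xv_physFn_smul _ u)),
      s5f_form_update_smul, norm_mul, Complex.norm_real, Real.norm_of_nonneg (by positivity)] at hmem
    rw [inv_mul_le_iff₀ h0] at hmem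
    linarith

theorem s5f_tripNorm_nonneg (I : Cell) (w : ℝ × ℝ → ℂ) (l : Fin 4) (φ : Fin 4 → ℝ → ℂ) : 0 ≤ tripNorm I w l φ := by
  refine Real.sSup_nonneg ?_
  rintro x ⟨u, -, rfl⟩
  exact norm_nonneg _

end Claimed.Agent.R258
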