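/-
Row 258, Sec. 5.3, LEAF P-S5-CMP (architect helper182).   THE COMPARISON ARGUMENT of Lemma 5.5 (pair smallness, terminal remainder) at ONE cell.
No analysis: only multilinearity of `formV` (`s5f_multilinear`), the definitions of `DSmall`, `PairSmall`, Minkowski for `nnorm`.

`Appr q I w l F g δ Sg`: in the slot `l`, on the cell `I`, `g` approximates `F` with accuracy `𝔡_{l,I}(F - g) ≤ δ`, and `‖g_phys‖_{q,I} ≤ Sg`.

* `s5c_pair_one` ("compare the later argument directly with its actual input against the earlier projections"):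
     `g₁' - g₂' = (F' - g₂') - (F' - g₁')`, each residual tested against the `L^q` input `Z`.
* `s5c_pair_two` ("replace the more accurate projection first, using the supremum bound of the other as its opposing `L^q` norm, then the less accurate one against the
     actual `L^q` input; the two-actual terms cancel"):   `H(g_i, g'_j) = H(F,F') + O(e i j)`, and `∑_{i,j} (±)(±) H(F,F') = 0`.
* `s5c_rem`: every term of `psiRem` contains two terminal residuals in different slots.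
Fill the sorries IN PLACE; auxiliary lemmas with prefix `s5c_`.
-/
import Claimed.Agent.R258.S5.Form
import Claimed.Agent.R258.S5.Expand
import Claimed.Agent.R258.Pack011
import Claimed.Agent.R258.Pack005

set_option autoImplicit false
open MeasureTheory

namespace Claimed.Agent.R258

/-- `g` approximates `F` in the slot `l` on `I`: accuracy `δ`, `L^q` size `Sg` -/
structure Appr (q : ℝ) (I : Cell) (w : ℝ × ℝ → ℂ) (l : Fin 4) (F g : XV) (δ Sg : ℝ) : Prop where
  small : DSmall q I w l (restr I.set F - g) δ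
  mem : MemLp (physFn g) (ENNReal.ofReal q) (volume.restrict I.set)
  size : nnorm q I (physFn g) ≤ Sg

/-- `L^q(I)` size of an element of `XV` -/
structure LqLe (q : ℝ) (I : Cell) (Z : XV) (S : ℝ) : Prop where
  mem : MemLp (physFn Z) (ENNReal.ofReal q) (volume.restrict I.set)
  size : nnorm q I (physFn Z) ≤ S

theorem s5c_integrable_rpow {q : ℝ} (hq : 0 < q) {μ : Measure ℝ} {f : ℝ → ℂ}
    (hf : MemLp f (ENNReal.ofReal q) μ) : Integrable (fun y => ‖f y‖ ^ q) μ := by
  have h := hf.integrable_norm_rpow (ENNReal.ofReal_pos.2 hq).ne' ENNReal.ofReal_ne_top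
  rwa [ENNReal.toReal_ofReal hq.le] at h

theorem s5c_lq_sub (q : ℝ) (hq : 1 ≤ q) (I : Cell) (Z Z' : XV) (S S' : ℝ) (h : LqLe q I Z S) (h' : LqLe q I Z' S') :
    LqLe q I (Z - Z') (S + S') := by
  have hq0 : 0 < q := by linarith
  have hae0 : ∀ᵐ y, physFn (Z - Z') y = physFn Z y + (- physFn Z' y) := by
    filter_upwards [xv_physFn_sub Z Z'] with y hy
    rw [hy, sub_eq_add_neg]
  have hae : physFn (Z - Z') =ᵐ[volume.restrict I.set] fun y => physFn Z y + (- physFn Z' y) :=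
    ae_restrict_of_ae hae0
  have hneg : MemLp (fun y => - physFn Z' y) (ENNReal.ofReal q) (volume.restrict I.set) := h'.mem.neg
  refine ⟨MemLp.ae_eq hae.symm (h.mem.add hneg), ?_⟩
  have e1 : nnorm q I (physFn (Z - Z')) = nnorm q I (fun y => physFn Z y + (- physFn Z' y)) :=
    nnorm_congr_ae (hae0.mono fun y hy _ => hy)
  have e2 : nnorm q I (fun y => - physFn Z' y) = nnorm q I (physFn Z') := by
    unfold nnorm
    simp only [norm_neg]
  rw [e1]
  calc nnorm q I (fun y => physFn Z y + (- physFn Z' y))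
      ≤ nnorm q I (physFn Z) + nnorm q I (fun y => - physFn Z' y) :=
        nnorm_add_le hq I h.mem.1 hneg.1 (s5c_integrable_rpow hq0 h.mem) (s5c_integrable_rpow hq0 hneg)
    _ ≤ S + S' := by
        rw [e2]
        exact add_le_add h.size h'.size

theorem Appr.lqLe {q : ℝ} {I : Cell} {w : ℝ × ℝ → ℂ} {l : Fin 4} {F g : XV} {δ Sg : ℝ}
    (h : Appr q I w l F g δ Sg) : LqLe q I g Sg := ⟨h.mem, h.size⟩

theorem s5c_prod_nonneg (I : Cell) (s : Finset (Fin 4)) (z : Fin 4 → XV) : 0 ≤ ∏ k ∈ s, n2 I (z k) :=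
  Finset.prod_nonneg fun k _ => s5f_n2_nonneg I (z k)

theorem s5c_prod_update (I : Cell) (s : Finset (Fin 4)) (z : Fin 4 → XV) (a : Fin 4) (x : XV) (ha : a ∉ s) :
    ∏ k ∈ s, n2 I (Function.update z a x k) = ∏ k ∈ s, n2 I (z k) := by
  refine Finset.prod_congr rfl fun k hk => ?_
  have hka : k ≠ a := fun h => ha (h ▸ hk)
  rw [Function.update_of_ne hka]

/-- the basic use of `DSmall` -/
theorem s5c_key {q : ℝ} {I : Cell} {w : ℝ × ℝ → ℂ} {j : Fin 4} {r : XV} {δ : ℝ} (hD : DSmall q I w j r δ)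
    (hδ : 0 ≤ δ) (z : Fin 4 → XV) (m : Fin 4) (hm : m ≠ j) (y : XV) (S : ℝ) (hL : LqLe q I y S) :
    ‖formV I w (Function.update (Function.update z m y) j r)‖ ≤
      δ * S * ∏ k ∈ (Finset.univ.erase j).erase m, n2 I (z k) := by
  have hzm : Function.update (Function.update z m y) j r m = y := by
    rw [Function.update_of_ne hm, Function.update_self]
  have h1 := hD (Function.update (Function.update z m y) j r) m (Function.update_self _ _ _) hm
    (by rw [hzm]; exact hL.mem)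
  rw [hzm, s5c_prod_update I _ _ j r (by simp), s5c_prod_update I _ _ m y (by simp)] at h1
  refine h1.trans ?_
  exact mul_le_mul_of_nonneg_right (mul_le_mul_of_nonneg_left hL.size hδ) (s5c_prod_nonneg I _ z)

theorem s5c_pair_one (c0 C0 q : ℝ) (hc0 : 0 < c0) (I : Cell) (w : ℝ × ℝ → ℂ) (hw : Admissible c0 C0 I w)
    (l l' : Fin 4) (hl : l ≠ l') (Z F' g₁ g₂ : XV) (S δ₁ δ₂ S₁ S₂ : ℝ) (hZ : LqLe q I Z S)
    (h₁ : Appr q I w l' F' g₁ δ₁ S₁) (h₂ : Appr q I w l' F' g₂ δ₂ S₂) (hδ₁ : 0 ≤ δ₁) (hδ₂ : 0 ≤ δ₂) :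
    PairSmall I w l l' Z (g₁ - g₂) (S * (δ₁ + δ₂)) := by
  obtain ⟨M, hM⟩ := s5f_multilinear c0 C0 hc0 I w hw
  intro z hz hz'
  have k1 := s5c_key h₁.small hδ₁ z l hl Z S hZ
  have k2 := s5c_key h₂.small hδ₂ z l hl Z S hZ
  have hzz : Function.update z l Z = z := by rw [← hz, Function.update_eq_self]
  rw [hzz, ← hM] at k1 k2
  have e : M z = M (Function.update z l' (restr I.set F' - g₂)) -
      M (Function.update z l' (restr I.set F' - g₁)) := by
    rw [← MultilinearMap.map_update_sub]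
    congr 1
    rw [sub_sub_sub_cancel_left, ← hz', Function.update_eq_self]
  rw [← hM, e, Finset.erase_right_comm]
  calc ‖M (Function.update z l' (restr I.set F' - g₂)) - M (Function.update z l' (restr I.set F' - g₁))‖
      ≤ ‖M (Function.update z l' (restr I.set F' - g₂))‖ + ‖M (Function.update z l' (restr I.set F' - g₁))‖ :=
        norm_sub_le _ _
    _ ≤ δ₂ * S * ∏ k ∈ (Finset.univ.erase l').erase l, n2 I (z k) +
        δ₁ * S * ∏ k ∈ (Finset.univ.erase l').erase l, n2 I (z k) := add_le_add k2 k1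
    _ = S * (δ₁ + δ₂) * ∏ k ∈ (Finset.univ.erase l').erase l, n2 I (z k) := by ring


theorem s5c_pair_two (c0 C0 q : ℝ) (hc0 : 0 < c0) (I : Cell) (w : ℝ × ℝ → ℂ) (hw : Admissible c0 C0 I w)
    (l l' : Fin 4) (hl : l ≠ l') (F F' : XV) (hF : LqLe q I (restr I.set F) 1) (hF' : LqLe q I (restr I.set F') 1)
    (g g' : Fin 2 → XV) (δ S δ' S' : Fin 2 → ℝ) (e : Fin 2 → Fin 2 → ℝ)
    (h : ∀ i, Appr q I w l F (g i) (δ i) (S i)) (h' : ∀ i, Appr q I w l' F' (g' i) (δ' i) (S' i))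
    (hδ : ∀ i, 0 ≤ δ i) (hδ' : ∀ i, 0 ≤ δ' i)
    (he : ∀ i j, δ i * S' j + δ' j ≤ e i j ∨ δ' j * S i + δ i ≤ e i j) :
    PairSmall I w l l' (g 0 - g 1) (g' 0 - g' 1) (∑ i, ∑ j, e i j) := by
  obtain ⟨M, hM⟩ := s5f_multilinear c0 C0 hc0 I w hw
  intro z hz hz'
  obtain ⟨P, hP⟩ : ∃ P : ℝ, P = ∏ k ∈ (Finset.univ.erase l).erase l', n2 I (z k) := ⟨_, rfl⟩
  have hP' : P = ∏ k ∈ (Finset.univ.erase l').erase l, n2 I (z k) := by
    rw [hP, Finset.erase_right_comm]
  have hP0 : 0 ≤ P := hP ▸ s5c_prod_nonneg I _ z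
  obtain ⟨H, hH⟩ : ∃ H : XV → XV → ℂ,
      ∀ a b, H a b = M (Function.update (Function.update z l a) l' b) := ⟨_, fun _ _ => rfl⟩
  have hH' : ∀ a b, H a b = M (Function.update (Function.update z l' b) l a) := fun a b => by
    rw [hH, Function.update_comm hl]
  have subL : ∀ a a' b, H (a - a') b = H a b - H a' b := fun a a' b => by
    rw [hH', hH', hH', MultilinearMap.map_update_sub]
  have subR : ∀ a b b', H a (b - b') = H a b - H a b' := fun a b b' => by
    rw [hH, hH, hH, MultilinearMap.map_update_sub]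
  -- the four basic bounds
  have bL : ∀ i (y : XV) (T : ℝ), LqLe q I y T → ‖H (restr I.set F - g i) y‖ ≤ δ i * T * P := by
    intro i y T hy
    rw [hH', hM, hP]
    exact s5c_key (h i).small (hδ i) z l' hl.symm y T hy
  have bR : ∀ j (y : XV) (T : ℝ), LqLe q I y T → ‖H y (restr I.set F' - g' j)‖ ≤ δ' j * T * P := by
    intro j y T hy
    rw [hH, hM, hP']
    exact s5c_key (h' j).small (hδ' j) z l hl y T hy
  have hD : ∀ i j, ‖H (g i) (g' j) - H (restr I.set F) (restr I.set F')‖ ≤ e i j * P := by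
    intro i j
    rcases he i j with hc | hc
    · have e1 : H (g i) (g' j) - H (restr I.set F) (restr I.set F') =
          -(H (restr I.set F - g i) (g' j)) - H (restr I.set F) (restr I.set F' - g' j) := by
        rw [subL, subR]; ring
      rw [e1]
      calc ‖-(H (restr I.set F - g i) (g' j)) - H (restr I.set F) (restr I.set F' - g' j)‖
          ≤ ‖-(H (restr I.set F - g i) (g' j))‖ + ‖H (restr I.set F) (restr I.set F' - g' j)‖ :=
            norm_sub_le _ _
        _ ≤ δ i * S' j * P + δ' j * 1 * P := by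
            rw [norm_neg]
            exact add_le_add (bL i _ _ (h' j).lqLe) (bR j _ _ hF)
        _ = (δ i * S' j + δ' j) * P := by ring
        _ ≤ e i j * P := mul_le_mul_of_nonneg_right hc hP0
    · have e1 : H (g i) (g' j) - H (restr I.set F) (restr I.set F') =
          -(H (g i) (restr I.set F' - g' j)) - H (restr I.set F - g i) (restr I.set F') := by
        rw [subL, subR]; ring
      rw [e1]
      calc ‖-(H (g i) (restr I.set F' - g' j)) - H (restr I.set F - g i) (restr I.set F')‖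
          ≤ ‖-(H (g i) (restr I.set F' - g' j))‖ + ‖H (restr I.set F - g i) (restr I.set F')‖ :=
            norm_sub_le _ _
        _ ≤ δ' j * S i * P + δ i * 1 * P := by
            rw [norm_neg]
            exact add_le_add (bR j _ _ (h i).lqLe) (bL i _ _ hF')
        _ = (δ' j * S i + δ i) * P := by ring
        _ ≤ e i j * P := mul_le_mul_of_nonneg_right hc hP0
  have hz0 : M z = H (g 0 - g 1) (g' 0 - g' 1) := by
    rw [hH, ← hz, ← hz', Function.update_eq_self, Function.update_eq_self]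
  obtain ⟨K, hK⟩ : ∃ K : ℂ, K = H (restr I.set F) (restr I.set F') := ⟨_, rfl⟩
  rw [← hK] at hD
  have hz1 : M z = (H (g 0) (g' 0) - K) - (H (g 0) (g' 1) - K) - (H (g 1) (g' 0) - K) +
      (H (g 1) (g' 1) - K) := by
    rw [hz0, subL, subR, subR]; ring
  rw [← hM, hz1, ← hP, Fin.sum_univ_two, Fin.sum_univ_two, Fin.sum_univ_two]
  calc ‖(H (g 0) (g' 0) - K) - (H (g 0) (g' 1) - K) - (H (g 1) (g' 0) - K) + (H (g 1) (g' 1) - K)‖
      ≤ ‖H (g 0) (g' 0) - K‖ + ‖H (g 0) (g' 1) - K‖ + ‖H (g 1) (g' 0) - K‖ + ‖H (g 1) (g' 1) - K‖ := by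
        refine (norm_add_le _ _).trans (add_le_add ((norm_sub_le _ _).trans
          (add_le_add (norm_sub_le _ _) le_rfl)) le_rfl)
    _ ≤ e 0 0 * P + e 0 1 * P + e 1 0 * P + e 1 1 * P :=
        add_le_add (add_le_add (add_le_add (hD 0 0) (hD 0 1)) (hD 1 0)) (hD 1 1)
    _ = (e 0 0 + e 0 1 + (e 1 0 + e 1 1)) * P := by ring

theorem s5c_formV_zero (c0 C0 : ℝ) (I : Cell) (w : ℝ × ℝ → ℂ) (hw : Admissible c0 C0 I w) (l : Fin 4)
    (z : Fin 4 → XV) (hz : z l = 0) : formV I w z = 0 := by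
  unfold formV
  rw [s5f_form_congr_ae I w (fun j => physFn (z j))
    (Function.update (fun j => physFn (z j)) l (fun _ => 0))]
  · unfold form
    have : ∀ p : ℝ × ℝ, w p * ∏ j : Fin 4,
        Function.update (fun j => physFn (z j)) l (fun _ => 0) j (p.1 + (j : ℝ) * p.2) = 0 := by
      intro p
      rw [Finset.prod_eq_zero (Finset.mem_univ l) (by rw [Function.update_self]), mul_zero]
    simp only [this, integral_zero, mul_zero]
  · intro j
    by_cases hj : j = l
    · subst hj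
      rw [Function.update_self, hz]
      exact xv_physFn_zero
    · rw [Function.update_of_ne hj]

/-- the same with the actual input in place of `g' 0` (accuracy `0`, size `1`) is the case `g' 0 = restr I F'` of `s5c_pair_two`: -/
theorem s5c_appr_self (c0 C0 q : ℝ) (I : Cell) (w : ℝ × ℝ → ℂ) (hw : Admissible c0 C0 I w) (l : Fin 4) (F : XV)
    (hF : LqLe q I (restr I.set F) 1) : Appr q I w l F (restr I.set F) 0 1 := by
  refine ⟨?_, hF.mem, hF.size⟩
  intro z m hz _ _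
  rw [s5c_formV_zero c0 C0 I w hw l z (by rw [hz, sub_self])]
  simp


theorem s5c_card_erase : ∀ l₁ l₂ : Fin 4, l₁ ≠ l₂ → ((Finset.univ.erase l₁).erase l₂).card = 2 := by
  decide

theorem s5c_slots : ∀ l : Fin 4, l + 1 ≠ l ∧ l + 2 ≠ l ∧ l + 1 ≠ l + 2 := by
  decide

/-- the terminal remainder -/
theorem s5c_rem (c0 C0 q : ℝ) (hc0 : 0 < c0) (hq : 1 ≤ q) (I : Cell) (w : ℝ × ℝ → ℂ) (hw : Admissible c0 C0 I w)
    (M : MultilinearMap ℂ (fun _ : Fin 4 => XV) ℂ) (hM : ∀ z, M z = formV I w z)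
    (F : Fin 4 → XV) (hF : ∀ l, LqLe q I (restr I.set (F l)) 1) (hF2 : ∀ l, n2 I (F l) ≤ 1)
    (g : ℕ → XV) (δ S : ℕ → ℝ) (hg : ∀ t, 1 ≤ t → Appr q I w (pos4 t) (F (pos4 t)) (g t) (δ t) (S t))
    (hg2 : ∀ t, n2 I (g t) ≤ 1) (hδ : ∀ t, 0 ≤ δ t) (τ : ℕ) (hτ : 4 ≤ τ) (ε : ℝ)
    (hε : ∀ a b, τ < b + 4 → b < a → a ≤ τ → δ a * (1 + S b) ≤ ε) :
    ‖psiRem M (fun l => restr I.set (F l)) g τ‖ ≤ 20 * ε := by
  have ha3 : ∀ l, τ < lastLev l τ + 4 := fun l => s5x_lastLev_gt l τ hτ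
  have ha2 : ∀ l, lastLev l τ ≤ τ := fun l => s5x_lastLev_le l τ
  have ha1 : ∀ l, 1 ≤ lastLev l τ := fun l => by have := ha3 l; omega
  have ha4 : ∀ l, pos4 (lastLev l τ) = l := fun l =>
    s5x_lastLev_pos4 l τ (by have := ha1 l; omega)
  obtain ⟨R, hR⟩ : ∃ R : Fin 4 → XV, R = fun l => restr I.set (F l) - g (lastLev l τ) := ⟨_, rfl⟩
  have hRa : ∀ l, R l = restr I.set (F l) - g (lastLev l τ) := fun l => by rw [hR]
  have hRsmall : ∀ l, DSmall q I w l (R l) (δ (lastLev l τ)) := by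
    intro l
    have h := (hg (lastLev l τ) (ha1 l)).small
    rw [ha4 l] at h
    rw [hRa]
    exact h
  have hRlq : ∀ l, LqLe q I (R l) (1 + S (lastLev l τ)) := by
    intro l
    rw [hRa]
    exact s5c_lq_sub q hq I _ _ 1 _ (hF l) (hg (lastLev l τ) (ha1 l)).lqLe
  have hRn2 : ∀ l, n2 I (R l) ≤ 2 := by
    intro l
    rw [hRa]
    have h1 := s5f_n2_sub I (restr I.set (F l)) (g (lastLev l τ))
    rw [xv_n2_restr] at h1
    have h2 := hF2 l
    have h3 := hg2 (lastLev l τ)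
    linarith
  have key : ∀ (z : Fin 4 → XV) (l₁ l₂ : Fin 4), lastLev l₂ τ < lastLev l₁ τ → l₁ ≠ l₂ → z l₁ = R l₁ →
      z l₂ = R l₂ → (∀ k, n2 I (z k) ≤ 2) → ‖M z‖ ≤ 4 * ε := by
    intro z l₁ l₂ hlt hl h1 h2 hn
    have hb := hRsmall l₁ z l₂ h1 hl.symm (by rw [h2]; exact (hRlq l₂).mem)
    rw [h2] at hb
    have hN0 : 0 ≤ nnorm q I (physFn (R l₂)) := nnorm_nonneg _ _ _
    have hN := (hRlq l₂).size
    have hP0 : 0 ≤ ∏ k ∈ (Finset.univ.erase l₁).erase l₂, n2 I (z k) := s5c_prod_nonneg I _ z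
    have hP4 : ∏ k ∈ (Finset.univ.erase l₁).erase l₂, n2 I (z k) ≤ 4 := by
      calc ∏ k ∈ (Finset.univ.erase l₁).erase l₂, n2 I (z k)
          ≤ ∏ _k ∈ (Finset.univ.erase l₁).erase l₂, (2 : ℝ) :=
            Finset.prod_le_prod (fun k _ => s5f_n2_nonneg I (z k)) (fun k _ => hn k)
        _ = 4 := by rw [Finset.prod_const, s5c_card_erase l₁ l₂ hl]; norm_num
    have hd := hδ (lastLev l₁ τ)
    have he := hε (lastLev l₁ τ) (lastLev l₂ τ) (ha3 l₂) hlt (ha2 l₁)
    rw [hM]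
    calc ‖formV I w z‖
        ≤ δ (lastLev l₁ τ) * nnorm q I (physFn (R l₂)) *
            ∏ k ∈ (Finset.univ.erase l₁).erase l₂, n2 I (z k) := hb
      _ ≤ δ (lastLev l₁ τ) * (1 + S (lastLev l₂ τ)) *
            ∏ k ∈ (Finset.univ.erase l₁).erase l₂, n2 I (z k) :=
          mul_le_mul_of_nonneg_right (mul_le_mul_of_nonneg_left hN hd) hP0
      _ ≤ δ (lastLev l₁ τ) * (1 + S (lastLev l₂ τ)) * 4 :=
          mul_le_mul_of_nonneg_left hP4 (mul_nonneg hd (hN0.trans hN))
      _ ≤ ε * 4 := mul_le_mul_of_nonneg_right he (by norm_num)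
      _ = 4 * ε := by ring
  have key' : ∀ (z : Fin 4 → XV) (l₁ l₂ : Fin 4), l₁ ≠ l₂ → z l₁ = R l₁ →
      z l₂ = R l₂ → (∀ k, n2 I (z k) ≤ 2) → ‖M z‖ ≤ 4 * ε := by
    intro z l₁ l₂ hl h1 h2 hn
    rcases lt_trichotomy (lastLev l₂ τ) (lastLev l₁ τ) with h | h | h
    · exact key z l₁ l₂ h hl h1 h2 hn
    · exact absurd (by rw [← ha4 l₁, ← ha4 l₂, h]) hl
    · exact key z l₂ l₁ h hl.symm h2 h1 hn
  have hpsi : psiRem M (fun l => restr I.set (F l)) g τ =
      M R + ∑ l, M (Function.update R l (g (lastLev l τ))) := by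
    rw [hR]; rfl
  rw [hpsi]
  have t0 : ‖M R‖ ≤ 4 * ε := key' R 0 1 (by decide) rfl rfl hRn2
  have t1 : ∀ l, ‖M (Function.update R l (g (lastLev l τ)))‖ ≤ 4 * ε := by
    intro l
    obtain ⟨s1, s2, s3⟩ := s5c_slots l
    refine key' _ (l + 1) (l + 2) s3 (Function.update_of_ne s1 _ _) (Function.update_of_ne s2 _ _) ?_
    intro k
    by_cases hk : k = l
    · subst hk
      rw [Function.update_self]
      exact (hg2 _).trans (by norm_num)
    · rw [Function.update_of_ne hk]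
      exact hRn2 k
  calc ‖M R + ∑ l, M (Function.update R l (g (lastLev l τ)))‖
      ≤ ‖M R‖ + ∑ l, ‖M (Function.update R l (g (lastLev l τ)))‖ :=
        (norm_add_le _ _).trans (add_le_add le_rfl (norm_sum_le _ _))
    _ ≤ 4 * ε + ∑ _l : Fin 4, 4 * ε := add_le_add t0 (Finset.sum_le_sum fun l _ => t1 l)
    _ = 20 * ε := by
        rw [Finset.sum_const, Finset.card_univ, Fintype.card_fin]
        simp only [nsmul_eq_mul]
        push_cast
        ring

end Claimed.Agent.R258
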