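/-
Row 258, Sec. 5, LEAF P-S5-ROLL (architect helper182).   CURRENT AND DELAYED PROJECTIONS: contractions, nestedness, rolling energy, coefficients, sizes.
Hilbert-space facts about `cproj A I` (orthogonal projection of `XV = L²(ℝ;HV)` onto the span of the columns of `A` restricted to `I`) and
`dproj m I n = ∑_{Q ∈ cellsAt I n} cproj (m Q) Q`.     Paper: compression.tex l.95-215 (Sec. 3.2, Lemma 3.2), base.tex l.690-720.   If block [S3] (helper93) has a statement, use it.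

KEY FACTS.  (a) the ranges of `cproj (m Q) Q`, `Q ∈ cellsAt I n`, are mutually orthogonal (disjoint supports), so `dproj m I n` is the orthogonal projection onto their sum `W_n(I)`;
(b) INHERITANCE: `W_n(I) ⊆ W_{n+1}(I)` (the restriction of a constant-coefficient combination on `Q` to a child `Q'` is one on `Q'`, as `m Q ⊆ m Q'`); all `W_n(I)` consist of
functions supported in `I`;   (c) hence `dproj m I (n+1) - dproj m I n` are mutually orthogonal projections in `n`, and for fixed `n` and cells `I` of ANY depths the ranges of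
`D_n(I) = dproj m I (n+1) - dproj m I n` are mutually orthogonal [same depth: disjoint supports; `I' < I`: `D_n(I')` lives in level `depth I' + n + 1 > depth I + n + 1` increments of the global nested family
`P_h = ⊕_{depth Q = h}`], so `∑_{I ∈ A} ‖D_n(I) F‖² ≤ ‖restr J F‖²`; triangle inequality over `n < K0` gives `s5r_rolling`.
(d) private coordinates: `‖∑ a_Φ Φ(y)‖² ≥ ∑ ε_Φ |a_Φ|²` pointwise.
Fill the sorries IN PLACE; auxiliary lemmas with prefix `s5r_`.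
-/
import Claimed.Agent.R258.S5.Cmp
import Claimed.Agent.R258.Pack017
import Claimed.Agent.R258.Pack011
import Claimed.Agent.R258.Pack005
import Claimed.Agent.R258.Pack007

set_option autoImplicit false
open MeasureTheory

namespace Claimed.Agent.R258

/-- regularity of the columns of a family (follows from `Bud`) -/
structure ColReg (m : Cell → Finset Col) : Prop where
  meas : ∀ I, ∀ Φ ∈ m I, Measurable Φ.phi
  bdd : ∀ I, ∀ Φ ∈ m I, ∀ y, ‖Φ.phi y‖ ≤ 1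
  eps : ∀ I, ∀ Φ ∈ m I, 0 < Φ.eps ∧ Φ.eps ≤ 1

theorem s5r_dproj_zero (m : Cell → Finset Col) (I : Cell) : dproj m I 0 = cproj (m I) I := by
  exact xv_dproj_zero m I

theorem s5r_restr_dproj (m : Cell → Finset Col) (I : Cell) (n : ℕ) (F : XV) :
    restr I.set (dproj m I n F) = dproj m I n F := by
  exact xv_restr_dproj m I n F

theorem s5r_dproj_restr (m : Cell → Finset Col) (I : Cell) (n : ℕ) (F : XV) :
    dproj m I n (restr I.set F) = dproj m I n F := by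
  exact xv_dproj_restr m I n F

theorem s5r_n2_dproj (m : Cell → Finset Col) (I : Cell) (n : ℕ) (F : XV) : n2 I (dproj m I n F) ≤ n2 I F := by
  apply xv_n2_le_of_norm_le
  rw [xv_restr_dproj]
  exact xv_norm_dproj_le_restr m I n F

theorem s5r_n2_resid (m : Cell → Finset Col) (I : Cell) (n : ℕ) (F : XV) :
    n2 I (restr I.set F - dproj m I n F) ≤ n2 I F := by
  exact xv_n2_resid_le m I n F

theorem s5r_inh_sub' {R R' : Cell} (hR : R' ≤ R) {m : Cell → Finset Col} (h : Inh R m) : Inh R' m :=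
  ⟨h.birth, fun I I' hI hI' => h.mono I I' (hI.trans hR) hI', h.lab⟩

/-- a rolling difference is not larger than the restriction -/
theorem s5r_norm_roll {I : Cell} {m : Cell → Finset Col} (hm : Inh I m) (n : ℕ) (F : XV) :
    ‖dproj m I n F - cproj (m I) I F‖ ≤ ‖restr I.set F‖ := by
  have h1 : ‖dproj m I n F - dproj m I 0 F‖ ^ 2 = ‖dproj m I n F‖ ^ 2 - ‖dproj m I 0 F‖ ^ 2 := by
    rw [pj_dproj_eq, pj_dproj_eq]
    exact xv_normsq_proj_sub (pj_span_mono hm (Nat.zero_le n)) F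
  rw [xv_dproj_zero] at h1
  have h2 := xv_norm_dproj_le_restr m I n F
  have h3 : ‖dproj m I n F - cproj (m I) I F‖ ^ 2 ≤ ‖restr I.set F‖ ^ 2 := by
    have := pow_le_pow_left₀ (norm_nonneg _) h2 2
    nlinarith [sq_nonneg ‖cproj (m I) I F‖]
  exact (abs_le_of_sq_le_sq' h3 (norm_nonneg _)).2

theorem s5r_restr_roll (m : Cell → Finset Col) (I : Cell) (n : ℕ) (F : XV) :
    restr I.set (dproj m I n F - cproj (m I) I F) = dproj m I n F - cproj (m I) I F := by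
  rw [map_sub, xv_restr_dproj, xv_restr_cproj]

/-- a rolling difference is a contraction -/
theorem s5r_n2_roll (R : Cell) (m : Cell → Finset Col) (hm : Inh R m) (I : Cell) (hI : I ≤ R) (n : ℕ) (F : XV) :
    n2 I (dproj m I n F - cproj (m I) I F) ≤ n2 I F := by
  apply xv_n2_le_of_norm_le
  rw [s5r_restr_roll]
  exact s5r_norm_roll (s5r_inh_sub' hI hm) n F

/-- the delayed projection of a cell of generation `h` is a block of the delayed projection of the root -/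
theorem s5r_dproj_block (m : Cell → Finset Col) {J I : Cell} {h : ℕ} (hI : I ∈ cellsAt J h) (k : ℕ) (F : XV) :
    dproj m I k F = restr I.set (dproj m J (h + k) F) := by
  rw [xv_dproj_apply, xv_dproj_apply, cell_sum_cellsAt_add, map_sum]
  symm
  rw [Finset.sum_eq_single I]
  · rw [map_sum]
    exact Finset.sum_congr rfl fun Q hQ => xv_restr_cproj_le _ (pj_le_root hQ) F
  · intro I' hI' hne
    rw [map_sum]
    refine Finset.sum_eq_zero fun Q hQ => pj_restr_cproj_disj _ ?_ F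
    exact (cell_cellsAt_pairwiseDisjoint J h hI' hI hne).mono_left (cell_set_subset (pj_le_root hQ))
  · intro hn; exact absurd hI hn

/-- the energy of one step of the rolling differences, cells of all depths -/
theorem s5r_step_energy {J : Cell} {m : Cell → Finset Col} (hm : Inh J m) (k : ℕ) (F : XV) (A : Finset Cell)
    (hA : ∀ I ∈ A, I ≤ J) : ∑ I ∈ A, ‖dproj m I (k + 1) F - dproj m I k F‖ ^ 2 ≤ ‖restr J.set F‖ ^ 2 := by
  obtain ⟨N, hN⟩ := cell_exists_cellsUpTo J A hA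
  calc ∑ I ∈ A, ‖dproj m I (k + 1) F - dproj m I k F‖ ^ 2
      ≤ ∑ I ∈ cellsUpTo J N, ‖dproj m I (k + 1) F - dproj m I k F‖ ^ 2 :=
        Finset.sum_le_sum_of_subset_of_nonneg hN fun _ _ _ => sq_nonneg _
    _ = ∑ h ∈ Finset.range (N + 1), ∑ I ∈ cellsAt J h, ‖dproj m I (k + 1) F - dproj m I k F‖ ^ 2 :=
        cell_sum_cellsUpTo J N _
    _ = ∑ h ∈ Finset.range (N + 1),
          ‖dproj m J (h + k + 1) (restr J.set F) - dproj m J (h + k) (restr J.set F)‖ ^ 2 := by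
        refine Finset.sum_congr rfl fun h _ => ?_
        rw [pj_dproj_restr, pj_dproj_restr, ← pj_restr_dproj m J (h + k + 1), ← pj_restr_dproj m J (h + k), ← map_sub,
          ← pj_sum_normsq_restr J h]
        refine Finset.sum_congr rfl fun I hI => ?_
        rw [s5r_dproj_block m hI, s5r_dproj_block m hI, ← map_sub, add_assoc]
    _ ≤ ‖restr J.set F‖ ^ 2 :=
        pj_bessel hm (Finset.range (N + 1)) (fun h => h + k) (fun h => h + k + 1) (fun _ _ => Nat.le_succ _)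
          (fun i _ j _ hij => by
            rcases Nat.lt_or_gt_of_ne hij with h1 | h1
            · left; omega
            · right; omega) _

/-- **rolling energy** (base.tex l.700-715) -/
theorem s5r_rolling (J : Cell) (m : Cell → Finset Col) (hm : Inh J m) (n : ℕ) (F : XV) (A : Finset Cell)
    (hA : ∀ I ∈ A, I ≤ J) :
    ∑ I ∈ A, ‖dproj m I n F - cproj (m I) I F‖ ^ 2 ≤ (n : ℝ) ^ 2 * ‖restr J.set F‖ ^ 2 := by
  have h1 : ∀ I, ‖dproj m I n F - cproj (m I) I F‖ ^ 2 ≤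
      (n : ℝ) * ∑ k ∈ Finset.range n, ‖dproj m I (k + 1) F - dproj m I k F‖ ^ 2 := by
    intro I
    have e : dproj m I n F - cproj (m I) I F = ∑ k ∈ Finset.range n, (dproj m I (k + 1) F - dproj m I k F) := by
      rw [Finset.sum_range_sub (fun k => dproj m I k F), xv_dproj_zero]
    rw [e]
    calc ‖∑ k ∈ Finset.range n, (dproj m I (k + 1) F - dproj m I k F)‖ ^ 2
        ≤ (∑ k ∈ Finset.range n, ‖dproj m I (k + 1) F - dproj m I k F‖) ^ 2 :=
          pow_le_pow_left₀ (norm_nonneg _) (norm_sum_le _ _) 2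
      _ ≤ ((Finset.range n).card : ℝ) * ∑ k ∈ Finset.range n, ‖dproj m I (k + 1) F - dproj m I k F‖ ^ 2 :=
          sq_sum_le_card_mul_sum_sq
      _ = _ := by rw [Finset.card_range]
  calc ∑ I ∈ A, ‖dproj m I n F - cproj (m I) I F‖ ^ 2
      ≤ ∑ I ∈ A, (n : ℝ) * ∑ k ∈ Finset.range n, ‖dproj m I (k + 1) F - dproj m I k F‖ ^ 2 :=
        Finset.sum_le_sum fun I _ => h1 I
    _ = (n : ℝ) * ∑ k ∈ Finset.range n, ∑ I ∈ A, ‖dproj m I (k + 1) F - dproj m I k F‖ ^ 2 := by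
        rw [← Finset.mul_sum, Finset.sum_comm]
    _ ≤ (n : ℝ) * ∑ _k ∈ Finset.range n, ‖restr J.set F‖ ^ 2 :=
        mul_le_mul_of_nonneg_left (Finset.sum_le_sum fun k _ => s5r_step_energy hm k F A hA) (Nat.cast_nonneg n)
    _ = (n : ℝ) ^ 2 * ‖restr J.set F‖ ^ 2 := by
        rw [Finset.sum_const, Finset.card_range, nsmul_eq_mul]; ring

/-- coefficients of a current projection: representation and the private-coordinate bound (Lemma 3.2) -/
theorem s5r_coef (A : Finset Col) (I : Cell) (hlab : ∀ Φ ∈ A, ∀ Φ' ∈ A, Φ.lab = Φ'.lab → Φ = Φ')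
    (hmeas : ∀ Φ ∈ A, Measurable Φ.phi) (hbdd : ∀ Φ ∈ A, ∀ y, ‖Φ.phi y‖ ≤ 1) (heps : ∀ Φ ∈ A, 0 < Φ.eps) (F : XV) :
    ∃ a : Col → ℂ, cproj A I F = ∑ Φ ∈ A, a Φ • Φ.vec I ∧ ∑ Φ ∈ A, Φ.eps * ‖a Φ‖ ^ 2 ≤ n2 I F ^ 2 := by
  obtain ⟨a, ha⟩ := xv_cproj_exists_coef A I F
  refine ⟨a, ha, ?_⟩
  have hreg : ∀ Φ ∈ A, Φ.Reg I := fun Φ hΦ => xv_reg_of_measurable ⟨hmeas Φ hΦ, hbdd Φ hΦ⟩ I
  have h1 := xv_lower hreg hlab (fun Φ hΦ => (heps Φ hΦ).le) a
  rw [← ha] at h1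
  have h2 : ‖cproj A I F‖ ^ 2 ≤ n2 I F ^ 2 * I.len := by
    rw [← xv_normsq_restr_eq]
    exact pow_le_pow_left₀ (norm_nonneg _) (xv_norm_cproj_le_restr A I F) 2
  have h3 := cell_len_pos I
  have h4 : I.len * ∑ Φ ∈ A, Φ.eps * ‖a Φ‖ ^ 2 ≤ I.len * n2 I F ^ 2 := by linarith
  exact le_of_mul_le_mul_left h4 h3

/-- an a.e. bound on the cell gives the `L^q` size -/
theorem s5r_lq_of_bdd (q : ℝ) (hq : 1 ≤ q) (I : Cell) (Z : XV) (S : ℝ) (hS : 0 ≤ S)
    (h : ∀ᵐ y, y ∈ I.set → ‖physFn Z y‖ ≤ S) : LqLe q I Z S := by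
  classical
  constructor
  · have := xv_cell_finite I
    refine MemLp.of_bound (xv_physFn_aesm Z).restrict S ?_
    rw [ae_restrict_iff' (cell_measurableSet I)]
    exact h
  · have e : nnorm q I (physFn Z) = nnorm q I (fun y => if ‖physFn Z y‖ ≤ S then physFn Z y else 0) := by
      apply nnorm_congr_ae
      filter_upwards [h] with y hy hyI
      rw [if_pos (hy hyI)]
    rw [e]
    refine nnorm_le_of_supLe (by linarith) hS fun y _ => ?_
    split_ifs with h1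
    · exact h1
    · simpa using hS

/-- supremum bound of a combination of bounded columns -/
theorem s5r_sup_comb (A : Finset Col) (I : Cell) (hmeas : ∀ Φ ∈ A, Measurable Φ.phi)
    (hbdd : ∀ Φ ∈ A, ∀ y, ‖Φ.phi y‖ ≤ 1) (a : Col → ℂ) :
    ∀ᵐ y, y ∈ I.set → ‖physFn (∑ Φ ∈ A, a Φ • Φ.vec I) y‖ ≤ ∑ Φ ∈ A, ‖a Φ‖ := by
  have hreg : ∀ Φ ∈ A, Φ.Reg I := fun Φ hΦ => xv_reg_of_measurable ⟨hmeas Φ hΦ, hbdd Φ hΦ⟩ I
  filter_upwards [xv_sum_vec_ae hreg a] with y hy hyI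
  unfold physFn phys
  rw [hy, Set.indicator_of_mem hyI, lp.coeFn_sum, Finset.sum_apply]
  refine (norm_sum_le _ _).trans (Finset.sum_le_sum fun Φ hΦ => ?_)
  rw [lp.coeFn_smul, Pi.smul_apply, xv_fn_zero, smul_eq_mul, norm_mul]
  exact mul_le_of_le_one_right (norm_nonneg _) (hbdd Φ hΦ y)

/-- `L^q` size (indeed supremum bound) of a combination of bounded columns -/
theorem s5r_lq_comb (q : ℝ) (hq : 1 ≤ q) (A : Finset Col) (I : Cell) (hmeas : ∀ Φ ∈ A, Measurable Φ.phi)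
    (hbdd : ∀ Φ ∈ A, ∀ y, ‖Φ.phi y‖ ≤ 1) (a : Col → ℂ) :
    LqLe q I (∑ Φ ∈ A, a Φ • Φ.vec I) (∑ Φ ∈ A, ‖a Φ‖) := by
  exact s5r_lq_of_bdd q hq I _ _ (Finset.sum_nonneg fun _ _ => norm_nonneg _) (s5r_sup_comb A I hmeas hbdd a)

/-- supremum bound of a current projection -/
theorem s5r_sup_cproj (A : Finset Col) (I : Cell) (hlab : ∀ Φ ∈ A, ∀ Φ' ∈ A, Φ.lab = Φ'.lab → Φ = Φ')
    (hmeas : ∀ Φ ∈ A, Measurable Φ.phi) (hbdd : ∀ Φ ∈ A, ∀ y, ‖Φ.phi y‖ ≤ 1) (D : ℝ)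
    (heps : ∀ Φ ∈ A, 0 < Φ.eps ∧ D⁻¹ ≤ Real.sqrt Φ.eps) (hD : 0 < D) (F : XV) :
    ∀ᵐ y, y ∈ I.set → ‖physFn (cproj A I F) y‖ ≤ Real.sqrt A.card * D * n2 I F := by
  obtain ⟨a, ha, hb⟩ := s5r_coef A I hlab hmeas hbdd (fun Φ hΦ => (heps Φ hΦ).1) F
  have hn := xv_n2_nonneg I F
  have h1 : ∑ Φ ∈ A, ‖a Φ‖ ^ 2 ≤ D ^ 2 * n2 I F ^ 2 := by
    calc ∑ Φ ∈ A, ‖a Φ‖ ^ 2 ≤ ∑ Φ ∈ A, D ^ 2 * (Φ.eps * ‖a Φ‖ ^ 2) := by
          refine Finset.sum_le_sum fun Φ hΦ => ?_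
          obtain ⟨e1, e2⟩ := heps Φ hΦ
          have e3 : 1 ≤ D * Real.sqrt Φ.eps := by
            rw [inv_le_iff_one_le_mul₀ hD] at e2
            linarith
          have e4 : 1 ≤ D ^ 2 * Φ.eps := by
            have : (D * Real.sqrt Φ.eps) ^ 2 = D ^ 2 * Φ.eps := by rw [mul_pow, Real.sq_sqrt e1.le]
            rw [← this]
            exact one_le_pow₀ e3
          nlinarith [sq_nonneg ‖a Φ‖]
      _ = D ^ 2 * ∑ Φ ∈ A, Φ.eps * ‖a Φ‖ ^ 2 := (Finset.mul_sum _ _ _).symm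
      _ ≤ D ^ 2 * n2 I F ^ 2 := mul_le_mul_of_nonneg_left hb (sq_nonneg _)
  have h2 : (∑ Φ ∈ A, ‖a Φ‖) ^ 2 ≤ (Real.sqrt A.card * D * n2 I F) ^ 2 := by
    calc (∑ Φ ∈ A, ‖a Φ‖) ^ 2 ≤ (A.card : ℝ) * ∑ Φ ∈ A, ‖a Φ‖ ^ 2 := sq_sum_le_card_mul_sum_sq
      _ ≤ (A.card : ℝ) * (D ^ 2 * n2 I F ^ 2) := mul_le_mul_of_nonneg_left h1 (Nat.cast_nonneg _)
      _ = (Real.sqrt A.card * D * n2 I F) ^ 2 := by
          rw [mul_pow, mul_pow, Real.sq_sqrt (Nat.cast_nonneg _)]; ring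
  have h3 : ∑ Φ ∈ A, ‖a Φ‖ ≤ Real.sqrt A.card * D * n2 I F := (abs_le_of_sq_le_sq' h2 (by positivity)).2
  rw [ha]
  filter_upwards [s5r_sup_comb A I hmeas hbdd a] with y hy hyI
  exact (hy hyI).trans h3

/-- `L^q` size of a current projection: `√(#A) · max ε^{-1/2} · ‖F‖_{2,I}` -/
theorem s5r_lq_cproj (q : ℝ) (hq : 1 ≤ q) (A : Finset Col) (I : Cell)
    (hlab : ∀ Φ ∈ A, ∀ Φ' ∈ A, Φ.lab = Φ'.lab → Φ = Φ')
    (hmeas : ∀ Φ ∈ A, Measurable Φ.phi) (hbdd : ∀ Φ ∈ A, ∀ y, ‖Φ.phi y‖ ≤ 1) (D : ℝ)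
    (heps : ∀ Φ ∈ A, 0 < Φ.eps ∧ D⁻¹ ≤ Real.sqrt Φ.eps) (hD : 0 < D) (F : XV) :
    LqLe q I (cproj A I F) (Real.sqrt A.card * D * n2 I F) := by
  have hn := xv_n2_nonneg I F
  exact s5r_lq_of_bdd q hq I _ _ (by positivity) (s5r_sup_cproj A I hlab hmeas hbdd D heps hD F)

theorem s5r_n2_cellsAt {I Q : Cell} {n : ℕ} (hQ : Q ∈ cellsAt I n) (F : XV) :
    n2 Q F ≤ (2 : ℝ) ^ ((n : ℝ) / 2) * n2 I F := by
  have hI := cell_len_pos I
  have h2 : ((2 : ℝ) ^ ((n : ℝ) / 2)) ^ 2 = 2 ^ n := by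
    rw [← Real.rpow_natCast, ← Real.rpow_mul (by norm_num)]
    have : (n : ℝ) / 2 * ((2 : ℕ) : ℝ) = n := by push_cast; ring
    rw [this, Real.rpow_natCast]
  have h1 : n2 Q F ^ 2 ≤ ((2 : ℝ) ^ ((n : ℝ) / 2) * n2 I F) ^ 2 := by
    rw [mul_pow, h2, xv_n2_sq, xv_n2_sq, cell_len_of_mem_cellsAt hQ]
    have h3 := pow_le_pow_left₀ (norm_nonneg _) (xv_norm_restr_cell_mono (pj_le_root hQ) F) 2
    rw [div_div_eq_mul_div, mul_comm, mul_div_assoc]
    gcongr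
  have := xv_n2_nonneg I F
  exact (abs_le_of_sq_le_sq' h1 (by positivity)).2

/-- `L^q` size of a delayed projection on the coarse cell: `‖F‖_{2,Q} ≤ 2^{n/2} ‖F‖_{2,I}` for `Q ∈ cellsAt I n` -/
theorem s5r_lq_dproj (q : ℝ) (hq : 1 ≤ q) (m : Cell → Finset Col) (I : Cell) (n : ℕ)
    (hlab : ∀ Q ∈ cellsAt I n, ∀ Φ ∈ m Q, ∀ Φ' ∈ m Q, Φ.lab = Φ'.lab → Φ = Φ') (hreg : ColReg m) (D : ℝ) (hD : 0 < D)
    (heps : ∀ Q ∈ cellsAt I n, ∀ Φ ∈ m Q, D⁻¹ ≤ Real.sqrt Φ.eps) (hcard : ∀ Q ∈ cellsAt I n, ((m Q).card : ℝ) ≤ D) (F : XV) :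
    LqLe q I (dproj m I n F) (Real.sqrt D * D * (2 : ℝ) ^ ((n : ℝ) / 2) * n2 I F) := by
  have hn := xv_n2_nonneg I F
  refine s5r_lq_of_bdd q hq I _ _ (by positivity) ?_
  have h1 : ∀ Q ∈ cellsAt I n, ∀ᵐ y, y ∈ Q.set →
      ‖physFn (dproj m I n F) y‖ ≤ Real.sqrt D * D * (2 : ℝ) ^ ((n : ℝ) / 2) * n2 I F := by
    intro Q hQ
    have h2 := s5r_sup_cproj (m Q) Q (hlab Q hQ) (hreg.meas Q) (hreg.bdd Q) D
      (fun Φ hΦ => ⟨(hreg.eps Q Φ hΦ).1, heps Q hQ Φ hΦ⟩) hD F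
    have h3 := xv_physFn_restr (cell_measurableSet Q) (dproj m I n F)
    rw [pj_restr_dproj_cell m hQ] at h3
    filter_upwards [h2, h3] with y hy2 hy3 hyQ
    rw [Set.indicator_of_mem hyQ] at hy3
    rw [← hy3]
    refine (hy2 hyQ).trans ?_
    calc Real.sqrt (m Q).card * D * n2 Q F ≤ Real.sqrt D * D * ((2 : ℝ) ^ ((n : ℝ) / 2) * n2 I F) := by
          have e1 := Real.sqrt_le_sqrt (hcard Q hQ)
          have e2 := s5r_n2_cellsAt hQ F
          have e3 := xv_n2_nonneg Q F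
          gcongr
      _ = _ := by ring
  filter_upwards [(Finset.eventually_all (cellsAt I n)).2 h1] with y hy hyI
  rw [← cell_cellsAt_iUnion I n] at hyI
  simp only [Set.mem_iUnion] at hyI
  obtain ⟨Q, hQ, hyQ⟩ := hyI
  exact hy Q hQ hyQ

/-- `L^q` size of an actual input -/
theorem s5r_lq_scalar (q : ℝ) (hq : 1 ≤ q) (I : Cell) (f : ℝ → ℂ) (hf : BddCS f) :
    LqLe q I (restr I.set (ofScalar f)) (nnorm q I f) := by
  have hf2 : MemLp f 2 volume := hf.memLp 2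
  have h1 : ∀ᵐ y, y ∈ I.set → physFn (restr I.set (ofScalar f)) y = f y := by
    filter_upwards [xv_physFn_restr (cell_measurableSet I) (ofScalar f), xv_physFn_ofScalar hf2] with y h1 h2 hyI
    rw [h1, Set.indicator_of_mem hyI, h2]
  constructor
  · refine ((hf.memLp (ENNReal.ofReal q)).restrict I.set).ae_eq ?_
    rw [Filter.EventuallyEq, ae_restrict_iff' (cell_measurableSet I)]
    filter_upwards [h1] with y hy hyI
    exact (hy hyI).symm
  · exact le_of_eq (nnorm_congr_ae h1)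

/-- `Bud` gives the regularity of the columns (atoms are measurable) -/
theorem s5r_reg_of_bud (R : Cell) (m : Cell → Finset Col) (ch : ℕ → Chart) (D : ℝ) (h : Bud R m ch D) (hD : 0 < D) :
    ColReg m := by
  refine ⟨fun I Φ hΦ => ?_, fun I Φ hΦ y => ?_, fun I Φ hΦ => ⟨?_, (h.eps I Φ hΦ).2⟩⟩
  · rw [h.chart I Φ hΦ]
    exact xv_chart_measurable _ (h.cplx I Φ hΦ)
  · rw [h.chart I Φ hΦ]
    exact h.bdd I Φ hΦ y
  · have h1 : 0 < Real.sqrt Φ.eps := lt_of_lt_of_le (inv_pos.2 hD) (h.eps I Φ hΦ).1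
    exact Real.sqrt_pos.1 h1

/-- complexity is monotone -/
theorem s5r_cplx_mono (a : Chart) (H H' : ℝ) (h : a.Cplx H) (hH : H ≤ H') : a.Cplx H' := by
  have h0 : 0 < H := lt_of_lt_of_le (Real.exp_pos 2) h.H_ge
  refine ⟨h.H_ge.trans hH, h.dim.trans (Real.log_le_log h0 hH), fun i j => (h.height i j).trans hH, h.smooth,
    fun x hx i => (h.supp x hx i).trans hH, fun n x => (h.deriv n x).trans ?_, h.unit⟩
  have hc : 0 ≤ cGev * ((n : ℝ) + 1) := by unfold cGev; positivity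
  exact mul_le_mul_of_nonneg_right (Real.rpow_le_rpow h0.le hH hc) (by positivity)

theorem s5r_bud_mono (R : Cell) (m : Cell → Finset Col) (ch : ℕ → Chart) (D D' : ℝ) (h : Bud R m ch D) (hD : D ≤ D') :
    Bud R m ch D' := by
  refine ⟨h.chart, fun I Φ hΦ => s5r_cplx_mono _ D D' (h.cplx I Φ hΦ) hD, h.bdd, fun I Φ hΦ => ⟨?_, (h.eps I Φ hΦ).2⟩,
    fun I hI A hA => (h.count I hI A hA).trans hD⟩
  have h0 : 0 < D := lt_of_lt_of_le (Real.exp_pos 2) (h.cplx I Φ hΦ).H_ge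
  exact (inv_anti₀ h0 hD).trans (h.eps I Φ hΦ).1

theorem s5r_inh_sub (R R' : Cell) (hR : R' ≤ R) (m : Cell → Finset Col) (h : Inh R m) : Inh R' m := by
  exact s5r_inh_sub' hR h

theorem s5r_bud_sub (R R' : Cell) (hR : R' ≤ R) (m : Cell → Finset Col) (ch : ℕ → Chart) (D : ℝ) (h : Bud R m ch D) :
    Bud R' m ch D := by
  refine ⟨h.chart, h.cplx, h.bdd, h.eps, fun I hI A hA => h.count I (hI.trans hR) A fun Φ hΦ => ?_⟩
  obtain ⟨⟨I', hI', hm⟩, hb⟩ := hA Φ hΦ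
  exact ⟨⟨I', hI'.trans hR, hm⟩, hb⟩

/-- admissible sequences used in Prop. 5.6: `F - P^{prev}_I F` -/
theorem s5r_adm_resid (J : Cell) (F : XV) (m : Cell → Finset Col) (ch : ℕ → Chart) (Dh : ℝ) (hm : Inh J m)
    (hb : Bud J m ch Dh) : AdmSeq J F Dh 0 (fun I => restr I.set F - cproj (m I) I F) := by
  refine ⟨1, ![-1, 0, 0], fun _ => m, fun _ => ch, fun _ => 0, by simp, ?_, fun _ => hm, fun _ => hb, by simp,
    fun A _ => by simp, fun I _ => ?_⟩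
  · intro i; fin_cases i <;> simp
  · simp [Fin.sum_univ_three, sub_eq_add_neg]

/-- admissible sequences used in Prop. 5.6: `P^{new}_{s+K0} F - P^{prev}_I F` -/
theorem s5r_adm_delayed (J : Cell) (F : XV) (m m' : Cell → Finset Col) (ch ch' : ℕ → Chart) (Dh : ℝ) (K0 : ℕ)
    (hm : Inh J m) (hb : Bud J m ch Dh) (hm' : Inh J m') (hb' : Bud J m' ch' Dh) :
    AdmSeq J F Dh K0 (fun I => dproj m' I K0 F - cproj (m I) I F) := by
  refine ⟨0, ![1, -1, 0], ![m', m, m], ![ch', ch, ch], fun I => dproj m' I K0 F - cproj (m' I) I F, by simp, ?_, ?_, ?_,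
    fun I => s5r_restr_roll m' I K0 F, fun A hA => s5r_rolling J m' hm' K0 F A hA, fun I _ => ?_⟩
  · intro i; fin_cases i <;> simp
  · intro i; fin_cases i <;> simp [hm, hm']
  · intro i; fin_cases i <;> simp [hb, hb']
  · simp [Fin.sum_univ_three]
    abel

end Claimed.Agent.R258
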