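/-
Row 258, Sec. 5.1-5.2 (base.tex l.30-420), BLOCK [S5a].   EXPORT consumed by the assembly of Prop. 5.6 (architect of the consumer: helper182).

`s5a_pair` = Corollary 5.2 (finite predictor list) + Lemma 5.3 (delayed predictor replacement), for ONE pair of low atoms
`φ` (slot `i`), `φ'` (slot `j`), with the residual `F_a - P_{a,s+K0} F_a` in the slot `a` and an admissible sequence in the slot `b`:

* the predictor list `ρ ν` (the CONJUGATES `\bar ψ_a` of the multipliers of (6), as charts) depends only on `(i,j,a,b,φ,φ',B)`: not on the root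
  `J`, the scale, the inputs or the kernels;   its size and complexities are `≤ Dp ≤ exp (C (1 + B + log Hlow)^C)`;
* if an inherited family `m` of budget `Dh` contains all predictor columns `(ρ ν, √ε e_p)` on all cells below `J`, then the absolute
  length-weighted sum over ANY finite collection of cells below `J` is at most
  `(e^{-B} + (2^{-K0} + (1+K0) √ε) Dp^C) · (C (1 + log Dh + L + K0))^C · ‖1_J F_a‖ ‖1_J F_b‖`.

PROOF (paper): Lemma 4.5 (ap-separation) for `φ(y_i) φ'(y_j)`; Lemma 5.1 (`lem:low-scale-sum`, display (5)) for each separated term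
[inputs: `F_a - P_{s+K0}F_a = F_a - P_s F_a - (rolling difference)`, an admissible sequence with `L_a ≤ C(1+K0)`]; discard high shells and small
`A_r`-bands (error `e^{-B}`); Lemma 4.4 pooled tails; then Lemma 5.3, display (7), for each retained term (6).
The internal chain (5), (6), (7) is to be designed by the architect of [S5a] (files S5/A*.lean, prefix `s5a_`).
Consumes: S3 (compression, height bins), S4a (weyl, chart-expansion, ap-separation, single-scale-separation), GEV.
-/
import Claimed.Agent.R258.Pack006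
import Claimed.Agent.R258.S5a.Top
import Claimed.Agent.R258.Weyl.Adapt1

set_option autoImplicit false
open MeasureTheory

namespace Claimed.Agent.R258

theorem s5a_pair (c0 C0 : ℝ) (hc0 : 0 < c0) (hC0 : 1 ≤ C0) :
    ∃ C : ℝ, 1 ≤ C ∧ ∀ i j a b : Fin 4, slot4 i j a b → ∀ (φ φ' : Chart) (Hlow B : ℝ),
      φ.Cplx Hlow → φ'.Cplx Hlow → φ.Bdd → φ'.Bdd → 1 ≤ B →
      ∃ (n : ℕ) (ρ : Fin n → Chart) (Dp : ℝ),
        1 ≤ Dp ∧ Dp ≤ qpoly C (B + Real.log Hlow) ∧ (n : ℝ) ≤ Dp ∧ (∀ ν, (ρ ν).Cplx Dp ∧ (ρ ν).Bdd) ∧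
        ∀ (J : Cell) (fa fb : ℝ → ℂ) (K0 : ℕ) (ε Dh L : ℝ) (m : Cell → Finset Col) (ch : ℕ → Chart),
          BddCS fa → BddCS fb → 0 < ε → ε ≤ 1 → 0 ≤ L → Inh J m → Bud J m ch Dh →
          (∀ ν, ∃ Φ : Col, Φ.phi = (ρ ν).eval ∧ Φ.eps = ε ∧ ∀ I, I ≤ J → Φ ∈ m I) →
          ∀ zb : Cell → XV, AdmSeq J (ofScalar fb) Dh L zb →
          ∀ (A : Finset Cell) (w : Cell → ℝ × ℝ → ℂ), (∀ I ∈ A, I ≤ J ∧ Admissible c0 C0 I (w I)) →
            ∑ I ∈ A, I.len * ‖form I (w I) (put4 i j a φ.eval φ'.eval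
                (physFn (restr I.set (ofScalar fa) - dproj m I K0 (ofScalar fa))) (physFn (zb I)))‖
              ≤ (Real.exp (-B) + ((2 : ℝ) ^ (-(K0 : ℝ)) + (1 + (K0 : ℝ)) * Real.sqrt ε) * Dp ^ C)
                  * plog C (Real.log Dh + L + K0)
                  * (‖restr J.set (ofScalar fa)‖ * ‖restr J.set (ofScalar fb)‖) :=
  s5a_pair_of wy_Weyl1 c0 C0 hc0 hC0

end Claimed.Agent.R258
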