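/-
Row 258, Sec. 5.4, LEAF P-S5-REPLACE (architect helper182).   PREDICTOR FAMILIES AND THE SUMMATION OVER THE LOW LABELS (base.tex l.545-600, first half of the proof of Prop. 5.6).

INPUT: a segment root `R`, two LOW inherited families `mi` (slot `i`), `mj` (slot `j`) of bounded chart atoms with budget `Dold`; a precision `B`, a private weight `ε`, fresh labels `ι`.
OUTPUT: the predetermined PREDICTOR FAMILY `pre` for the slot `a`: for every pair `(Φ,Φ') ∈ mi I × mj I` the columns `((ρ ν).eval, √ε e_p)`, `ρ` = the list of `s5a_pair` for the charts of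
`Φ, Φ'`, with `birth` = the deeper of the two birth cells and label `ι (code (Φ.lab, Φ'.lab, ν))`; it is inherited, of budget `Dold² Dp + 1/√ε`, and for EVERY inherited family
`m ⊇ pre` of budget `Dh` on a SUBROOT `R' ≤ R` (the later greedy segments), every hereditarily admissible sequence `zb`, all coefficient arrays bounded by `Γ`:
   `∑_{I ∈ A} |I| |H_I(∑ ci Φ, ∑ cj Φ', F_a - P_{m,s+K0} F_a, zb I)| ≤ Γ² Dold² · E · ‖1_{R'} F_a‖ ‖1_{R'} F_b‖`,     `E` = the bound of `s5a_pair`.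

PROOF.  Multilinearity (`s5f_multilinear`, `s5f_form_congr`, `s5f_phys_vec`): `|H_I(…)| ≤ Γ² ∑_{(Φ,Φ') ∈ mi I × mj I} |form I w (φ, φ', res, zb)|`.  Exchange the sums: a fixed pair occurs only at cells
`I ≤ J(Φ,Φ') := min(deeper birth, R')`; `s5a_pair` on the root `J(Φ,Φ')` (by `FullAv` the pair is available, hence its predictors lie in `pre I ⊆ m I`, for all `I ≤ J`; `Inh`, `Bud`, `AdmSeq` restrict to `J ≤ R`).   Finally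
   `∑_{pairs} ‖1_J F_a‖ ‖1_J F_b‖ ≤ (∑ ‖1_J F_a‖²)^{1/2} (∑ ‖1_J F_b‖²)^{1/2} ≤ Dold² ‖1_{R'} F_a‖ ‖1_{R'} F_b‖`
because every point lies in at most `Dold²` of the cells `J(Φ,Φ')` (birth counts of `mi`, `mj`)   [finite form: `s5p_mult` below].
Uniform `Dp`: take `Dp := qpoly C (B + log Dold)` (complexity is monotone, `s5r_cplx_mono`).
Fill the sorries IN PLACE; auxiliary lemmas with prefix `s5p_`.
-/
import Claimed.Agent.R258.S5.Roll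
import Claimed.Agent.R258.S5.Pair

set_option autoImplicit false
open MeasureTheory

namespace Claimed.Agent.R258

/-- bounded overlap: if every cell lies below at most `N` of the cells `J k ≤ R`, then `∑_k ‖1_{J k} F‖² ≤ N ‖1_R F‖²` -/
theorem s5p_mult {κ : Type*} (K : Finset κ) (J : κ → Cell) (R : Cell) (hJ : ∀ k ∈ K, J k ≤ R) (N : ℝ)
    (hN : ∀ Q : Cell, ∀ K' ⊆ K, (∀ k ∈ K', Q ≤ J k) → (K'.card : ℝ) ≤ N) (F : XV) :
    ∑ k ∈ K, ‖restr (J k).set F‖ ^ 2 ≤ N * ‖restr R.set F‖ ^ 2 := by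
  classical
  obtain ⟨n, hn⟩ := cell_exists_cellsUpTo R (K.image J) (fun I hI => by
    obtain ⟨k, hk, rfl⟩ := Finset.mem_image.1 hI
    exact hJ k hk)
  have h1 : ∀ k ∈ K, ‖restr (J k).set F‖ ^ 2 =
      ∑ Q ∈ cellsAt R n, if Q ≤ J k then ‖restr Q.set F‖ ^ 2 else 0 := by
    intro k hk
    rw [← xv_restr_cell_le' (hJ k hk) F, ← pj_sum_normsq_restr R n]
    refine Finset.sum_congr rfl fun Q hQ => ?_
    have hd := (cell_mem_cellsUpTo.1 (hn (Finset.mem_image_of_mem J hk))).2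
    have hQd := (cell_mem_cellsAt'.1 hQ).2
    split_ifs with hle
    · rw [xv_restr_cell_le hle]
    · have hle' : ¬ J k ≤ Q := by
        intro h
        have : J k = Q := cell_eq_of_le_of_depth h (by rw [hQd]; exact hd)
        exact hle (this ▸ le_rfl)
      rw [xv_restr_cell_disjoint hle hle']
      simp
  rw [Finset.sum_congr rfl h1, Finset.sum_comm, ← pj_sum_normsq_restr R n, Finset.mul_sum]
  refine Finset.sum_le_sum fun Q _ => ?_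
  rw [← Finset.sum_filter, Finset.sum_const, nsmul_eq_mul]
  exact mul_le_mul_of_nonneg_right (hN Q _ (Finset.filter_subset _ _) fun k hk => (Finset.mem_filter.1 hk).2)
    (sq_nonneg _)


/-! ### numerical monotonicity -/

theorem s5p_plog_nonneg (k : ℕ) (x : ℝ) : 0 ≤ plog ((2 * k : ℕ) : ℝ) x := by
  unfold plog
  rw [Real.rpow_natCast]
  exact (even_two_mul k).pow_nonneg _

theorem s5p_one_le_qpoly (k : ℕ) (x : ℝ) : 1 ≤ qpoly ((2 * k : ℕ) : ℝ) x := by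
  unfold qpoly
  rw [Real.rpow_natCast]
  exact Real.one_le_exp (mul_nonneg (Nat.cast_nonneg _) ((even_two_mul k).pow_nonneg _))

theorem s5p_qpoly_mono {C₀ C x : ℝ} (h1 : 1 ≤ C₀) (h : C₀ + 1 ≤ C) (hx : 0 ≤ x) : qpoly C₀ x + 1 ≤ qpoly C x := by
  unfold qpoly
  have hb : (1 : ℝ) ≤ 1 + x := by linarith
  have e1 : (1 : ℝ) ≤ (1 + x) ^ C₀ := Real.one_le_rpow hb (by linarith)
  have e2 : (1 + x) ^ C₀ ≤ (1 + x) ^ C := Real.rpow_le_rpow_of_exponent_le hb (by linarith)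
  have e3 : C₀ * (1 + x) ^ C₀ + 1 ≤ C * (1 + x) ^ C := by nlinarith
  have e4 : Real.exp (C₀ * (1 + x) ^ C₀ + 1) ≤ Real.exp (C * (1 + x) ^ C) := Real.exp_le_exp.2 e3
  have e5 : (1 : ℝ) ≤ Real.exp (C₀ * (1 + x) ^ C₀) := Real.one_le_exp (by positivity)
  have e6 : (2 : ℝ) ≤ Real.exp 1 := by
    have := Real.add_one_le_exp (1 : ℝ); linarith
  rw [Real.exp_add] at e4
  nlinarith

theorem s5p_plog_mono {C₀ C y : ℝ} (h1 : 1 ≤ C₀) (h : C₀ ≤ C) (hy : 0 ≤ y) : plog C₀ y ≤ plog C y := by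
  unfold plog
  have hb : (1 : ℝ) ≤ 1 + y := by linarith
  have e1 : C₀ * (1 + y) ≤ C * (1 + y) := by nlinarith
  have e2 : (1 : ℝ) ≤ C * (1 + y) := by nlinarith
  calc (C₀ * (1 + y)) ^ C₀ ≤ (C * (1 + y)) ^ C₀ := Real.rpow_le_rpow (by positivity) e1 (by linarith)
    _ ≤ (C * (1 + y)) ^ C := Real.rpow_le_rpow_of_exponent_le e2 h

theorem s5p_rpow_mono {C₀ C D₀ D : ℝ} (h1 : 1 ≤ C₀) (h : C₀ ≤ C) (hD₀ : 1 ≤ D₀) (hD : D₀ ≤ D) : D₀ ^ C₀ ≤ D ^ C :=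
  calc D₀ ^ C₀ ≤ D ^ C₀ := Real.rpow_le_rpow (by linarith) hD (by linarith)
    _ ≤ D ^ C := Real.rpow_le_rpow_of_exponent_le (by linarith) h

/-- the error factor of `s5a_pair` -/
noncomputable def replErr (C B Dp ε Dh L : ℝ) (K0 : ℕ) : ℝ :=
  (Real.exp (-B) + ((2 : ℝ) ^ (-(K0 : ℝ)) + (1 + (K0 : ℝ)) * Real.sqrt ε) * Dp ^ C) * plog C (Real.log Dh + L + K0)

theorem s5p_err_mono {C₀ C D₀ D B ε Dh L : ℝ} (K0 : ℕ) (h1 : 1 ≤ C₀) (h : C₀ ≤ C) (hD₀ : 1 ≤ D₀) (hD : D₀ ≤ D)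
    (hy : 0 ≤ Real.log Dh + L + K0) : replErr C₀ B D₀ ε Dh L K0 ≤ replErr C B D ε Dh L K0 := by
  unfold replErr
  have e1 := s5p_plog_mono h1 h hy
  have e2 := s5p_rpow_mono h1 h hD₀ hD
  have e3 : 0 ≤ plog C₀ (Real.log Dh + L + K0) := by unfold plog; positivity
  have e4 : 0 ≤ D₀ ^ C₀ := by positivity
  have e5 : 0 ≤ D ^ C := e4.trans e2
  have e6 : 0 ≤ Real.exp (-B) + ((2 : ℝ) ^ (-(K0 : ℝ)) + (1 + (K0 : ℝ)) * Real.sqrt ε) * D ^ C := by positivity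
  gcongr

theorem s5p_err_nonneg (k : ℕ) {B Dp ε Dh L : ℝ} (K0 : ℕ) (hDp : 0 ≤ Dp) :
    0 ≤ replErr ((2 * k : ℕ) : ℝ) B Dp ε Dh L K0 := by
  unfold replErr
  have := s5p_plog_nonneg k (Real.log Dh + L + K0)
  positivity


/-! ### multilinear expansion -/

theorem s5p_put4_update_i {α : Type*} (i j a : Fin 4) (xi xi' xj xa xb : α) :
    Function.update (put4 i j a xi' xj xa xb) i xi = put4 i j a xi xj xa xb := by
  funext l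
  by_cases h : l = i
  · subst h; simp [put4]
  · simp [put4, h]

theorem s5p_put4_update_j {α : Type*} {i j : Fin 4} (hij : i ≠ j) (a : Fin 4) (xi xj xj' xa xb : α) :
    Function.update (put4 i j a xi xj' xa xb) j xj = put4 i j a xi xj xa xb := by
  funext l
  by_cases h : l = j
  · subst h; simp [put4, hij.symm]
  · simp [put4, h]

theorem s5p_expand (c0 C0 : ℝ) (hc0 : 0 < c0) (I : Cell) (w : ℝ × ℝ → ℂ) (h : Admissible c0 C0 I w) {i j : Fin 4}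
    (hij : i ≠ j) (a : Fin 4) (S S' : Finset Col) (c c' : Col → ℂ) (x y : Col → XV) (u v : XV) :
    formV I w (put4 i j a (∑ Φ ∈ S, c Φ • x Φ) (∑ Φ ∈ S', c' Φ • y Φ) u v) =
      ∑ Φ ∈ S, ∑ Φ' ∈ S', c Φ * c' Φ' * formV I w (put4 i j a (x Φ) (y Φ') u v) := by
  obtain ⟨M, hM⟩ := s5f_multilinear c0 C0 hc0 I w h
  simp only [← hM]
  rw [← s5p_put4_update_i i j a (∑ Φ ∈ S, c Φ • x Φ) 0, M.map_update_sum]
  refine Finset.sum_congr rfl fun Φ _ => ?_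
  rw [M.map_update_smul, s5p_put4_update_i, ← s5p_put4_update_j hij a (x Φ) (∑ Φ ∈ S', c' Φ • y Φ) 0,
    M.map_update_sum, Finset.smul_sum]
  refine Finset.sum_congr rfl fun Φ' _ => ?_
  rw [M.map_update_smul, s5p_put4_update_j hij, smul_smul, smul_eq_mul]

theorem s5p_formV_cols (c0 C0 : ℝ) (hc0 : 0 < c0) (I : Cell) (w : ℝ × ℝ → ℂ) (h : Admissible c0 C0 I w) (i j a : Fin 4)
    {Φ Φ' : Col} (hΦ : Φ.Reg I) (hΦ' : Φ'.Reg I) (u v : XV) :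
    formV I w (put4 i j a (Φ.vec I) (Φ'.vec I) u v) = form I w (put4 i j a Φ.phi Φ'.phi (physFn u) (physFn v)) := by
  unfold formV
  refine s5f_form_congr c0 C0 hc0 I w h _ _ fun l => ?_
  have key : ∀ {Ψ : Col}, Ψ.Reg I → physFn (Ψ.vec I) =ᵐ[volume.restrict I.set] Ψ.phi := by
    intro Ψ hΨ
    rw [Filter.EventuallyEq, ae_restrict_iff' (cell_measurableSet I)]
    filter_upwards [xv_physFn_vec hΨ] with y hy hyI
    rw [hy, Set.indicator_of_mem hyI]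
  unfold put4
  split_ifs
  · exact key hΦ
  · exact key hΦ'
  · exact Filter.EventuallyEq.rfl
  · exact Filter.EventuallyEq.rfl


/-! ### the deeper of two cells -/

open Classical in
/-- the deeper of two comparable cells -/
noncomputable def s5pMin (J J' : Cell) : Cell := if J ≤ J' then J else J'

theorem s5p_le_min {I J J' : Cell} (h : I ≤ J) (h' : I ≤ J') : I ≤ s5pMin J J' := by
  unfold s5pMin; split_ifs <;> assumption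

theorem s5p_min_le_left {I J J' : Cell} (h : I ≤ J) (h' : I ≤ J') : s5pMin J J' ≤ J := by
  unfold s5pMin
  split_ifs with e
  · exact le_rfl
  · exact (cell_chain h h').resolve_left e

theorem s5p_min_le_right {I J J' : Cell} (_h : I ≤ J) (_h' : I ≤ J') : s5pMin J J' ≤ J' := by
  unfold s5pMin
  split_ifs with e
  · exact e
  · exact le_rfl

/-! ### the predictor family -/

/-- a predictor column -/
noncomputable def s5pCol (ι : ℕ → ℕ) (ρ : ℕ → ℕ → ℕ → Chart) (ε : ℝ) (Φ Φ' : Col) (ν : ℕ) : Col :=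
  ⟨ι (Nat.pair Φ.lab (Nat.pair Φ'.lab ν)), s5pMin Φ.birth Φ'.birth, (ρ Φ.lab Φ'.lab ν).eval, ε⟩

open Classical in
/-- the predictor family -/
noncomputable def s5pPre (ι : ℕ → ℕ) (ρ : ℕ → ℕ → ℕ → Chart) (ε : ℝ) (N : ℕ → ℕ → ℕ) (mi mj : Cell → Finset Col)
    (I : Cell) : Finset Col :=
  (mi I ×ˢ mj I).biUnion fun p => (Finset.range (N p.1.lab p.2.lab)).image (s5pCol ι ρ ε p.1 p.2)

/-- the chart data of the predictor family -/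
noncomputable def s5pChart (ι : ℕ → ℕ) (ρ : ℕ → ℕ → ℕ → Chart) (l : ℕ) : Chart :=
  ρ (Function.invFun ι l).unpair.1 (Function.invFun ι l).unpair.2.unpair.1 (Function.invFun ι l).unpair.2.unpair.2

variable {ι : ℕ → ℕ} {ρ : ℕ → ℕ → ℕ → Chart} {ε : ℝ} {N : ℕ → ℕ → ℕ} {mi mj : Cell → Finset Col}

theorem s5p_mem_pre {I : Cell} {Ψ : Col} : Ψ ∈ s5pPre ι ρ ε N mi mj I ↔
    ∃ Φ ∈ mi I, ∃ Φ' ∈ mj I, ∃ ν < N Φ.lab Φ'.lab, Ψ = s5pCol ι ρ ε Φ Φ' ν := by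
  classical
  unfold s5pPre
  simp only [Finset.mem_biUnion, Finset.mem_product, Finset.mem_image, Finset.mem_range, Prod.exists]
  constructor
  · rintro ⟨Φ, Φ', ⟨h1, h2⟩, ν, hν, rfl⟩
    exact ⟨Φ, h1, Φ', h2, ν, hν, rfl⟩
  · rintro ⟨Φ, h1, Φ', h2, ν, hν, rfl⟩
    exact ⟨Φ, Φ', ⟨h1, h2⟩, ν, hν, rfl⟩

theorem s5p_chart_col (hι : Function.Injective ι) (Φ Φ' : Col) (ν : ℕ) :
    s5pChart ι ρ (s5pCol ι ρ ε Φ Φ' ν).lab = ρ Φ.lab Φ'.lab ν := by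
  unfold s5pChart s5pCol
  simp only [Function.leftInverse_invFun hι _, Nat.unpair_pair]

theorem s5p_pre_inh {R : Cell} (hι : Function.Injective ι) (hi : Inh R mi) (hj : Inh R mj) :
    Inh R (s5pPre ι ρ ε N mi mj) := by
  refine ⟨fun I Ψ hΨ => ?_, fun I I' hI hI' Ψ hΨ => ?_, fun I I' Ψ hΨ Ψ' hΨ' hlab => ?_⟩
  · obtain ⟨Φ, h1, Φ', h2, ν, _, rfl⟩ := s5p_mem_pre.1 hΨ
    exact s5p_le_min (hi.birth I Φ h1) (hj.birth I Φ' h2)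
  · obtain ⟨Φ, h1, Φ', h2, ν, hν, rfl⟩ := s5p_mem_pre.1 hΨ
    exact s5p_mem_pre.2 ⟨Φ, hi.mono I I' hI hI' h1, Φ', hj.mono I I' hI hI' h2, ν, hν, rfl⟩
  · obtain ⟨Φ, h1, Φ', h2, ν, _, rfl⟩ := s5p_mem_pre.1 hΨ
    obtain ⟨Φ₂, h3, Φ₂', h4, ν₂, _, rfl⟩ := s5p_mem_pre.1 hΨ'
    have e := hι hlab
    rw [Nat.pair_eq_pair, Nat.pair_eq_pair] at e
    obtain ⟨e1, e2, e3⟩ := e
    rw [hi.lab I I' Φ h1 Φ₂ h3 e1, hj.lab I I' Φ' h2 Φ₂' h4 e2, e3]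

theorem s5p_pre_bud {R : Cell} (hι : Function.Injective ι) (hi : Inh R mi) (hj : Inh R mj) {chi chj : ℕ → Chart}
    {Dold Dp : ℝ} (bi : Bud R mi chi Dold) (bj : Bud R mj chj Dold) (hε : 0 < ε) (hε1 : ε ≤ 1) (hDp : 1 ≤ Dp)
    (hρ : ∀ I, ∀ Φ ∈ mi I, ∀ I', ∀ Φ' ∈ mj I', ∀ ν < N Φ.lab Φ'.lab,
      (ρ Φ.lab Φ'.lab ν).Cplx (Dold ^ 2 * Dp) ∧ (ρ Φ.lab Φ'.lab ν).Bdd)
    (hN : ∀ I, ∀ Φ ∈ mi I, ∀ I', ∀ Φ' ∈ mj I', (N Φ.lab Φ'.lab : ℝ) ≤ Dp) :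
    Bud R (s5pPre ι ρ ε N mi mj) (s5pChart ι ρ) (Dold ^ 2 * Dp + 1 / Real.sqrt ε) := by
  classical
  have hs : 0 < Real.sqrt ε := Real.sqrt_pos.2 hε
  have hs' : 0 ≤ 1 / Real.sqrt ε := by positivity
  have hD0 : 0 ≤ Dold := by
    have := bi.count R le_rfl ∅ (by simp)
    simpa using this
  refine ⟨fun I Ψ hΨ => ?_, fun I Ψ hΨ => ?_, fun I Ψ hΨ => ?_, fun I Ψ hΨ => ?_, fun I hI A hA => ?_⟩
  · obtain ⟨Φ, h1, Φ', h2, ν, _, rfl⟩ := s5p_mem_pre.1 hΨ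
    rw [s5p_chart_col hι]; rfl
  · obtain ⟨Φ, h1, Φ', h2, ν, hν, rfl⟩ := s5p_mem_pre.1 hΨ
    rw [s5p_chart_col hι]
    exact s5r_cplx_mono _ _ _ (hρ I Φ h1 I Φ' h2 ν hν).1 (by linarith)
  · obtain ⟨Φ, h1, Φ', h2, ν, hν, rfl⟩ := s5p_mem_pre.1 hΨ
    rw [s5p_chart_col hι]
    exact (hρ I Φ h1 I Φ' h2 ν hν).2
  · obtain ⟨Φ, h1, Φ', h2, ν, hν, rfl⟩ := s5p_mem_pre.1 hΨ
    refine ⟨?_, hε1⟩
    show (Dold ^ 2 * Dp + 1 / Real.sqrt ε)⁻¹ ≤ Real.sqrt ε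
    have e1 : 1 / Real.sqrt ε ≤ Dold ^ 2 * Dp + 1 / Real.sqrt ε := by
      have : 0 ≤ Dold ^ 2 * Dp := by positivity
      linarith
    have e2 := inv_anti₀ (by positivity) e1
    have e3 : (1 / Real.sqrt ε)⁻¹ = Real.sqrt ε := by rw [one_div, inv_inv]
    rwa [e3] at e2
  · have key : ∀ Ψ ∈ A, ∃ Φ Φ' : Col, ((∃ I', I' ≤ R ∧ Φ ∈ mi I') ∧ I ≤ Φ.birth) ∧
        ((∃ I', I' ≤ R ∧ Φ' ∈ mj I') ∧ I ≤ Φ'.birth) ∧ ∃ ν < N Φ.lab Φ'.lab, Ψ = s5pCol ι ρ ε Φ Φ' ν := by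
      intro Ψ hΨ
      obtain ⟨⟨I', hI', hm⟩, hb⟩ := hA Ψ hΨ
      obtain ⟨Φ, h1, Φ', h2, ν, hν, rfl⟩ := s5p_mem_pre.1 hm
      have b1 := hi.birth I' Φ h1
      have b2 := hj.birth I' Φ' h2
      exact ⟨Φ, Φ', ⟨⟨I', hI', h1⟩, hb.trans (s5p_min_le_left b1 b2)⟩,
        ⟨⟨I', hI', h2⟩, hb.trans (s5p_min_le_right b1 b2)⟩, ν, hν, rfl⟩
    choose! f₁ f₂ hf using key
    have c1 : ((A.image f₁).card : ℝ) ≤ Dold := bi.count I hI _ fun Φ hΦ => by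
      obtain ⟨Ψ, hΨ, rfl⟩ := Finset.mem_image.1 hΦ
      exact (hf Ψ hΨ).1
    have c2 : ((A.image f₂).card : ℝ) ≤ Dold := bj.count I hI _ fun Φ hΦ => by
      obtain ⟨Ψ, hΨ, rfl⟩ := Finset.mem_image.1 hΦ
      exact (hf Ψ hΨ).2.1
    have hsub : A ⊆ (A.image f₁ ×ˢ A.image f₂).biUnion fun p =>
        (Finset.range (N p.1.lab p.2.lab)).image (s5pCol ι ρ ε p.1 p.2) := by
      intro Ψ hΨ
      obtain ⟨ν, hν, e⟩ := (hf Ψ hΨ).2.2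
      rw [Finset.mem_biUnion]
      exact ⟨(f₁ Ψ, f₂ Ψ), Finset.mem_product.2 ⟨Finset.mem_image_of_mem _ hΨ, Finset.mem_image_of_mem _ hΨ⟩,
        Finset.mem_image.2 ⟨ν, Finset.mem_range.2 hν, e.symm⟩⟩
    have c3 : (A.card : ℝ) ≤ ∑ p ∈ A.image f₁ ×ˢ A.image f₂, (N p.1.lab p.2.lab : ℝ) := by
      have h1 := (Finset.card_le_card hsub).trans Finset.card_biUnion_le
      have h2 : ∑ p ∈ A.image f₁ ×ˢ A.image f₂,
          ((Finset.range (N p.1.lab p.2.lab)).image (s5pCol ι ρ ε p.1 p.2)).card ≤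
          ∑ p ∈ A.image f₁ ×ˢ A.image f₂, N p.1.lab p.2.lab :=
        Finset.sum_le_sum fun p _ => Finset.card_image_le.trans (by rw [Finset.card_range])
      exact_mod_cast h1.trans h2
    have c4 : ∑ p ∈ A.image f₁ ×ˢ A.image f₂, (N p.1.lab p.2.lab : ℝ) ≤
        ∑ _p ∈ A.image f₁ ×ˢ A.image f₂, Dp := by
      refine Finset.sum_le_sum fun p hp => ?_
      obtain ⟨hp1, hp2⟩ := Finset.mem_product.1 hp
      obtain ⟨Ψ₁, hΨ₁, e1⟩ := Finset.mem_image.1 hp1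
      obtain ⟨Ψ₂, hΨ₂, e2⟩ := Finset.mem_image.1 hp2
      obtain ⟨I₁, _, m1⟩ := (hf Ψ₁ hΨ₁).1.1
      obtain ⟨I₂, _, m2⟩ := (hf Ψ₂ hΨ₂).2.1.1
      rw [← e1, ← e2]
      exact hN I₁ _ m1 I₂ _ m2
    rw [Finset.sum_const, Finset.card_product, nsmul_eq_mul] at c4
    push_cast at c4
    have c5 : ((A.image f₁).card : ℝ) * ((A.image f₂).card : ℝ) ≤ Dold ^ 2 := by
      rw [sq]
      exact mul_le_mul c1 c2 (Nat.cast_nonneg _) hD0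
    have c6 : ((A.image f₁).card : ℝ) * ((A.image f₂).card : ℝ) * Dp ≤ Dold ^ 2 * Dp :=
      mul_le_mul_of_nonneg_right c5 (by linarith)
    linarith


/-- the replacement estimate for a predictor family `pre` (residual slot `a`) of the low families `mi` (slot `i`), `mj` (slot `j`) on the root `R` -/
def PredProp (c0 C0 : ℝ) (i j a : Fin 4) (R : Cell) (mi mj pre : Cell → Finset Col) (Dold C B Dp ε : ℝ) : Prop :=
  ∀ (R' : Cell) (fa fb : ℝ → ℂ) (K0 : ℕ) (Dh L Γ : ℝ) (m : Cell → Finset Col) (ch : ℕ → Chart), R' ≤ R →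
    BddCS fa → BddCS fb → 0 ≤ L → 0 ≤ Γ → Inh R' m → Bud R' m ch Dh → (∀ I, pre I ⊆ m I) →
    ∀ zb : Cell → XV, (∀ J, J ≤ R' → AdmSeq J (ofScalar fb) Dh L zb) →
    ∀ (A : Finset Cell) (w : Cell → ℝ × ℝ → ℂ), (∀ I ∈ A, I ≤ R' ∧ Admissible c0 C0 I (w I)) →
    ∀ ci cj : Cell → Col → ℂ, (∀ I Φ, ‖ci I Φ‖ ≤ Γ) → (∀ I Φ, ‖cj I Φ‖ ≤ Γ) →
      ∑ I ∈ A, I.len * ‖formV I (w I) (put4 i j a (∑ Φ ∈ mi I, ci I Φ • Φ.vec I) (∑ Φ ∈ mj I, cj I Φ • Φ.vec I)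
          (restr I.set (ofScalar fa) - dproj m I K0 (ofScalar fa)) (zb I))‖
        ≤ Γ ^ 2 * Dold ^ 2 * replErr C B Dp ε Dh L K0
            * (‖restr R'.set (ofScalar fa)‖ * ‖restr R'.set (ofScalar fb)‖)

/-- the summation over the pairs, from the estimate for one pair -/
theorem s5p_pred (c0 C0 : ℝ) (hc0 : 0 < c0) {i j : Fin 4} (hij : i ≠ j) (a : Fin 4) {R : Cell}
    {mi mj : Cell → Finset Col} {chi chj : ℕ → Chart} {Dold : ℝ} (hi : Inh R mi) (hj : Inh R mj) (fi : FullAv R mi)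
    (fj : FullAv R mj) (bi : Bud R mi chi Dold) (bj : Bud R mj chj Dold) (pre : Cell → Finset Col) (C B Dp ε : ℝ)
    (hE0 : ∀ (K0 : ℕ) (Dh L : ℝ), 0 ≤ replErr C B Dp ε Dh L K0)
    (hpair : ∀ (Φ Φ' : Col) (J : Cell) (fa fb : ℝ → ℂ) (K0 : ℕ) (Dh L : ℝ) (m : Cell → Finset Col) (ch : ℕ → Chart),
      BddCS fa → BddCS fb → 0 ≤ L → Inh J m → Bud J m ch Dh → (∀ I, I ≤ J → Φ ∈ mi I ∧ Φ' ∈ mj I) →
      (∀ I, pre I ⊆ m I) → ∀ zb : Cell → XV, AdmSeq J (ofScalar fb) Dh L zb →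
      ∀ (A : Finset Cell) (w : Cell → ℝ × ℝ → ℂ), (∀ I ∈ A, I ≤ J ∧ Admissible c0 C0 I (w I)) →
        ∑ I ∈ A, I.len * ‖form I (w I) (put4 i j a Φ.phi Φ'.phi
            (physFn (restr I.set (ofScalar fa) - dproj m I K0 (ofScalar fa))) (physFn (zb I)))‖
          ≤ replErr C B Dp ε Dh L K0 * (‖restr J.set (ofScalar fa)‖ * ‖restr J.set (ofScalar fb)‖)) :
    PredProp c0 C0 i j a R mi mj pre Dold C B Dp ε := by
  classical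
  intro R' fa fb K0 Dh L Γ m ch hR' hfa hfb hL hΓ hm hb hpre zb hzb A w hA ci cj hci hcj
  have hD0 : 0 ≤ Dold := by
    have := bi.count R le_rfl ∅ (by simp)
    simpa using this
  set E := replErr C B Dp ε Dh L K0 with hE
  have hE' : 0 ≤ E := hE0 K0 Dh L
  set T : Cell → Col × Col → ℝ := fun I p => ‖form I (w I) (put4 i j a p.1.phi p.2.phi
    (physFn (restr I.set (ofScalar fa) - dproj m I K0 (ofScalar fa))) (physFn (zb I)))‖ with hT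
  -- step 1, 2
  have h1 : ∀ I ∈ A, ‖formV I (w I) (put4 i j a (∑ Φ ∈ mi I, ci I Φ • Φ.vec I) (∑ Φ ∈ mj I, cj I Φ • Φ.vec I)
      (restr I.set (ofScalar fa) - dproj m I K0 (ofScalar fa)) (zb I))‖ ≤ Γ ^ 2 * ∑ p ∈ mi I ×ˢ mj I, T I p := by
    intro I hI
    rw [s5p_expand c0 C0 hc0 I (w I) (hA I hI).2 hij, Finset.sum_product, Finset.mul_sum]
    refine (norm_sum_le _ _).trans (Finset.sum_le_sum fun Φ hΦ => ?_)
    rw [Finset.mul_sum]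
    refine (norm_sum_le _ _).trans (Finset.sum_le_sum fun Φ' hΦ' => ?_)
    rw [norm_mul, norm_mul, s5p_formV_cols c0 C0 hc0 I (w I) (hA I hI).2 i j a
      (xv_reg_of_chart (bi.chart I Φ hΦ) (bi.cplx I Φ hΦ) (bi.bdd I Φ hΦ) I)
      (xv_reg_of_chart (bj.chart I Φ' hΦ') (bj.cplx I Φ' hΦ') (bj.bdd I Φ' hΦ') I)]
    refine mul_le_mul_of_nonneg_right ?_ (norm_nonneg _)
    rw [sq]
    exact mul_le_mul (hci I Φ) (hcj I Φ') (norm_nonneg _) hΓ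
  -- step 3
  set PP : Finset (Col × Col) := A.biUnion fun I => mi I ×ˢ mj I with hPP
  have h3 : ∑ I ∈ A, I.len * (Γ ^ 2 * ∑ p ∈ mi I ×ˢ mj I, T I p) =
      Γ ^ 2 * ∑ p ∈ PP, ∑ I ∈ A.filter (fun I => p ∈ mi I ×ˢ mj I), I.len * T I p := by
    rw [Finset.mul_sum]
    have : ∀ I ∈ A, I.len * (Γ ^ 2 * ∑ p ∈ mi I ×ˢ mj I, T I p) =
        ∑ p ∈ mi I ×ˢ mj I, Γ ^ 2 * (I.len * T I p) := by
      intro I _
      rw [Finset.mul_sum, Finset.mul_sum]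
      exact Finset.sum_congr rfl fun p _ => by ring
    rw [Finset.sum_congr rfl this,
      Finset.sum_comm' (t' := PP) (s' := fun p => A.filter (fun I => p ∈ mi I ×ˢ mj I))]
    · exact Finset.sum_congr rfl fun p _ => by rw [Finset.mul_sum]
    · intro I p
      simp only [hPP, Finset.mem_filter, Finset.mem_biUnion]
      constructor
      · rintro ⟨h1, h2⟩; exact ⟨⟨h1, h2⟩, I, h1, h2⟩
      · rintro ⟨⟨h1, h2⟩, _⟩; exact ⟨h1, h2⟩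
  -- step 4
  set Jp : Col × Col → Cell := fun p => s5pMin (s5pMin p.1.birth p.2.birth) R' with hJp
  have hJ : ∀ p ∈ PP, Jp p ≤ R' ∧ Jp p ≤ p.1.birth ∧ Jp p ≤ p.2.birth ∧ (∃ I, I ≤ R ∧ p.1 ∈ mi I) ∧
      (∃ I, I ≤ R ∧ p.2 ∈ mj I) := by
    intro p hp
    obtain ⟨I, hI, hpI⟩ := Finset.mem_biUnion.1 hp
    obtain ⟨m1, m2⟩ := Finset.mem_product.1 hpI
    have b1 := hi.birth I _ m1
    have b2 := hj.birth I _ m2
    have b3 := (hA I hI).1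
    have b4 := s5p_le_min b1 b2
    exact ⟨s5p_min_le_right b4 b3, (s5p_min_le_left b4 b3).trans (s5p_min_le_left b1 b2),
      (s5p_min_le_left b4 b3).trans (s5p_min_le_right b1 b2), ⟨I, b3.trans hR', m1⟩, ⟨I, b3.trans hR', m2⟩⟩
  have h4 : ∀ p ∈ PP, ∑ I ∈ A.filter (fun I => p ∈ mi I ×ˢ mj I), I.len * T I p ≤
      E * (‖restr (Jp p).set (ofScalar fa)‖ * ‖restr (Jp p).set (ofScalar fb)‖) := by
    intro p hp
    obtain ⟨j1, j2, j3, ⟨I₁, _, m1⟩, ⟨I₂, _, m2⟩⟩ := hJ p hp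
    refine hpair p.1 p.2 (Jp p) fa fb K0 Dh L m ch hfa hfb hL (s5r_inh_sub R' _ j1 m hm)
      (s5r_bud_sub R' _ j1 m ch Dh hb)
      (fun I hI => ⟨fi I₁ _ m1 I ((hI.trans j1).trans hR') (hI.trans j2),
        fj I₂ _ m2 I ((hI.trans j1).trans hR') (hI.trans j3)⟩) hpre zb (hzb _ j1) _ w fun I hI => ?_
    obtain ⟨hIA, hpI⟩ := Finset.mem_filter.1 hI
    obtain ⟨m1', m2'⟩ := Finset.mem_product.1 hpI
    exact ⟨s5p_le_min (s5p_le_min (hi.birth I _ m1') (hj.birth I _ m2')) (hA I hIA).1, (hA I hIA).2⟩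
  -- step 5
  have hcount : ∀ Q : Cell, ∀ K' ⊆ PP, (∀ p ∈ K', Q ≤ Jp p) → (K'.card : ℝ) ≤ Dold ^ 2 := by
    intro Q K' hK' hQ
    rcases K'.eq_empty_or_nonempty with rfl | ⟨p₀, hp₀⟩
    · simp; positivity
    · have hQR : Q ≤ R := ((hQ p₀ hp₀).trans (hJ p₀ (hK' hp₀)).1).trans hR'
      have c1 : ((K'.image Prod.fst).card : ℝ) ≤ Dold := bi.count Q hQR _ fun Φ hΦ => by
        obtain ⟨p, hp, rfl⟩ := Finset.mem_image.1 hΦ
        obtain ⟨_, j2, _, e1, _⟩ := hJ p (hK' hp)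
        exact ⟨e1, (hQ p hp).trans j2⟩
      have c2 : ((K'.image Prod.snd).card : ℝ) ≤ Dold := bj.count Q hQR _ fun Φ hΦ => by
        obtain ⟨p, hp, rfl⟩ := Finset.mem_image.1 hΦ
        obtain ⟨_, _, j3, _, e2⟩ := hJ p (hK' hp)
        exact ⟨e2, (hQ p hp).trans j3⟩
      have c3 : K' ⊆ K'.image Prod.fst ×ˢ K'.image Prod.snd := fun p hp =>
        Finset.mem_product.2 ⟨Finset.mem_image_of_mem _ hp, Finset.mem_image_of_mem _ hp⟩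
      have c4 : (K'.card : ℝ) ≤ ((K'.image Prod.fst).card : ℝ) * ((K'.image Prod.snd).card : ℝ) := by
        have := Finset.card_le_card c3
        rw [Finset.card_product] at this
        exact_mod_cast this
      rw [sq]
      exact c4.trans (mul_le_mul c1 c2 (Nat.cast_nonneg _) hD0)
  have hmul : ∀ F : XV, Real.sqrt (∑ p ∈ PP, ‖restr (Jp p).set F‖ ^ 2) ≤ Dold * ‖restr R'.set F‖ := by
    intro F
    have := s5p_mult PP Jp R' (fun p hp => (hJ p hp).1) (Dold ^ 2) hcount F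
    calc Real.sqrt (∑ p ∈ PP, ‖restr (Jp p).set F‖ ^ 2) ≤ Real.sqrt (Dold ^ 2 * ‖restr R'.set F‖ ^ 2) :=
          Real.sqrt_le_sqrt this
      _ = Dold * ‖restr R'.set F‖ := by rw [← mul_pow, Real.sqrt_sq (by positivity)]
  have h5 : ∑ p ∈ PP, ‖restr (Jp p).set (ofScalar fa)‖ * ‖restr (Jp p).set (ofScalar fb)‖ ≤
      Dold ^ 2 * (‖restr R'.set (ofScalar fa)‖ * ‖restr R'.set (ofScalar fb)‖) := by
    calc ∑ p ∈ PP, ‖restr (Jp p).set (ofScalar fa)‖ * ‖restr (Jp p).set (ofScalar fb)‖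
        ≤ Real.sqrt (∑ p ∈ PP, ‖restr (Jp p).set (ofScalar fa)‖ ^ 2) *
            Real.sqrt (∑ p ∈ PP, ‖restr (Jp p).set (ofScalar fb)‖ ^ 2) := Real.sum_mul_le_sqrt_mul_sqrt _ _ _
      _ ≤ (Dold * ‖restr R'.set (ofScalar fa)‖) * (Dold * ‖restr R'.set (ofScalar fb)‖) :=
          mul_le_mul (hmul _) (hmul _) (Real.sqrt_nonneg _) (by positivity)
      _ = _ := by ring
  calc ∑ I ∈ A, I.len * ‖formV I (w I) (put4 i j a (∑ Φ ∈ mi I, ci I Φ • Φ.vec I) (∑ Φ ∈ mj I, cj I Φ • Φ.vec I)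
          (restr I.set (ofScalar fa) - dproj m I K0 (ofScalar fa)) (zb I))‖
      ≤ ∑ I ∈ A, I.len * (Γ ^ 2 * ∑ p ∈ mi I ×ˢ mj I, T I p) :=
        Finset.sum_le_sum fun I hI => mul_le_mul_of_nonneg_left (h1 I hI) (cell_len_nonneg I)
    _ = Γ ^ 2 * ∑ p ∈ PP, ∑ I ∈ A.filter (fun I => p ∈ mi I ×ˢ mj I), I.len * T I p := h3
    _ ≤ Γ ^ 2 * ∑ p ∈ PP, E * (‖restr (Jp p).set (ofScalar fa)‖ * ‖restr (Jp p).set (ofScalar fb)‖) :=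
        mul_le_mul_of_nonneg_left (Finset.sum_le_sum h4) (sq_nonneg _)
    _ = Γ ^ 2 * (E * ∑ p ∈ PP, ‖restr (Jp p).set (ofScalar fa)‖ * ‖restr (Jp p).set (ofScalar fb)‖) := by
        rw [← Finset.mul_sum]
    _ ≤ Γ ^ 2 * (E * (Dold ^ 2 * (‖restr R'.set (ofScalar fa)‖ * ‖restr R'.set (ofScalar fb)‖))) :=
        mul_le_mul_of_nonneg_left (mul_le_mul_of_nonneg_left h5 hE') (sq_nonneg _)
    _ = _ := by ring

theorem s5p_replace (c0 C0 : ℝ) (hc0 : 0 < c0) (hC0 : 1 ≤ C0) :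
    ∃ C : ℝ, 1 ≤ C ∧ ∀ i j a b : Fin 4, slot4 i j a b →
      ∀ (R : Cell) (mi mj : Cell → Finset Col) (chi chj : ℕ → Chart) (Dold B ε : ℝ) (ι : ℕ → ℕ),
        Inh R mi → Inh R mj → FullAv R mi → FullAv R mj → Bud R mi chi Dold → Bud R mj chj Dold → 1 ≤ B → 0 < ε → ε ≤ 1 → Function.Injective ι →
      ∃ (pre : Cell → Finset Col) (chp : ℕ → Chart) (Dp : ℝ),
        1 ≤ Dp ∧ Dp ≤ qpoly C (B + Real.log Dold) ∧ Inh R pre ∧ Bud R pre chp (Dold ^ 2 * Dp + 1 / Real.sqrt ε) ∧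
        (∀ I, ∀ Φ ∈ pre I, Φ.lab ∈ Set.range ι ∧ Φ.eps = ε) ∧ PredProp c0 C0 i j a R mi mj pre Dold C B Dp ε := by
  obtain ⟨C₀, hC₀, hp⟩ := s5a_pair c0 C0 hc0 hC0
  have hceil : C₀ ≤ (⌈C₀⌉₊ : ℝ) := Nat.le_ceil C₀
  have hCC : C₀ + 1 ≤ ((2 * ⌈C₀⌉₊ : ℕ) : ℝ) := by push_cast; linarith
  refine ⟨((2 * ⌈C₀⌉₊ : ℕ) : ℝ), by linarith, fun i j a b hs R mi mj chi chj Dold B ε ι hi hj fi fj bi bj hB hε hε1 hι => ?_⟩
  set C : ℝ := ((2 * ⌈C₀⌉₊ : ℕ) : ℝ) with hC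
  -- the data of the pairs of labels
  have key : ∀ v v' : ℕ, ∃ (n : ℕ) (ρ₀ : ℕ → Chart) (Dp₀ : ℝ),
      ((chi v).Cplx Dold ∧ (chj v').Cplx Dold ∧ (chi v).Bdd ∧ (chj v').Bdd) →
      1 ≤ Dp₀ ∧ Dp₀ ≤ qpoly C₀ (B + Real.log Dold) ∧ (n : ℝ) ≤ Dp₀ ∧ (∀ ν < n, (ρ₀ ν).Cplx Dp₀ ∧ (ρ₀ ν).Bdd) ∧
      ρ₀ n = chi v ∧
      ∀ (J : Cell) (fa fb : ℝ → ℂ) (K0 : ℕ) (ε Dh L : ℝ) (m : Cell → Finset Col) (ch : ℕ → Chart),
        BddCS fa → BddCS fb → 0 < ε → ε ≤ 1 → 0 ≤ L → Inh J m → Bud J m ch Dh →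
        (∀ ν < n, ∃ Φ : Col, Φ.phi = (ρ₀ ν).eval ∧ Φ.eps = ε ∧ ∀ I, I ≤ J → Φ ∈ m I) →
        ∀ zb : Cell → XV, AdmSeq J (ofScalar fb) Dh L zb →
        ∀ (A : Finset Cell) (w : Cell → ℝ × ℝ → ℂ), (∀ I ∈ A, I ≤ J ∧ Admissible c0 C0 I (w I)) →
          ∑ I ∈ A, I.len * ‖form I (w I) (put4 i j a (chi v).eval (chj v').eval
              (physFn (restr I.set (ofScalar fa) - dproj m I K0 (ofScalar fa))) (physFn (zb I)))‖
            ≤ replErr C₀ B Dp₀ ε Dh L K0 * (‖restr J.set (ofScalar fa)‖ * ‖restr J.set (ofScalar fb)‖) := by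
    intro v v'
    by_cases hP : (chi v).Cplx Dold ∧ (chj v').Cplx Dold ∧ (chi v).Bdd ∧ (chj v').Bdd
    · obtain ⟨n, ρ, Dp₀, h1, h2, h3, h4, h5⟩ := hp i j a b hs (chi v) (chj v') Dold B hP.1 hP.2.1 hP.2.2.1 hP.2.2.2 hB
      refine ⟨n, fun ν => if h : ν < n then ρ ⟨ν, h⟩ else chi v, Dp₀, fun _ => ⟨h1, h2, h3, fun ν hν => ?_, ?_, ?_⟩⟩
      · simp only [dif_pos hν]; exact h4 _
      · simp
      · intro J fa fb K0 ε Dh L m ch hfa hfb hε hε1 hL hm hb hcol zb hzb A w hA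
        refine h5 J fa fb K0 ε Dh L m ch hfa hfb hε hε1 hL hm hb (fun ν => ?_) zb hzb A w hA
        have := hcol ν.1 ν.2
        simpa only [dif_pos ν.2] using this
    · exact ⟨0, fun _ => chi v, 1, fun h => absurd h hP⟩
  choose n ρ Dp₀ hdata using key
  set Dp : ℝ := qpoly C (B + Real.log Dold) with hDp
  have hDp1 : 1 ≤ Dp := s5p_one_le_qpoly _ _
  have hPi : ∀ I, ∀ Φ ∈ mi I, (chi Φ.lab).Cplx Dold ∧ (chi Φ.lab).Bdd := fun I Φ hΦ => ⟨bi.cplx I Φ hΦ, bi.bdd I Φ hΦ⟩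
  have hPj : ∀ I, ∀ Φ ∈ mj I, (chj Φ.lab).Cplx Dold ∧ (chj Φ.lab).Bdd := fun I Φ hΦ => ⟨bj.cplx I Φ hΦ, bj.bdd I Φ hΦ⟩
  have hd : ∀ I, ∀ Φ ∈ mi I, ∀ I', ∀ Φ' ∈ mj I', _ := fun I Φ hΦ I' Φ' hΦ' =>
    hdata Φ.lab Φ'.lab ⟨(hPi I Φ hΦ).1, (hPj I' Φ' hΦ').1, (hPi I Φ hΦ).2, (hPj I' Φ' hΦ').2⟩
  -- consequences of the existence of a column
  have hold : ∀ I, ∀ Φ ∈ mi I, Real.exp 2 ≤ Dold := fun I Φ hΦ => (hPi I Φ hΦ).1.H_ge
  have hx : ∀ I, ∀ Φ ∈ mi I, 1 ≤ Dold ∧ 0 ≤ B + Real.log Dold := by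
    intro I Φ hΦ
    have h1 := hold I Φ hΦ
    have h2 : (1 : ℝ) ≤ Real.exp 2 := Real.one_le_exp (by norm_num)
    have h3 : 0 ≤ Real.log Dold := Real.log_nonneg (by linarith)
    exact ⟨by linarith, by linarith⟩
  have hDp₀ : ∀ I, ∀ Φ ∈ mi I, ∀ I', ∀ Φ' ∈ mj I', Dp₀ Φ.lab Φ'.lab + 1 ≤ Dp := by
    intro I Φ hΦ I' Φ' hΦ'
    have h1 := (hd I Φ hΦ I' Φ' hΦ').2.1
    have h2 := s5p_qpoly_mono hC₀ hCC (hx I Φ hΦ).2
    linarith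
  refine ⟨s5pPre ι ρ ε (fun v v' => n v v' + 1) mi mj, s5pChart ι ρ, Dp, hDp1, le_rfl, s5p_pre_inh hι hi hj,
    s5p_pre_bud hι hi hj bi bj hε hε1 hDp1 ?_ ?_, ?_, ?_⟩
  · intro I Φ hΦ I' Φ' hΦ' ν hν
    obtain ⟨d1, d2, d3, d4, d5, _⟩ := hd I Φ hΦ I' Φ' hΦ'
    have h1 := (hx I Φ hΦ).1
    have h2 := hDp₀ I Φ hΦ I' Φ' hΦ'
    have h0 : (1 : ℝ) ≤ Dold ^ 2 := one_le_pow₀ h1
    have h3 : Dp ≤ Dold ^ 2 * Dp := le_mul_of_one_le_left (by linarith) h0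
    have h4 : Dold ≤ Dold ^ 2 * Dp := by
      have h5 : Dold ≤ Dold ^ 2 := by nlinarith
      have h6 : Dold ^ 2 ≤ Dold ^ 2 * Dp := le_mul_of_one_le_right (by linarith) hDp1
      linarith
    rcases Nat.lt_succ_iff_lt_or_eq.1 hν with hν | rfl
    · exact ⟨s5r_cplx_mono _ _ _ (d4 ν hν).1 (by linarith), (d4 ν hν).2⟩
    · rw [d5]
      exact ⟨s5r_cplx_mono _ _ _ (hPi I Φ hΦ).1 h4, (hPi I Φ hΦ).2⟩
  · intro I Φ hΦ I' Φ' hΦ'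
    have h1 := (hd I Φ hΦ I' Φ' hΦ').2.2.1
    have h2 := hDp₀ I Φ hΦ I' Φ' hΦ'
    push_cast
    linarith
  · intro I Ψ hΨ
    obtain ⟨Φ, _, Φ', _, ν, _, rfl⟩ := s5p_mem_pre.1 hΨ
    exact ⟨⟨_, rfl⟩, rfl⟩
  · refine s5p_pred c0 C0 hc0 hs.1 a hi hj fi fj bi bj _ C B Dp ε
      (fun K0 Dh L => s5p_err_nonneg _ K0 (by linarith)) ?_
    intro Φ Φ' J fa fb K0 Dh L m ch hfa hfb hL hm hb hmem hpre zb hzb A w hA
    obtain ⟨m1, m2⟩ := hmem J le_rfl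
    obtain ⟨d1, d2, d3, d4, d5, d6⟩ := hd J Φ m1 J Φ' m2
    have hin : ∀ ν < n Φ.lab Φ'.lab + 1, ∀ I, I ≤ J → s5pCol ι ρ ε Φ Φ' ν ∈ m I := fun ν hν I hI =>
      hpre I (s5p_mem_pre.2 ⟨Φ, (hmem I hI).1, Φ', (hmem I hI).2, ν, hν, rfl⟩)
    have hDh : Real.exp 2 ≤ Dh := (hb.cplx J _ (hin _ (Nat.lt_succ_self _) J le_rfl)).H_ge
    have hy : 0 ≤ Real.log Dh + L + K0 := by
      have h2 : (1 : ℝ) ≤ Real.exp 2 := Real.one_le_exp (by norm_num)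
      have h3 : 0 ≤ Real.log Dh := Real.log_nonneg (by linarith)
      positivity
    have h6 := d6 J fa fb K0 ε Dh L m ch hfa hfb hε hε1 hL hm hb
      (fun ν hν => ⟨s5pCol ι ρ ε Φ Φ' ν, rfl, rfl, hin ν (Nat.lt_succ_of_lt hν)⟩) zb hzb A w hA
    rw [← bi.chart J Φ m1, ← bj.chart J Φ' m2] at h6
    refine h6.trans (mul_le_mul_of_nonneg_right ?_ (by positivity))
    exact s5p_err_mono K0 hC₀ (by linarith) d1 (by linarith [hDp₀ J Φ m1 J Φ' m2]) hy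

end Claimed.Agent.R258
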