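/-
Row 258, Secs. 5.4-5.5, architect helper182.   THE DATA OF ONE TUPLE ON ONE SEGMENT (`TSeg`) AND ITS BASIC API.

A `TSeg` is the data of one tuple `(u,t)` on one segment root `R`: for every slot two inherited catalogs `cat l 0`, `cat l 1`; two HIGH slots (`hi l = true`), delay `K0`.
   `cur l c I = P_{cat l c, I} F_l`,     `Bv = cur 0 - cur 1`,     `Uv = P_{cat l 0, s+K0} F_l - cur 0` (high slots; `0` in the low slots),      `Yv = Bv + Uv`  (9),
   `Xv = F_l - cur 1` (high slots), `= Bv` (low slots)   (8).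
-/
import Claimed.Agent.R258.S5.Roll

set_option autoImplicit false
open MeasureTheory

namespace Claimed.Agent.R258

/-! ### continuation of a family past a tree by pure inheritance -/

open Classical in
/-- the smallest cell of `T` containing `I` (junk value `I` if there is none) -/
noncomputable def topCell (T : Finset Cell) (I : Cell) : Cell :=
  if h : ∃ J ∈ T, I ≤ J ∧ ∀ J' ∈ T, I ≤ J' → J ≤ J' then h.choose else I

theorem s5t_topCell_spec {R : Cell} {T : Finset Cell} (ht : RootedTree R T) {I : Cell} (hI : I ≤ R) :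
    topCell T I ∈ T ∧ I ≤ topCell T I ∧ ∀ J' ∈ T, I ≤ J' → topCell T I ≤ J' := by
  classical
  have hex : ∃ J ∈ T, I ≤ J ∧ ∀ J' ∈ T, I ≤ J' → J ≤ J' := by
    have hne : (T.filter fun J => I ≤ J).Nonempty := ⟨R, by simp [ht.root_mem, hI]⟩
    obtain ⟨J, hJ, hmax⟩ := Finset.exists_max_image _ (fun J : Cell => J.depth) hne
    rw [Finset.mem_filter] at hJ
    exact ⟨J, hJ.1, hJ.2, fun J' hJ' hIJ' => cell_chain_of_depth hJ.2 hIJ' (hmax J' (by simp [hJ', hIJ']))⟩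
  unfold topCell
  rw [dif_pos hex]
  exact hex.choose_spec

theorem s5t_topCell_self {R : Cell} {T : Finset Cell} (ht : RootedTree R T) {I : Cell} (hI : I ∈ T) : topCell T I = I := by
  obtain ⟨_, h2, h3⟩ := s5t_topCell_spec ht (ht.le_root I hI)
  exact le_antisymm (h3 I hI le_rfl) h2

theorem s5t_topCell_mono {R : Cell} {T : Finset Cell} (ht : RootedTree R T) {I I' : Cell} (hI : I ≤ R) (hI' : I' ≤ I) :
    topCell T I' ≤ topCell T I := by
  obtain ⟨h1, h2, _⟩ := s5t_topCell_spec ht hI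
  exact (s5t_topCell_spec ht (hI'.trans hI)).2.2 _ h1 (hI'.trans h2)

open Classical in
/-- the family `m`, continued past the tree `T` by pure inheritance (empty off the root) -/
noncomputable def truncCat (R : Cell) (T : Finset Cell) (m : Cell → Finset Col) (I : Cell) : Finset Col :=
  if I ≤ R then m (topCell T I) else ∅

theorem s5t_trunc_self {R : Cell} {T : Finset Cell} (ht : RootedTree R T) (m : Cell → Finset Col) {I : Cell} (hI : I ∈ T) :
    truncCat R T m I = m I := by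
  unfold truncCat
  rw [if_pos (ht.le_root I hI), s5t_topCell_self ht hI]

/-- a column of the continued family is a column of `m` at a cell of the tree above -/
theorem s5t_trunc_mem {R : Cell} {T : Finset Cell} (ht : RootedTree R T) {m : Cell → Finset Col} {I : Cell} {Φ : Col}
    (h : Φ ∈ truncCat R T m I) : I ≤ R ∧ ∃ I' ∈ T, I ≤ I' ∧ Φ ∈ m I' ∧ Φ ∈ truncCat R T m I' := by
  unfold truncCat at h
  by_cases hI : I ≤ R
  · rw [if_pos hI] at h
    obtain ⟨h1, h2, _⟩ := s5t_topCell_spec ht hI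
    exact ⟨hI, _, h1, h2, h, by rw [s5t_trunc_self ht m h1]; exact h⟩
  · rw [if_neg hI] at h
    exact absurd h (Finset.notMem_empty _)

theorem s5t_trunc_inh {R : Cell} {T : Finset Cell} (ht : RootedTree R T) {m : Cell → Finset Col} (h : Inh R m) :
    Inh R (truncCat R T m) where
  birth := fun I Φ hΦ => by
    obtain ⟨_, I', _, h2, h3, _⟩ := s5t_trunc_mem ht hΦ
    exact h2.trans (h.birth I' Φ h3)
  mono := fun I I' hI hI' => by
    unfold truncCat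
    rw [if_pos hI, if_pos (hI'.trans hI)]
    exact h.mono _ _ (ht.le_root _ (s5t_topCell_spec ht hI).1) (s5t_topCell_mono ht hI hI')
  lab := fun I I' Φ hΦ Φ' hΦ' hl => by
    obtain ⟨_, J, _, _, h3, _⟩ := s5t_trunc_mem ht hΦ
    obtain ⟨_, J', _, _, h3', _⟩ := s5t_trunc_mem ht hΦ'
    exact h.lab J J' Φ h3 Φ' h3' hl

theorem s5t_trunc_bud {R : Cell} {T : Finset Cell} (ht : RootedTree R T) {m : Cell → Finset Col} {ch : ℕ → Chart} {D : ℝ}
    (h : Bud R m ch D) : Bud R (truncCat R T m) ch D where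
  chart := fun I Φ hΦ => by obtain ⟨_, J, _, _, h3, _⟩ := s5t_trunc_mem ht hΦ; exact h.chart J Φ h3
  cplx := fun I Φ hΦ => by obtain ⟨_, J, _, _, h3, _⟩ := s5t_trunc_mem ht hΦ; exact h.cplx J Φ h3
  bdd := fun I Φ hΦ => by obtain ⟨_, J, _, _, h3, _⟩ := s5t_trunc_mem ht hΦ; exact h.bdd J Φ h3
  eps := fun I Φ hΦ => by obtain ⟨_, J, _, _, h3, _⟩ := s5t_trunc_mem ht hΦ; exact h.eps J Φ h3
  count := fun I hI A hA => h.count I hI A fun Φ hΦ => by
    obtain ⟨⟨I', _, hm⟩, hb⟩ := hA Φ hΦ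
    obtain ⟨_, J, hJ, _, h3, _⟩ := s5t_trunc_mem ht hm
    exact ⟨⟨J, ht.le_root J hJ, h3⟩, hb⟩

/-- the data of one tuple on one segment -/
structure TSeg where
  root : Cell
  T : Finset Cell
  S : Finset Cell
  w : Cell → ℝ × ℝ → ℂ
  f : Fin 4 → ℝ → ℂ
  chart : ℕ → Chart
  cat : Fin 4 → Fin 2 → Cell → Finset Col
  hi : Fin 4 → Bool
  K0 : ℕ

namespace TSeg

noncomputable def F (X : TSeg) (l : Fin 4) : XV := ofScalar (X.f l)
noncomputable def cur (X : TSeg) (l : Fin 4) (c : Fin 2) (I : Cell) : XV := cproj (X.cat l c I) I (X.F l)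
noncomputable def Bv (X : TSeg) (l : Fin 4) (I : Cell) : XV := X.cur l 0 I - X.cur l 1 I
noncomputable def Uv (X : TSeg) (l : Fin 4) (I : Cell) : XV :=
  if X.hi l then dproj (X.cat l 0) I X.K0 (X.F l) - X.cur l 0 I else 0
noncomputable def Yv (X : TSeg) (l : Fin 4) (I : Cell) : XV := X.Bv l I + X.Uv l I
noncomputable def Xv (X : TSeg) (l : Fin 4) (I : Cell) : XV :=
  if X.hi l then restr I.set (X.F l) - X.cur l 1 I else X.Bv l I

open Classical in
/-- all basic columns of the slot `l` -/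
noncomputable def mm (X : TSeg) (l : Fin 4) (I : Cell) : Finset Col := X.cat l 0 I ∪ X.cat l 1 I

open Classical in
/-- the base segment with summation set `S'`: the catalogs are continued past the tree by pure inheritance (`truncCat`), the basic sides are kept on the tree only -/
noncomputable def toBase (X : TSeg) (S' : Finset Cell) : BaseSeg :=
  { root := X.root, T := X.T, S := S', w := X.w, f := X.f, chart := X.chart,
    cat := fun l c => truncCat X.root X.T (X.cat l c), U := fun l I => if I ∈ X.T then X.Uv l I else 0 }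

structure Valid (X : TSeg) (c0 C0 q D₁ : ℝ) : Prop where
  tree : RootedTree X.root X.T
  S_sub : X.S ⊆ X.T
  adm : ∀ I ∈ X.S, Admissible c0 C0 I (X.w I)
  f_cs : ∀ l, BddCS (X.f l)
  f_norm : ∀ l, ∀ I ∈ X.T, nnorm q I (X.f l) ≤ 1
  inh : ∀ l c, Inh X.root (X.cat l c)
  bud : ∀ l c, Bud X.root (X.cat l c) X.chart D₁
  lab_inj : ∀ l c I l' c' I', ∀ Φ ∈ X.cat l c I, ∀ Φ' ∈ X.cat l' c' I', Φ.lab = Φ'.lab → Φ = Φ' ∧ l = l' ∧ c = c'
  hi_card : (Finset.univ.filter fun l => X.hi l = true).card = 2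

/-- the replacement error -/
def Repl (X : TSeg) (E₁ : ℝ) : Prop :=
  ∑ I ∈ X.S, I.len * ‖formV I (X.w I) (fun l => X.Xv l I) - formV I (X.w I) (fun l => X.Yv l I)‖ ≤ E₁ * X.root.len

end TSeg

/-! ### basic API -/

section api
variable {X : TSeg} {c0 C0 q D₁ : ℝ}

theorem s5t_Yv_hi (X : TSeg) {l : Fin 4} (h : X.hi l = true) (I : Cell) :
    X.Yv l I = dproj (X.cat l 0) I X.K0 (X.F l) - X.cur l 1 I := by
  simp only [TSeg.Yv, TSeg.Bv, TSeg.Uv, h, if_true]; abel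

theorem s5t_Yv_lo (X : TSeg) {l : Fin 4} (h : X.hi l = false) (I : Cell) : X.Yv l I = X.Bv l I := by
  simp [TSeg.Yv, TSeg.Uv, h]

theorem s5t_Xv_hi (X : TSeg) {l : Fin 4} (h : X.hi l = true) (I : Cell) :
    X.Xv l I = restr I.set (X.F l) - X.cur l 1 I := by
  simp [TSeg.Xv, h]

theorem s5t_Xv_lo (X : TSeg) {l : Fin 4} (h : X.hi l = false) (I : Cell) : X.Xv l I = X.Bv l I := by
  simp [TSeg.Xv, h]

theorem s5t_X_sub_Y (X : TSeg) {l : Fin 4} (h : X.hi l = true) (I : Cell) :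
    X.Xv l I - X.Yv l I = restr I.set (X.F l) - dproj (X.cat l 0) I X.K0 (X.F l) := by
  rw [s5t_Xv_hi X h, s5t_Yv_hi X h]; abel

theorem s5t_n2_F (hq : 2 < q) (hv : X.Valid c0 C0 q D₁) (l : Fin 4) {I : Cell} (hI : I ∈ X.T) : n2 I (X.F l) ≤ 1 :=
  (s5f_n2_le_nnorm q hq.le I (X.f l) (hv.f_cs l)).trans (hv.f_norm l I hI)

theorem s5t_n2_cur (hq : 2 < q) (hv : X.Valid c0 C0 q D₁) (l : Fin 4) (c : Fin 2) {I : Cell} (hI : I ∈ X.T) :
    n2 I (X.cur l c I) ≤ 1 := by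
  have h := s5r_n2_dproj (X.cat l c) I 0 (X.F l)
  rw [s5r_dproj_zero] at h
  exact h.trans (s5t_n2_F hq hv l hI)

theorem s5t_n2_Bv (hq : 2 < q) (hv : X.Valid c0 C0 q D₁) (l : Fin 4) {I : Cell} (hI : I ∈ X.T) : n2 I (X.Bv l I) ≤ 2 := by
  have h := s5f_n2_sub I (X.cur l 0 I) (X.cur l 1 I)
  have h0 := s5t_n2_cur hq hv l 0 hI
  have h1 := s5t_n2_cur hq hv l 1 hI
  unfold TSeg.Bv; linarith

theorem s5t_n2_zero (I : Cell) : n2 I 0 = 0 := by simp [n2]

theorem s5t_n2_Uv (hq : 2 < q) (hv : X.Valid c0 C0 q D₁) (l : Fin 4) {I : Cell} (hI : I ∈ X.T) : n2 I (X.Uv l I) ≤ 1 := by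
  unfold TSeg.Uv
  split_ifs
  · exact (s5r_n2_roll X.root (X.cat l 0) (hv.inh l 0) I (hv.tree.le_root I hI) X.K0 (X.F l)).trans (s5t_n2_F hq hv l hI)
  · rw [s5t_n2_zero]; exact zero_le_one

theorem s5t_n2_Yv (hq : 2 < q) (hv : X.Valid c0 C0 q D₁) (l : Fin 4) {I : Cell} (hI : I ∈ X.T) : n2 I (X.Yv l I) ≤ 3 := by
  have h := s5f_n2_add I (X.Bv l I) (X.Uv l I)
  have h0 := s5t_n2_Bv hq hv l hI
  have h1 := s5t_n2_Uv hq hv l hI
  unfold TSeg.Yv; linarith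

theorem s5t_n2_Xv (hq : 2 < q) (hv : X.Valid c0 C0 q D₁) (l : Fin 4) {I : Cell} (hI : I ∈ X.T) : n2 I (X.Xv l I) ≤ 2 := by
  unfold TSeg.Xv
  split_ifs
  · have h := s5r_n2_resid (X.cat l 1) I 0 (X.F l)
    rw [s5r_dproj_zero] at h
    have := s5t_n2_F hq hv l hI
    unfold TSeg.cur; linarith
  · exact s5t_n2_Bv hq hv l hI

/-- `‖1_I F_l‖² ≤ |I|` on the tree -/
theorem s5t_norm_F (hq : 2 < q) (hv : X.Valid c0 C0 q D₁) (l : Fin 4) {I : Cell} (hI : I ∈ X.T) :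
    ‖restr I.set (X.F l)‖ ^ 2 ≤ I.len := by
  rw [← s5f_len_n2_sq]
  have h := s5t_n2_F hq hv l hI
  have h0 := s5f_n2_nonneg I (X.F l)
  exact mul_le_of_le_one_right (cell_len_nonneg I) (pow_le_one₀ h0 h)

theorem s5t_norm_F_mul (hq : 2 < q) (hv : X.Valid c0 C0 q D₁) (l l' : Fin 4) {I : Cell} (hI : I ∈ X.T) :
    ‖restr I.set (X.F l)‖ * ‖restr I.set (X.F l')‖ ≤ I.len := by
  have h := s5t_norm_F hq hv l hI
  have h' := s5t_norm_F hq hv l' hI
  nlinarith [sq_nonneg (‖restr I.set (X.F l)‖ - ‖restr I.set (X.F l')‖)]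

end api

/-! ### unions of families -/

open Classical in
theorem s5t_inh_union {R : Cell} {m₁ m₂ : Cell → Finset Col} (h₁ : Inh R m₁) (h₂ : Inh R m₂)
    (hx : ∀ I I', ∀ Φ ∈ m₁ I, ∀ Φ' ∈ m₂ I', Φ.lab = Φ'.lab → Φ = Φ') : Inh R (fun I => m₁ I ∪ m₂ I) where
  birth := fun I Φ hΦ => by
    rcases Finset.mem_union.1 hΦ with h | h
    · exact h₁.birth I Φ h
    · exact h₂.birth I Φ h
  mono := fun I I' hI hI' => Finset.union_subset_union (h₁.mono I I' hI hI') (h₂.mono I I' hI hI')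
  lab := fun I I' Φ hΦ Φ' hΦ' hl => by
    rcases Finset.mem_union.1 hΦ with h | h <;> rcases Finset.mem_union.1 hΦ' with h' | h'
    · exact h₁.lab I I' Φ h Φ' h' hl
    · exact hx I I' Φ h Φ' h' hl
    · exact (hx I' I Φ' h' Φ h hl.symm).symm
    · exact h₂.lab I I' Φ h Φ' h' hl

open Classical in
theorem s5t_fullav_union {R : Cell} {m₁ m₂ : Cell → Finset Col} (h₁ : FullAv R m₁) (h₂ : FullAv R m₂) :
    FullAv R (fun I => m₁ I ∪ m₂ I) := fun I Φ hΦ I' hI' hb => by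
  rcases Finset.mem_union.1 hΦ with h | h
  · exact Finset.mem_union_left _ (h₁ I Φ h I' hI' hb)
  · exact Finset.mem_union_right _ (h₂ I Φ h I' hI' hb)

open Classical in
theorem s5t_bud_union {R : Cell} {m₁ m₂ : Cell → Finset Col} {ch : ℕ → Chart} {D₁ D₂ : ℝ} (h₁ : Bud R m₁ ch D₁)
    (h₂ : Bud R m₂ ch D₂) (hD₁ : 0 < D₁) (hD₂ : 0 < D₂) : Bud R (fun I => m₁ I ∪ m₂ I) ch (D₁ + D₂) where
  chart := fun I Φ hΦ => by
    rcases Finset.mem_union.1 hΦ with h | h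
    · exact h₁.chart I Φ h
    · exact h₂.chart I Φ h
  cplx := fun I Φ hΦ => by
    rcases Finset.mem_union.1 hΦ with h | h
    · exact s5r_cplx_mono _ _ _ (h₁.cplx I Φ h) (by linarith)
    · exact s5r_cplx_mono _ _ _ (h₂.cplx I Φ h) (by linarith)
  bdd := fun I Φ hΦ => by
    rcases Finset.mem_union.1 hΦ with h | h
    · exact h₁.bdd I Φ h
    · exact h₂.bdd I Φ h
  eps := fun I Φ hΦ => by
    rcases Finset.mem_union.1 hΦ with h | h
    · exact ⟨(inv_anti₀ hD₁ (by linarith)).trans (h₁.eps I Φ h).1, (h₁.eps I Φ h).2⟩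
    · exact ⟨(inv_anti₀ hD₂ (by linarith)).trans (h₂.eps I Φ h).1, (h₂.eps I Φ h).2⟩
  count := fun I hI A hA => by
    have hsplit : A = (A.filter fun Φ => ∃ I', I' ≤ R ∧ Φ ∈ m₁ I') ∪ (A.filter fun Φ => ∃ I', I' ≤ R ∧ Φ ∈ m₂ I') := by
      ext Φ
      simp only [Finset.mem_union, Finset.mem_filter]
      constructor
      · intro h
        obtain ⟨⟨I', hI', hm⟩, _⟩ := hA Φ h
        rcases Finset.mem_union.1 hm with h' | h'
        · exact Or.inl ⟨h, I', hI', h'⟩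
        · exact Or.inr ⟨h, I', hI', h'⟩
      · rintro (h | h) <;> exact h.1
    have c₁ := h₁.count I hI (A.filter fun Φ => ∃ I', I' ≤ R ∧ Φ ∈ m₁ I') (fun Φ hΦ => by
      rw [Finset.mem_filter] at hΦ; exact ⟨hΦ.2, (hA Φ hΦ.1).2⟩)
    have c₂ := h₂.count I hI (A.filter fun Φ => ∃ I', I' ≤ R ∧ Φ ∈ m₂ I') (fun Φ hΦ => by
      rw [Finset.mem_filter] at hΦ; exact ⟨hΦ.2, (hA Φ hΦ.1).2⟩)
    have hc : (A.card : ℝ) ≤ ((A.filter fun Φ => ∃ I', I' ≤ R ∧ Φ ∈ m₁ I').card : ℝ)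
        + ((A.filter fun Φ => ∃ I', I' ≤ R ∧ Φ ∈ m₂ I').card : ℝ) := by
      have := Finset.card_union_le (A.filter fun Φ => ∃ I', I' ≤ R ∧ Φ ∈ m₁ I') (A.filter fun Φ => ∃ I', I' ≤ R ∧ Φ ∈ m₂ I')
      rw [← hsplit] at this
      exact_mod_cast this
    linarith

theorem s5t_bud_congr {R : Cell} {m : Cell → Finset Col} {ch ch' : ℕ → Chart} {D : ℝ} (h : Bud R m ch D)
    (hc : ∀ I, ∀ Φ ∈ m I, ch' Φ.lab = ch Φ.lab) : Bud R m ch' D where
  chart := fun I Φ hΦ => by rw [hc I Φ hΦ]; exact h.chart I Φ hΦ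
  cplx := fun I Φ hΦ => by rw [hc I Φ hΦ]; exact h.cplx I Φ hΦ
  bdd := fun I Φ hΦ => by rw [hc I Φ hΦ]; exact h.bdd I Φ hΦ
  eps := h.eps
  count := h.count

/-- cardinality of a catalog at a cell -/
theorem s5t_card_le {R : Cell} {m : Cell → Finset Col} {ch : ℕ → Chart} {D : ℝ} (hi : Inh R m) (h : Bud R m ch D)
    {I : Cell} (hI : I ≤ R) : ((m I).card : ℝ) ≤ D :=
  h.count I hI (m I) fun Φ hΦ => ⟨⟨I, hI, hΦ⟩, hi.birth I Φ hΦ⟩

section api2
variable {X : TSeg} {c0 C0 q D₁ : ℝ}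

theorem s5t_mm_inh (hv : X.Valid c0 C0 q D₁) (l : Fin 4) : Inh X.root (X.mm l) :=
  s5t_inh_union (hv.inh l 0) (hv.inh l 1) fun I I' Φ hΦ Φ' hΦ' hl => (hv.lab_inj l 0 I l 1 I' Φ hΦ Φ' hΦ' hl).1

theorem s5t_mm_bud (hv : X.Valid c0 C0 q D₁) (hD : 0 < D₁) (l : Fin 4) : Bud X.root (X.mm l) X.chart (2 * D₁) := by
  have := s5t_bud_union (hv.bud l 0) (hv.bud l 1) hD hD
  rw [← two_mul] at this
  exact this

theorem s5t_disj (hv : X.Valid c0 C0 q D₁) (l : Fin 4) (I : Cell) : Disjoint (X.cat l 0 I) (X.cat l 1 I) := by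
  rw [Finset.disjoint_left]
  intro Φ h0 h1
  have := (hv.lab_inj l 0 I l 1 I Φ h0 Φ h1 rfl).2.2
  exact absurd this (by decide)

/-- coefficients of one current projection, bounded by the budget `D` of its catalog (e.g. `hb := hv.bud l c`) -/
theorem s5t_coef_cur (hq : 2 < q) (hv : X.Valid c0 C0 q D₁) (l : Fin 4) (c : Fin 2) {D : ℝ} (hD : 0 < D)
    (hb : Bud X.root (X.cat l c) X.chart D) {I : Cell} (hI : I ∈ X.T) :
    ∃ a : Col → ℂ, X.cur l c I = ∑ Φ ∈ X.cat l c I, a Φ • Φ.vec I ∧ ∀ Φ ∈ X.cat l c I, ‖a Φ‖ ≤ D := by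
  have hreg := s5r_reg_of_bud X.root (X.cat l c) X.chart D hb hD
  obtain ⟨a, ha, hs⟩ := s5r_coef (X.cat l c I) I (fun Φ hΦ Φ' hΦ' => (hv.inh l c).lab I I Φ hΦ Φ' hΦ')
    (hreg.meas I) (hreg.bdd I) (fun Φ hΦ => (hreg.eps I Φ hΦ).1) (X.F l)
  refine ⟨a, ha, fun Φ hΦ => ?_⟩
  have h1 : Φ.eps * ‖a Φ‖ ^ 2 ≤ 1 := by
    have h2 : Φ.eps * ‖a Φ‖ ^ 2 ≤ ∑ Φ ∈ X.cat l c I, Φ.eps * ‖a Φ‖ ^ 2 :=
      Finset.single_le_sum (f := fun Φ : Col => Φ.eps * ‖a Φ‖ ^ 2)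
        (fun Ψ hΨ => mul_nonneg (hreg.eps I Ψ hΨ).1.le (sq_nonneg _)) hΦ
    have h3 : n2 I (X.F l) ^ 2 ≤ 1 := pow_le_one₀ (s5f_n2_nonneg _ _) (s5t_n2_F hq hv l hI)
    linarith
  have h4 : D⁻¹ ≤ Real.sqrt Φ.eps := (hb.eps I Φ hΦ).1
  have h5 : (Real.sqrt Φ.eps * ‖a Φ‖) ^ 2 ≤ 1 := by
    rw [mul_pow, Real.sq_sqrt (hreg.eps I Φ hΦ).1.le]; exact h1
  have h6 : Real.sqrt Φ.eps * ‖a Φ‖ ≤ 1 := by
    have h8 : (Real.sqrt Φ.eps * ‖a Φ‖) ^ 2 ≤ 1 ^ 2 := by rw [one_pow]; exact h5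
    exact (abs_le_of_sq_le_sq' h8 zero_le_one).2
  have h7 : D⁻¹ * ‖a Φ‖ ≤ 1 := (mul_le_mul_of_nonneg_right h4 (norm_nonneg _)).trans h6
  rwa [inv_mul_le_iff₀ hD, mul_one] at h7

open Classical in
/-- coefficients of a basic coarse argument `B_l`, bounded by the budget `D` of its two catalogs (e.g. `hb := hv.bud l`) -/
theorem s5t_coef (hq : 2 < q) (hv : X.Valid c0 C0 q D₁) (l : Fin 4) {D : ℝ} (hD : 0 < D)
    (hb : ∀ c, Bud X.root (X.cat l c) X.chart D) {I : Cell} (hI : I ∈ X.T) :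
    ∃ a : Col → ℂ, X.Bv l I = ∑ Φ ∈ X.mm l I, a Φ • Φ.vec I ∧ ∀ Φ, ‖a Φ‖ ≤ D := by
  obtain ⟨a0, h0, b0⟩ := s5t_coef_cur hq hv l 0 hD (hb 0) hI
  obtain ⟨a1, h1, b1⟩ := s5t_coef_cur hq hv l 1 hD (hb 1) hI
  refine ⟨fun Φ => if Φ ∈ X.cat l 0 I then a0 Φ else if Φ ∈ X.cat l 1 I then - a1 Φ else 0, ?_, ?_⟩
  · unfold TSeg.Bv TSeg.mm
    rw [Finset.sum_union (s5t_disj hv l I), h0, h1, sub_eq_add_neg, ← Finset.sum_neg_distrib]
    congr 1
    · exact Finset.sum_congr rfl fun Φ hΦ => by simp [hΦ]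
    · refine Finset.sum_congr rfl fun Φ hΦ => ?_
      have : Φ ∉ X.cat l 0 I := fun h => (Finset.disjoint_left.1 (s5t_disj hv l I)) h hΦ
      simp [hΦ, this]
  · intro Φ
    show ‖if Φ ∈ X.cat l 0 I then a0 Φ else if Φ ∈ X.cat l 1 I then - a1 Φ else 0‖ ≤ D
    split_ifs with h h'
    · exact b0 Φ h
    · rw [norm_neg]; exact b1 Φ h'
    · simpa using hD.le

end api2

open Classical in
/-- the basic sides of `X.toBase S'` involve only finitely many private labels (field `U_lab` of `BaseSeg.Valid`) -/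
theorem s5t_U_lab (X : TSeg) (S' : Finset Cell) :
    ∃ N0 : ℕ, ∀ l I v, N0 ≤ v → ∀ᵐ y ∂(volume : Measure ℝ), ((X.toBase S').U l I : ℝ → HV) y (v + 1) = 0 := by
  set Lb : Finset ℕ := (Finset.univ : Finset (Fin 4)).biUnion fun l => X.T.biUnion fun I =>
    (insert I (cellsAt I X.K0)).biUnion fun Q => (X.cat l 0 Q).image Col.lab with hLb
  refine ⟨Lb.sup id + 1, fun l I v hv => ?_⟩
  have hnot : ∀ I ∈ X.T, ∀ Q ∈ insert I (cellsAt I X.K0), ∀ Φ ∈ X.cat l 0 Q, Φ.lab ≠ v := by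
    intro I hI Q hQ Φ hΦ e
    have hmem : Φ.lab ∈ Lb := by
      rw [hLb]
      simp only [Finset.mem_biUnion, Finset.mem_image]
      exact ⟨l, Finset.mem_univ _, I, hI, Q, hQ, Φ, hΦ, rfl⟩
    have : Φ.lab ≤ Lb.sup id := Finset.le_sup (f := id) hmem
    omega
  have hmem : (X.toBase S').U l I ∈ xvPrivZero v := by
    show (if I ∈ X.T then X.Uv l I else 0) ∈ xvPrivZero v
    by_cases hI : I ∈ X.T
    · rw [if_pos hI]
      unfold TSeg.Uv
      split_ifs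
      · refine Submodule.sub_mem _ ?_ ?_
        · unfold dproj
          rw [FunLike.coe_sum, Finset.sum_apply]
          exact Submodule.sum_mem _ fun Q hQ =>
            xv_cproj_mem_privZero Q (hnot I hI Q (Finset.mem_insert_of_mem hQ)) _
        · exact xv_cproj_mem_privZero I (hnot I hI I (Finset.mem_insert_self _ _)) _
      · exact Submodule.zero_mem _
    · rw [if_neg hI]
      exact Submodule.zero_mem _
  exact hmem

end Claimed.Agent.R258
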