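/-
Row 258, block [S5e] (architect helper22).  FILE EHyp: the two imported theorems in the shape of EDefs (ADAPTERS, proved here):
  `s5e_weylHyp : s5e_WeylHyp`  from helper197's `wy_weyl` (Weyl/Main.lean) at frequency `0`;
  `s5e_expHyp : s5e_ExpHyp`    from helper78's `s4a_expand 1` (S4a/Expand.lean) with `H = e² X`, `B = X`.
-/
import Claimed.Agent.R258.Pack012
import Claimed.Agent.R258.S4a.Expand

set_option autoImplicit false
open MeasureTheory Matrix

namespace Claimed.Agent.R258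

theorem s5e_weylHyp : s5e_WeylHyp := by
  obtain ⟨c, hc⟩ := wy_weyl.{0, 0}
  refine ⟨c, ?_⟩
  intro ι κ _ _ _ X C V Lam b χ ϑ hstd hLam hχ hϑ hbig
  refine hc X C V Lam b χ ϑ 0 hstd hLam hχ hϑ ?_
  refine hbig.trans (le_of_eq ?_)
  congr 1
  refine integral_congr_ae (Filter.Eventually.of_forall fun z => ?_)
  simp only [zero_dotProduct, neg_zero]
  have : ee 0 = 1 := by unfold ee; simp
  rw [this, mul_one]

theorem s5e_expHyp : s5e_ExpHyp := by
  obtain ⟨Cq, hCq⟩ := s4a_expand 1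
  refine ⟨Cq * 3 ^ Cq, ?_⟩
  intro ι _ _ X C Pf χ hX hd hC hPf hP hI hχ
  have hX0 : 0 < X := by linarith
  have he2 : (1 : ℝ) ≤ Real.exp 2 := Real.one_le_exp (by norm_num)
  have he0 : 0 < Real.exp 2 := Real.exp_pos _
  obtain ⟨H, hH⟩ : ∃ H : ℝ, H = X * Real.exp 2 := ⟨_, rfl⟩
  have hHe : Real.exp 2 ≤ H := by rw [hH]; nlinarith
  have hXH : X ≤ H := by rw [hH]; nlinarith
  have hH1 : 1 ≤ H := le_trans hX hXH
  have hlogH : Real.log H = Real.log X + 2 := by
    rw [hH, Real.log_mul hX0.ne' he0.ne', Real.log_exp]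
  have hlogX : 0 ≤ Real.log X := Real.log_nonneg hX
  have hH10 : H ≤ H ^ 10 := by
    calc H = H ^ 1 := (pow_one H).symm
      _ ≤ H ^ 10 := pow_le_pow_right₀ hH1 (by norm_num)
  obtain ⟨hR1, hR, hex⟩ := hCq C Pf H X hHe hX (by rw [hlogH]; linarith) (fun i j => (hC i j).trans hXH) hPf hP hI
  have hqp : s4b_qp Cq (Real.log H + Real.log X) ≤ wy_qp (Cq * 3 ^ Cq) X := by
    unfold s4b_qp wy_qp
    apply Real.exp_le_exp.2
    rw [hlogH]
    have h1 : (1 + (Real.log X + 2 + Real.log X)) ^ Cq ≤ (3 * (1 + Real.log X)) ^ Cq :=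
      pow_le_pow_left₀ (by linarith) (by linarith) _
    have h2 : (1 + Real.log X) ^ Cq ≤ (1 + Real.log X) ^ (Cq * 3 ^ Cq) :=
      pow_le_pow_right₀ (by linarith) (Nat.le_mul_of_pos_right _ (by positivity))
    calc (Cq : ℝ) * (1 + (Real.log X + 2 + Real.log X)) ^ Cq ≤ (Cq : ℝ) * (3 * (1 + Real.log X)) ^ Cq :=
          mul_le_mul_of_nonneg_left h1 (by positivity)
      _ = ((Cq : ℝ) * 3 ^ Cq) * (1 + Real.log X) ^ Cq := by rw [mul_pow]; ring
      _ ≤ ((Cq : ℝ) * 3 ^ Cq) * (1 + Real.log X) ^ (Cq * 3 ^ Cq) := mul_le_mul_of_nonneg_left h2 (by positivity)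
      _ = ((Cq * 3 ^ Cq : ℕ) : ℝ) * (1 + Real.log X) ^ (Cq * 3 ^ Cq) := by push_cast; ring
  obtain ⟨a, ha, hsum⟩ := hex χ (hχ.mono (by linarith) (by linarith) hXH (hXH.trans hH10) (hXH.trans hH10))
  refine ⟨s4a_xR C Pf H X, a, hR1, hR.trans hqp, ?_, ?_⟩
  · intro ℓ
    refine le_trans ?_ ((ha ℓ).trans hqp)
    refine mul_le_mul_of_nonneg_left ?_ (norm_nonneg _)
    refine pow_le_pow_right₀ (by linarith [norm_nonneg ℓ]) ?_
    unfold s4a_xm
    nlinarith [Nat.zero_le (Fintype.card ι)]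
  · intro u hu
    have := hsum u hu
    simp only [← Finset.sum_div] at this
    exact this

end Claimed.Agent.R258
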