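/-
Row 258, block [S5e] (architect helper22).  FILE EAdapt: ADAPTERS between the matrix language of block [Weyl] (`wy_*`, helper197), the coordinate language of block [S4a]
(`s4a_*`, helper78) and the evaluation language of block [S8c] (`s8cEv`, `s8cHtLe`, helper61).   Pure finite-sum algebra.  No paper.  REUSABLE by every consumer of Lemmas 4.3 + 4.4.

PLANS.
* everything: unfold (`Matrix.mulVec`, `dotProduct`, `Matrix.mul_apply`, `Matrix.transpose_apply`, `wy_R`, `Matrix.map_apply`, `s4a_bil`, `s4a_mv`), `Finset.sum_mul`, `Finset.mul_sum`, `Finset.sum_comm`, `ring`.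
* `s5e_lamStar_eq`: matrix algebra: `wy_R` is a ring homomorphism (`Matrix.map_mul`, `Matrix.map_add`, `Matrix.map_sub`, `Matrix.transpose_map`, `Matrix.map_one`, `Matrix.map_smul'`-type lemmas for `Rat.castHom ℝ`);
  `(Pf V)ᵀ = Vᵀ Pfᵀ`, `V - Pf V = (1 - Pf) V`; `Matrix.mul_assoc`, `Matrix.smul_mul`, `Matrix.mul_smul`, `smul_smul`, `Matrix.transpose_mul`.   Or entrywise.
* `s5e_quad_eq`: `uᵀ ¼(C + Cᵀ) u = ½ uᵀ C u`, `uᵀ ¼(N + Nᵀ) u = ½ uᵀ N u`, `uᵀ Pfᵀ (C - Cᵀ) (1 - Pf) u = bil C (Pf u) ((1-Pf) u) - bil C ((1-Pf) u) (Pf u)`.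
* `s5e_lamStar_entry`: `s5e_lamStar_eq`, `Fintype.sum_option`, `Fintype.sum_prod_type`.
-/
import Claimed.Agent.R258.Pack012
import Claimed.Agent.R258.Weyl.Lin

set_option autoImplicit false
open MeasureTheory Matrix
open scoped ComplexConjugate

namespace Claimed.Agent.R258

section
variable {ι κ : Type} [Fintype ι] [Fintype κ]

/-- `uᵀ C w` in the two languages -/
theorem s5e_bil_eq (C : Matrix ι ι ℚ) (u w : ι → ℝ) : u ⬝ᵥ (wy_R C *ᵥ w) = s4a_bil C u w := by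
  simp only [s4a_bil, dotProduct, Matrix.mulVec, wy_R, Matrix.map_apply, Finset.mul_sum]
  exact Finset.sum_congr rfl fun i _ => Finset.sum_congr rfl fun j _ => by ring

theorem s5e_mv_eq (P : Matrix ι ι ℚ) (u : ι → ℝ) : wy_R P *ᵥ u = s4a_mv P u := by
  funext i
  simp only [s4a_mv, dotProduct, Matrix.mulVec, wy_R, Matrix.map_apply]

/-- the multivariable chart is a quadratic phase times the bracket sum at `V z` -/
theorem s5e_wyQ_eq (C : Matrix ι ι ℚ) (V : Matrix ι κ ℝ) (Lam : Matrix κ κ ℝ) (b : κ → ℝ) (χ : (ι → ℝ) → ℂ) (z : κ → ℝ) :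
    wy_Q C V Lam b χ z = ee (z ⬝ᵥ (Lam *ᵥ z) + b ⬝ᵥ z) * s4a_br C χ (V *ᵥ z) := by
  unfold wy_Q s4a_br
  congr 1
  refine tsum_congr fun n => ?_
  rw [s5e_bil_eq]
  rfl

/-- rescaling of the variables = rescaling of the parameters -/
theorem s5e_wyQ_scale (C : Matrix ι ι ℚ) (V₀ : Matrix ι κ ℝ) (Lam₀ : Matrix κ κ ℝ) (b₀ : κ → ℝ) (χ : (ι → ℝ) → ℂ) (r : ℝ)
    (z : κ → ℝ) : wy_Q C V₀ Lam₀ b₀ χ (r • z) = wy_Q C (r • V₀) (r ^ 2 • Lam₀) (r • b₀) χ z := by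
  have e1 : V₀ *ᵥ (r • z) = (r • V₀) *ᵥ z := by
    rw [Matrix.mulVec_smul, Matrix.smul_mulVec]
  have e2 : (r • z) ⬝ᵥ (Lam₀ *ᵥ (r • z)) = z ⬝ᵥ ((r ^ 2 • Lam₀) *ᵥ z) := by
    rw [Matrix.mulVec_smul, Matrix.smul_mulVec, smul_dotProduct, dotProduct_smul, dotProduct_smul]
    simp only [smul_eq_mul]
    ring
  have e3 : b₀ ⬝ᵥ (r • z) = (r • b₀) ⬝ᵥ z := by
    rw [smul_dotProduct, dotProduct_smul]
  unfold wy_Q
  rw [e1, e2, e3]

omit [Fintype ι] [Fintype κ] in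
theorem s5e_R_add (A B : Matrix ι κ ℚ) : wy_R (A + B) = wy_R A + wy_R B := by
  ext i j
  simp [wy_R]

omit [Fintype ι] [Fintype κ] in
theorem s5e_R_smul (q : ℚ) (A : Matrix ι κ ℚ) : wy_R (q • A) = (q : ℝ) • wy_R A := by
  ext i j
  simp [wy_R]

variable [DecidableEq ι]

omit [Fintype κ] in
theorem s5e_R_M (C Pf : Matrix ι ι ℚ) : wy_R (s5e_M C Pf) = (1 / 4 : ℝ) • (wy_R C + (wy_R C)ᵀ)
      + (1 / 4 : ℝ) • ((wy_R Pf)ᵀ * (wy_R C - (wy_R C)ᵀ) * (1 - wy_R Pf)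
        + ((wy_R Pf)ᵀ * (wy_R C - (wy_R C)ᵀ) * (1 - wy_R Pf))ᵀ) := by
  unfold s5e_M
  rw [s5e_R_add, s5e_R_smul, s5e_R_smul, s5e_R_add, s5e_R_add, wy_R_transpose, wy_R_transpose, wy_R_mul, wy_R_mul,
    wy_R_sub, wy_R_sub, wy_R_transpose, wy_R_transpose, wy_R_one]
  push_cast
  rfl

omit [DecidableEq ι] in
theorem s5e_dot_transpose (A : Matrix ι κ ℝ) (x : κ → ℝ) (y : ι → ℝ) : x ⬝ᵥ (Aᵀ *ᵥ y) = y ⬝ᵥ (A *ᵥ x) := by
  rw [Matrix.mulVec_transpose, dotProduct_comm, Matrix.dotProduct_mulVec]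

/-- `Λ_* = Λ + Vᵀ M V` -/
theorem s5e_lamStar_eq (C Pf : Matrix ι ι ℚ) (V : Matrix ι κ ℝ) (Lam : Matrix κ κ ℝ) :
    wy_LamStar C V Lam Pf = Lam + Vᵀ * wy_R (s5e_M C Pf) * V := by
  have hM := s5e_R_M C Pf
  obtain ⟨c, hc⟩ : ∃ c, c = wy_R C := ⟨_, rfl⟩
  obtain ⟨p, hp⟩ : ∃ p, p = wy_R Pf := ⟨_, rfl⟩
  unfold wy_LamStar
  rw [hM, ← hc, ← hp]
  have e1 : (p * V)ᵀ * ((1 / 2 : ℝ) • (c - cᵀ)) * (V - p * V) = (1 / 2 : ℝ) • (Vᵀ * (pᵀ * (c - cᵀ) * (1 - p)) * V) := by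
    rw [Matrix.transpose_mul, Matrix.mul_smul, Matrix.smul_mul]
    congr 1
    have : V - p * V = (1 - p) * V := by rw [Matrix.sub_mul, Matrix.one_mul]
    rw [this]
    simp only [Matrix.mul_assoc]
  have e2 : ∀ n : Matrix ι ι ℝ, (Vᵀ * n * V)ᵀ = Vᵀ * nᵀ * V := by
    intro n
    rw [Matrix.transpose_mul, Matrix.transpose_mul, Matrix.transpose_transpose, Matrix.mul_assoc]
  have e3 : ∀ s n n' : Matrix ι ι ℝ, (1 / 2 : ℝ) • (Vᵀ * ((1 / 2 : ℝ) • s) * V)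
      + (1 / 2 : ℝ) • ((1 / 2 : ℝ) • (Vᵀ * n * V) + (1 / 2 : ℝ) • (Vᵀ * n' * V))
      = Vᵀ * ((1 / 4 : ℝ) • s + (1 / 4 : ℝ) • (n + n')) * V := by
    intro s n n'
    simp only [Matrix.mul_add, Matrix.add_mul, Matrix.mul_smul, Matrix.smul_mul, smul_add, smul_smul]
    norm_num
  rw [e1, Matrix.transpose_smul, e2, add_assoc, e3]

/-- `s4a_quad C Pf u = uᵀ M u` -/
theorem s5e_quad_eq (C Pf : Matrix ι ι ℚ) (u : ι → ℝ) : s4a_quad C Pf u = u ⬝ᵥ (wy_R (s5e_M C Pf) *ᵥ u) := by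
  rw [s5e_R_M]
  have h1 : wy_R Pf *ᵥ u = s4a_mv Pf u := s5e_mv_eq Pf u
  have h2 : (1 - wy_R Pf) *ᵥ u = s4a_mv (1 - Pf) u := by rw [← s5e_mv_eq, wy_R_sub, wy_R_one]
  have h3 : u ⬝ᵥ (((wy_R Pf)ᵀ * (wy_R C - (wy_R C)ᵀ) * (1 - wy_R Pf)) *ᵥ u)
      = s4a_bil C (s4a_mv Pf u) (s4a_mv (1 - Pf) u) - s4a_bil C (s4a_mv (1 - Pf) u) (s4a_mv Pf u) := by
    rw [← Matrix.mulVec_mulVec, ← Matrix.mulVec_mulVec, s5e_dot_transpose, dotProduct_comm, h1, h2, Matrix.sub_mulVec,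
      dotProduct_sub, s5e_dot_transpose, s5e_bil_eq, s5e_bil_eq]
  rw [Matrix.add_mulVec, Matrix.smul_mulVec, Matrix.smul_mulVec, Matrix.add_mulVec, Matrix.add_mulVec, dotProduct_add,
    dotProduct_smul, dotProduct_smul, dotProduct_add, dotProduct_add, s5e_dot_transpose, s5e_dot_transpose, h3, s5e_bil_eq]
  unfold s4a_quad
  simp only [smul_eq_mul]
  ring

/-- `zᵀ Λ_* z = zᵀ Λ z + quad (V z)` -/
theorem s5e_lamStar_form (C Pf : Matrix ι ι ℚ) (V : Matrix ι κ ℝ) (Lam : Matrix κ κ ℝ) (z : κ → ℝ) :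
    z ⬝ᵥ (wy_LamStar C V Lam Pf *ᵥ z) = z ⬝ᵥ (Lam *ᵥ z) + s4a_quad C Pf (V *ᵥ z) := by
  rw [s5e_lamStar_eq, Matrix.add_mulVec, dotProduct_add, s5e_quad_eq, ← Matrix.mulVec_mulVec, ← Matrix.mulVec_mulVec,
    s5e_dot_transpose, dotProduct_comm (wy_R (s5e_M C Pf) *ᵥ V *ᵥ z)]

/-- the entries of `Λ_*` at the scale `r` are `r²` times evaluations of ONE rational vector at fixed real vectors -/
theorem s5e_lamStar_entry (C Pf : Matrix ι ι ℚ) (V₀ : Matrix ι κ ℝ) (Lam₀ : Matrix κ κ ℝ) (r : ℝ) (a b : κ) :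
    wy_LamStar C (r • V₀) (r ^ 2 • Lam₀) Pf a b = r ^ 2 * s8cEv (s5e_co2 C Pf) (s5e_Th2 V₀ Lam₀ a b) := by
  rw [s5e_lamStar_eq, Matrix.add_apply, Matrix.smul_apply, Matrix.mul_apply]
  unfold s8cEv
  rw [Fintype.sum_option, Fintype.sum_prod_type, Finset.sum_comm]
  simp only [s5e_co2, s5e_Th2, Matrix.mul_apply, Matrix.transpose_apply, Matrix.smul_apply, smul_eq_mul, wy_R_apply,
    Rat.cast_one, one_mul, mul_add, Finset.mul_sum, Finset.sum_mul]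
  congr 1
  exact Finset.sum_congr rfl fun j _ => Finset.sum_congr rfl fun i _ => by ring

/-- the slow part -/
theorem s5e_slow_eq (Pf : Matrix ι ι ℚ) (V : Matrix ι κ ℝ) (z : κ → ℝ) (i : ι) :
    s4a_mv (1 - Pf) (V *ᵥ z) i = ∑ a, (V - wy_R Pf * V) i a * z a := by
  rw [← s5e_mv_eq, wy_R_sub, wy_R_one, Matrix.mulVec_mulVec, Matrix.sub_mul, Matrix.one_mul]
  rfl

theorem s5e_splits_s4a {H : ℝ} {C Pf : Matrix ι ι ℚ} {V : Matrix ι κ ℝ} {Lam : Matrix κ κ ℝ} (h : wy_Splits H C V Lam Pf) :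
    s4a_IsProj Pf ∧ s4a_Iso C Pf ∧ s4a_HtLe Pf H :=
  ⟨⟨h.symm, h.idem⟩, h.iso, h.height⟩

omit [DecidableEq ι] in
/-- the linear frequency of the term `ℓ`, as a vector -/
theorem s5e_freq_dot (V : Matrix ι κ ℝ) (b : κ → ℝ) (ℓ : ι → ℤ) (R : ℕ) (z : κ → ℝ) :
    b ⬝ᵥ z + (∑ i, (ℓ i : ℝ) * (V *ᵥ z) i) / R = (fun k => b k + (∑ i, (ℓ i : ℝ) * V i k) / R) ⬝ᵥ z := by
  simp only [dotProduct, Matrix.mulVec, add_mul, Finset.sum_add_distrib, Finset.mul_sum]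
  congr 1
  rw [Finset.sum_comm, Finset.sum_div]
  refine Finset.sum_congr rfl fun k _ => ?_
  rw [div_mul_eq_mul_div, Finset.sum_mul]
  congr 1
  exact Finset.sum_congr rfl fun i _ => by ring

omit [DecidableEq ι] in
/-- its coordinates at the scale `r` are `r` times evaluations of a rational vector at a fixed real vector -/
theorem s5e_freq_entry (V₀ : Matrix ι κ ℝ) (b₀ : κ → ℝ) (r : ℝ) (ℓ : ι → ℤ) (R : ℕ) (k : κ) :
    (r • b₀) k + (∑ i, (ℓ i : ℝ) * (r • V₀) i k) / R = r * s8cEv (s5e_co1 ℓ R) (s5e_Th1 V₀ b₀ k) := by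
  unfold s8cEv
  rw [Fintype.sum_option]
  simp only [s5e_co1, s5e_Th1, Matrix.smul_apply, Pi.smul_apply, smul_eq_mul, Rat.cast_one, one_mul, mul_add,
    Finset.mul_sum, Finset.sum_div]
  congr 1
  refine Finset.sum_congr rfl fun i _ => ?_
  push_cast
  ring

end

/-! ### monotonicity -/

theorem s5e_std_mono {ι κ : Type} [Fintype ι] [Fintype κ] {X X' : ℝ} {C : Matrix ι ι ℚ} (h : wy_Std X C κ) (hX : X ≤ X') :
    wy_Std X' C κ := by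
  have h1 : Real.log X ≤ Real.log X' := Real.log_le_log (by linarith [h.one_le]) hX
  exact ⟨h.one_le.trans hX, by linarith [h.dim], by linarith [h.dim'], fun i j => (h.height i j).trans hX⟩

theorem s5e_amp_mono {n : Type} [Fintype n] {X X' : ℝ} {f : (n → ℝ) → ℂ} (h : wy_Amp X f) (hX : X ≤ X') : wy_Amp X' f :=
  ⟨fun x hx i => (h.supp x hx i).trans hX, fun x => (h.bdd x).trans hX,
    fun x y => (h.lip x y).trans (mul_le_mul_of_nonneg_right hX (norm_nonneg _))⟩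

theorem s5e_htLe_mono {ι' : Type} {B B' : ℕ} {q : ι' → ℚ} (h : s8cHtLe B q) (hB : B ≤ B') : s8cHtLe B' q :=
  fun i => (h i).trans hB

theorem s5e_mid_mono {ι' : Type} [Fintype ι'] {Θ : ι' → ℝ} {Z Z' ρ : ℝ} (h : s5e_Mid Θ Z ρ) (hZ0 : 0 < Z) (hZ : Z ≤ Z') :
    s5e_Mid Θ Z' ρ := by
  obtain ⟨q, h1, h2, h3⟩ := h
  exact ⟨q, s5e_htLe_mono h1 (Nat.ceil_mono hZ), (one_div_le_one_div_of_le hZ0 hZ).trans h2, h3.trans hZ⟩

end Claimed.Agent.R258
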