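/-
Row 258, block [S5e] (architect helper22).  FILE EChart: SIX ATOMS = ONE MULTIVARIABLE CHART (Lemma 4.2 in the form used by Lemma 5.7).   No paper needed.
DONE from helper78's S4a/Ops.lean: `s5e_recenter` (= `s4a_translate`), `s5e_conj_chart` (= `s4a_conj`).
LEAVES: `s5e_one_chart`, `s5e_br_prod` (n-ary direct sum of bracket sums), `s5e_phase_prod`, `s5e_prod_std`, `s5e_prod_amp`.
GLUE (proved here): `s5e_prod_eval`, `s5e_six`.

PLANS.
* `s5e_recenter`.  `d = a.d`, `P` from `s4a_clear_den a.C H` (`P ≤ H^(d²)`), `m₀ i = ⌊a.th i * y₀ / P⌋`, `a₀ i = a.th i * y₀ - P m₀ i ∈ [0,P)`.   New chart: same `d, th, C, lam`;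
    `bet' = a.bet + 2 a.lam y₀ + s4a_bil C th a₀ + s4a_bil C (P m₀) th`,  `chi' w = a.chi (w + a₀) * ee (s4a_bil C a₀ (w + a₀))`,  `unit' = a.unit * ee (a.lam y₀² + a.bet y₀ + s4a_bil C (P m₀) a₀)`.
  Identity: `s4a_eval_eq`, `a.th i * (y₀ + y) = a.th i * y + (P m₀ i + a₀ i)`, `s4a_br_offset` with `u = th y`, `s4a_bil_smul_left/right`, `s4a_ee_add`.
  Complexity through `s4a_cplx_iff`: support `|w i| ≤ H + P`; `a.chi (· + a₀)`: `s4a_Gev.comp_affine` (`L = id`, `M = 1`); `ee (s4a_bil C a₀ (w + a₀)) = ee (s4a_dot σ w + const)`, `σ j = ∑ i, a₀ i C i j`, `∑ |σ j| ≤ d² P H`: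
  `s4a_gev_ee_lin`; product `s4a_Gev.mul`: `A = H^10 + 2π d² P H`, `B = H^10`.   All of `H + P`, `A`, `B` are `≤ wy_qp c H` (`d ≤ log H`, `H^(d²) = exp (d² log H) ≤ exp ((1+log H)³)`; calculus in Weyl/Qp.lean).
* `s5e_conj_chart`: `C ↦ -C`, `lam, bet ↦ -lam, -bet`, `chi ↦ conj ∘ chi`, `unit ↦ conj unit`: `s4a_br_conj`, `s4a_ee_conj`, `map_mul`; `s4a_height_neg`, `s4a_Gev.conj`, `s4a_cplx_iff`.
* `s5e_one_chart`: `d = 0`, `chi = 1`, `unit = 1`, `lam = bet = 0`: the `tsum` is over the one-point type `Fin 0 → ℤ` (`tsum_fintype`/`Unique`); `iteratedFDeriv` of a constant (`iteratedFDeriv_const_of_ne`, order `0`: norm `1`).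
* `s5e_br_prod`: every `s4a_br` is a FINITE sum: with `box p = Fintype.piFinset fun i => Finset.Icc ⌈u p i - K⌉ ⌊u p i + K⌋`, `tsum_eq_sum` (terms vanish off the box by `hs`).  `Finset.prod_univ_sum` turns `∏_p ∑_{n_p ∈ box p}` into
  `∑_{n ∈ Fintype.piFinset box} ∏_p`; transport along `(Equiv.piCurry _).symm`/`Equiv.sigma...` : `(∀ p, Fin (d p) → ℤ) ≃ ((Σ p, Fin (d p)) → ℤ)`; `s4a_bil (blockDiagonal' C) U W = ∑_p s4a_bil (C p) (U p) (W p)` (`Fintype.sum_sigma`,
  `Matrix.blockDiagonal'_apply`, the off-diagonal blocks vanish: `Finset.sum_eq_single`), `ee` of a finite sum = product (`s4a_ee_add`, induction / `Finset.prod`), `Finset.prod_mul_distrib`.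
* `s5e_phase_prod`: `ee` of a finite sum; `∑_p lam_p (L_p·z)² = z·(Λ₀ z)`, `∑_p bet_p (L_p·z) = b₀·z`: unfold `dotProduct`, `mulVec`, `Finset.sum_comm`, `Finset.mul_sum`, `sq`.
* `s5e_prod_std`: `Fintype.card_sigma`, `Fintype.card_fin`, `∑_p d_p ≤ card P * log H = log (H^card P) ≤ log X`; heights: `Matrix.blockDiagonal'_apply`, `dite`: entry of `(a p).C` or `0` (`s4a_height_zero`).
* `s5e_prod_amp`: the factor `x ↦ (a p).chi (fun i => x ⟨p,i⟩)` is `chi ∘ L_p`, `L_p` a continuous linear map of norm `≤ 1` (`ContinuousLinearMap.pi fun i => ContinuousLinearMap.proj ⟨p,i⟩`, `ContinuousLinearMap.opNorm_le_bound`, `pi_norm_le_iff_of_nonneg`, `norm_le_pi_norm`):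
  `s4a_Gev.comp_affine`; product over `Finset.univ` by `Finset.induction_on` with `s4a_Gev.mul` (state the induction for `∏ p ∈ s`, constants `s.card * H^10`, `H^(10 * s.card)`).
-/
import Claimed.Agent.R258.S5.EAdapt
import Claimed.Agent.R258.S4a.Br
import Claimed.Agent.R258.S4a.Ops
import Claimed.Agent.R258.Pack004
import Claimed.Agent.R258.S4b.Atomize

set_option autoImplicit false
open MeasureTheory Matrix
open scoped ComplexConjugate

namespace Claimed.Agent.R258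

/-- **translation of a chart** (Lemma 4.2) -/
theorem s5e_recenter : ∃ c : ℕ, ∀ (a : Chart) (H y₀ : ℝ), a.Cplx H →
    ∃ a' : Chart, a'.Cplx (wy_qp c H) ∧ ∀ y, a'.eval y = a.eval (y₀ + y) := by
  obtain ⟨C, hC⟩ := s4a_translate
  refine ⟨C, fun a H y₀ h => ?_⟩
  obtain ⟨bet', chi', unit', h1, h2⟩ := hC a H y₀ h
  exact ⟨_, h1, fun y => by rw [h2 y, add_comm]⟩

theorem s5e_conj_chart (a : Chart) (H : ℝ) (h : a.Cplx H) : ∃ a' : Chart, a'.Cplx H ∧ ∀ y, a'.eval y = conj (a.eval y) :=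
  ⟨s4a_conj a, s4a_conj_cplx h, s4a_conj_eval a⟩

theorem s5e_one_chart (H : ℝ) (hH : Real.exp 2 ≤ H) : ∃ a : Chart, a.Cplx H ∧ ∀ y, a.eval y = 1 := by
  have hH1 : 1 ≤ H := le_trans (Real.one_le_exp (by norm_num)) hH
  refine ⟨{ d := 0, th := fun _ => 0, C := 0, lam := 0, bet := 0, chi := fun _ => 1, unit := 1 }, ?_, ?_⟩
  · refine ⟨hH, ?_, fun i => i.elim0, contDiff_const, fun x _ i => i.elim0, ?_, norm_one⟩
    · simp only [Nat.cast_zero]
      exact Real.log_nonneg hH1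
    · intro n x
      have hR : 1 ≤ H ^ (cGev * ((n : ℝ) + 1)) * ((n : ℝ) + 1) ^ (cGev * ((n : ℝ) + 1)) := by
        have hn : (0 : ℝ) ≤ n := Nat.cast_nonneg n
        have he : 0 ≤ cGev * ((n : ℝ) + 1) := by unfold cGev; positivity
        exact one_le_mul_of_one_le_of_one_le (Real.one_le_rpow hH1 he) (Real.one_le_rpow (by linarith) he)
      rcases Nat.eq_zero_or_pos n with rfl | hn
      · rw [norm_iteratedFDeriv_zero, norm_one]
        exact hR
      · rw [iteratedFDeriv_const_of_ne hn.ne']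
        simp only [Pi.zero_apply, norm_zero]
        linarith
  · intro y
    simp [Chart.eval, Chart.phase, s4a_ee_zero, tsum_fintype]

/-- `e` of a finite sum -/
theorem s5e_ee_sum {P : Type*} (s : Finset P) (f : P → ℝ) : ee (∑ p ∈ s, f p) = ∏ p ∈ s, ee (f p) := by
  classical
  induction s using Finset.induction_on with
  | empty => simp [s4a_ee_zero]
  | insert p s hp ih => rw [Finset.sum_insert hp, Finset.prod_insert hp, s4a_ee_add, ih]

section
variable {P κ : Type} [Fintype P] [DecidableEq P] [Fintype κ]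

/-- n-ary direct sum of bracket sums -/
theorem s5e_br_prod (d : P → ℕ) (C : ∀ p, Matrix (Fin (d p)) (Fin (d p)) ℚ) (chi : ∀ p, (Fin (d p) → ℝ) → ℂ) (K : ℝ)
    (hs : ∀ p x, chi p x ≠ 0 → ∀ i, |x i| ≤ K) (u : ∀ p, Fin (d p) → ℝ) :
    ∏ p, s4a_br (C p) (chi p) (u p) =
      s4a_br (Matrix.blockDiagonal' C) (fun x : (Σ p, Fin (d p)) → ℝ => ∏ p, chi p fun i => x ⟨p, i⟩) (fun x => u x.1 x.2) := by
  classical
  -- the terms
  obtain ⟨T, hT⟩ : ∃ T : ∀ p, (Fin (d p) → ℤ) → ℂ, T = fun p n =>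
      chi p (fun i => u p i - (n i : ℝ)) * ee (s4a_bil (C p) (u p) fun i => u p i - (n i : ℝ)) := ⟨_, rfl⟩
  obtain ⟨box, hbox⟩ : ∃ box : ∀ p, Finset (Fin (d p) → ℤ), box = fun p =>
      Fintype.piFinset fun i => Finset.Icc ⌈u p i - K⌉ ⌊u p i + K⌋ := ⟨_, rfl⟩
  have hT0 : ∀ p n, n ∉ box p → T p n = 0 := by
    intro p n hn
    by_contra hne
    apply hn
    rw [hbox, Fintype.mem_piFinset]
    intro i
    have h1 : chi p (fun i => u p i - (n i : ℝ)) ≠ 0 := by
      rw [hT] at hne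
      exact left_ne_zero_of_mul hne
    have h2 := abs_le.1 (hs p _ h1 i)
    rw [Finset.mem_Icc]
    exact ⟨Int.ceil_le.2 (by linarith [h2.2]), Int.le_floor.2 (by linarith [h2.1])⟩
  have hL : ∀ p, s4a_br (C p) (chi p) (u p) = ∑ n ∈ box p, T p n := by
    intro p
    unfold s4a_br
    rw [hT]
    exact tsum_eq_sum (fun n hn => by have := hT0 p n hn; rw [hT] at this; exact this)
  -- the block diagonal form
  have hbil : ∀ U W : (Σ p, Fin (d p)) → ℝ, s4a_bil (Matrix.blockDiagonal' C) U W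
      = ∑ p, s4a_bil (C p) (fun i => U ⟨p, i⟩) (fun i => W ⟨p, i⟩) := by
    intro U W
    unfold s4a_bil
    rw [Fintype.sum_sigma]
    refine Finset.sum_congr rfl fun p _ => Finset.sum_congr rfl fun i _ => ?_
    rw [Fintype.sum_sigma, Finset.sum_eq_single p]
    · exact Finset.sum_congr rfl fun j _ => by rw [Matrix.blockDiagonal'_apply_eq]
    · intro q _ hq
      refine Finset.sum_eq_zero fun j _ => ?_
      rw [Matrix.blockDiagonal'_apply_ne _ _ _ (Ne.symm hq)]
      simp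
    · intro hp
      exact absurd (Finset.mem_univ p) hp
  have hR : s4a_br (Matrix.blockDiagonal' C) (fun x : (Σ p, Fin (d p)) → ℝ => ∏ p, chi p fun i => x ⟨p, i⟩) (fun x => u x.1 x.2)
      = ∑' n : ∀ p, Fin (d p) → ℤ, ∏ p, T p (n p) := by
    unfold s4a_br
    rw [← (Equiv.piCurry (fun (p : P) (_ : Fin (d p)) => ℤ)).symm.tsum_eq]
    refine tsum_congr fun n => ?_
    rw [hbil, s5e_ee_sum, ← Finset.prod_mul_distrib, hT]
    rfl
  rw [hR, tsum_eq_sum (s := Fintype.piFinset box), ← Finset.prod_univ_sum]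
  · exact Finset.prod_congr rfl fun p _ => hL p
  · intro n hn
    rw [Fintype.mem_piFinset] at hn
    push Not at hn
    obtain ⟨p, hp⟩ := hn
    exact Finset.prod_eq_zero (Finset.mem_univ p) (hT0 p _ hp)

omit [DecidableEq P] in
/-- the ordinary phases -/
theorem s5e_phase_prod (a : P → Chart) (L : P → κ → ℝ) (z : κ → ℝ) :
    ∏ p, ee ((a p).lam * (L p ⬝ᵥ z) ^ 2 + (a p).bet * (L p ⬝ᵥ z)) = ee (z ⬝ᵥ (s5e_pLam a L *ᵥ z) + s5e_pb a L ⬝ᵥ z) := by
  rw [← s5e_ee_sum, Finset.sum_add_distrib]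
  congr 2
  · simp only [dotProduct, Matrix.mulVec, s5e_pLam, Finset.mul_sum, Finset.sum_mul, sq]
    rw [Finset.sum_comm]
    refine Finset.sum_congr rfl fun k _ => ?_
    rw [Finset.sum_comm]
    refine Finset.sum_congr rfl fun k' _ => Finset.sum_congr rfl fun p _ => ?_
    ring
  · simp only [dotProduct, s5e_pb, Finset.mul_sum, Finset.sum_mul]
    rw [Finset.sum_comm]
    exact Finset.sum_congr rfl fun k _ => Finset.sum_congr rfl fun p _ => by ring

omit [Fintype P] [DecidableEq P] in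
theorem s5e_pV_mulVec (a : P → Chart) (L : P → κ → ℝ) (z : κ → ℝ) (x : s5e_pI a) :
    (s5e_pV a L *ᵥ z) x = (a x.1).th x.2 * (L x.1 ⬝ᵥ z) := by
  unfold s5e_pV mulVec dotProduct
  rw [Finset.mul_sum]
  exact Finset.sum_congr rfl fun k _ => by ring

/-- **a product of charts along linear forms is one multivariable chart** -/
theorem s5e_prod_eval (a : P → Chart) (L : P → κ → ℝ) (H : ℝ) (h : ∀ p, (a p).Cplx H) (z : κ → ℝ) :
    ∏ p, (a p).eval (L p ⬝ᵥ z) =
      (∏ p, (a p).unit) * wy_Q (s5e_pC a) (s5e_pV a L) (s5e_pLam a L) (s5e_pb a L) (s5e_pchi a) z := by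
  rw [s5e_wyQ_eq, ← s5e_phase_prod]
  have h1 := s5e_br_prod (fun p => (a p).d) (fun p => (a p).C) (fun p => (a p).chi) H (fun p x hx => (h p).supp x hx)
    (fun p i => (a p).th i * (L p ⬝ᵥ z))
  have h2 : (s5e_pV a L *ᵥ z) = fun x : s5e_pI a => (a x.1).th x.2 * (L x.1 ⬝ᵥ z) :=
    funext fun x => s5e_pV_mulVec a L z x
  rw [h2]
  unfold s5e_pC s5e_pchi
  rw [← h1, ← Finset.prod_mul_distrib, ← Finset.prod_mul_distrib]
  exact Finset.prod_congr rfl fun p _ => by rw [s4a_eval_eq (a p) _, mul_assoc]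

omit [DecidableEq P] [Fintype κ] in
theorem s5e_pLam_symm (a : P → Chart) (L : P → κ → ℝ) : (s5e_pLam a L)ᵀ = s5e_pLam a L := by
  ext k k'
  rw [Matrix.transpose_apply]
  unfold s5e_pLam
  exact Finset.sum_congr rfl fun p _ => by ring

theorem s5e_prod_std (a : P → Chart) (H X : ℝ) (h : ∀ p, (a p).Cplx H) (hH : 1 ≤ H) (hX : H ^ Fintype.card P ≤ X)
    (hHX : H ≤ X) (hκ : (Fintype.card κ : ℝ) ≤ 1 + Real.log X) : wy_Std X (s5e_pC a) κ := by
  have hH0 : 0 < H := by linarith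
  refine ⟨hH.trans hHX, ?_, hκ, ?_⟩
  · have h1 : (Fintype.card (s5e_pI a) : ℝ) = ∑ p, ((a p).d : ℝ) := by
      rw [Fintype.card_sigma]
      simp
    have h2 : ∑ p, ((a p).d : ℝ) ≤ ∑ _p : P, Real.log H := Finset.sum_le_sum fun p _ => (h p).dim
    have h3 : ∑ _p : P, Real.log H = Real.log (H ^ Fintype.card P) := by
      rw [Finset.sum_const, Finset.card_univ, nsmul_eq_mul, Real.log_pow]
    have h4 : Real.log (H ^ Fintype.card P) ≤ Real.log X := Real.log_le_log (by positivity) hX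
    rw [h1]
    linarith
  · rintro ⟨p, i⟩ ⟨q, j⟩
    unfold s5e_pC
    by_cases hpq : p = q
    · subst hpq
      rw [Matrix.blockDiagonal'_apply_eq]
      exact ((h p).height i j).trans hHX
    · rw [Matrix.blockDiagonal'_apply_ne _ _ _ hpq, s4a_height_zero]
      simp only [Nat.cast_one]
      exact hH.trans hHX

omit [DecidableEq P] in
theorem s5e_prod_amp (a : P → Chart) (H : ℝ) (h : ∀ p, (a p).Cplx H) :
    s4a_Amp H ((Fintype.card P : ℝ) * H ^ 10) (H ^ (10 * Fintype.card P)) (s5e_pchi a) := by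
  classical
  by_cases hP : IsEmpty P
  · -- the empty product
    refine ⟨⟨?_, ?_⟩, ?_⟩
    · unfold s5e_pchi
      simp only [Finset.univ_eq_empty, Finset.prod_empty]
      exact contDiff_const
    · intro m x _
      have e : s5e_pchi a = fun _ => 1 := by
        funext x
        unfold s5e_pchi
        simp
      rw [e]
      simp only [Fintype.card_eq_zero, Nat.cast_zero, zero_mul, mul_zero, pow_zero, one_mul]
      rcases Nat.eq_zero_or_pos m with rfl | hm
      · rw [norm_iteratedFDeriv_zero, norm_one, pow_zero, one_mul]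
        exact s4a_one_le_w 0
      · rw [iteratedFDeriv_const_of_ne hm.ne']
        simp only [Pi.zero_apply, norm_zero]
        rw [zero_pow hm.ne', zero_mul]
    · intro x _ i
      exact (hP.false i.1).elim
  rw [not_isEmpty_iff] at hP
  obtain ⟨p₀⟩ := hP
  have hH1 : 1 ≤ H := le_trans (Real.one_le_exp (by norm_num)) (h p₀).H_ge
  have hH0 : 0 ≤ H := by linarith
  have hfac : ∀ p, s4a_Gev (Set.univ : Set (s5e_pI a → ℝ)) (H ^ 10) (H ^ 10) (fun x => (a p).chi fun i => x ⟨p, i⟩) := by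
    intro p
    have hamp := ((s4a_cplx_iff (a p) H).1 (h p)).2.2.2.1
    obtain ⟨Lp, hLp⟩ : ∃ Lp : (s5e_pI a → ℝ) →L[ℝ] (Fin (a p).d → ℝ),
        Lp = ContinuousLinearMap.pi fun i => ContinuousLinearMap.proj (⟨p, i⟩ : s5e_pI a) := ⟨_, rfl⟩
    have hLx : ∀ x, Lp x = fun i => x ⟨p, i⟩ := by
      intro x; rw [hLp]; rfl
    have hnorm : ‖Lp‖ ≤ 1 := by
      refine ContinuousLinearMap.opNorm_le_bound _ (by norm_num) fun x => ?_
      rw [one_mul, hLx, pi_norm_le_iff_of_nonneg (norm_nonneg _)]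
      exact fun i => norm_le_pi_norm x _
    have := s4a_Gev.comp_affine (by positivity) (by positivity) hamp.gev Lp 0 1 hnorm
    simp only [Set.mem_univ, Set.ofPred_true, add_zero, mul_one, hLx] at this
    exact this
  have hind : ∀ s : Finset P, s4a_Gev (Set.univ : Set (s5e_pI a → ℝ)) ((s.card : ℝ) * H ^ 10) (H ^ (10 * s.card))
      (fun x => ∏ p ∈ s, (a p).chi fun i => x ⟨p, i⟩) := by
    intro s
    induction s using Finset.induction_on with
    | empty =>
      simp only [Finset.prod_empty, Finset.card_empty, Nat.cast_zero, zero_mul, mul_zero, pow_zero]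
      refine ⟨contDiff_const, fun m x _ => ?_⟩
      rcases Nat.eq_zero_or_pos m with rfl | hm
      · rw [norm_iteratedFDeriv_zero, norm_one, pow_zero, one_mul, one_mul]
        exact s4a_one_le_w 0
      · rw [iteratedFDeriv_const_of_ne hm.ne']
        simp only [Pi.zero_apply, norm_zero]
        rw [zero_pow hm.ne', mul_zero, zero_mul]
    | insert p s hp ih =>
      have := s4a_Gev.mul (by positivity) (by positivity) (by positivity) (by positivity) (hfac p) ih
      simp only [Finset.prod_insert hp, Finset.card_insert_of_notMem hp]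
      have e1 : ((s.card + 1 : ℕ) : ℝ) * H ^ 10 = H ^ 10 + (s.card : ℝ) * H ^ 10 := by push_cast; ring
      have e2 : H ^ (10 * (s.card + 1)) = H ^ 10 * H ^ (10 * s.card) := by rw [← pow_add]; congr 1; ring
      rw [e1, e2]
      exact this
  refine ⟨?_, ?_⟩
  · have := hind Finset.univ
    rw [Finset.card_univ] at this
    exact this
  · intro x hx i
    unfold s5e_pchi at hx
    have h1 := (Finset.prod_ne_zero_iff.1 hx) i.1 (Finset.mem_univ _)
    exact (h i.1).supp _ h1 i.2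

omit [DecidableEq P] in
theorem s5e_prod_unit (a : P → Chart) (H : ℝ) (h : ∀ p, (a p).Cplx H) : ‖∏ p, (a p).unit‖ = 1 := by
  rw [norm_prod]
  exact Finset.prod_eq_one fun p _ => (h p).unit

end

/-- **the six atoms**, recentred at `y₀` -/
theorem s5e_six : ∃ c : ℕ, ∀ (l : Fin 4) (φ : Fin 4 → Chart) (D y₀ : ℝ), (∀ m, m ≠ l → (φ m).Cplx D) → Real.exp 2 ≤ D →
    ∃ a : Fin 4 × Bool → Chart, (∀ p, (a p).Cplx (wy_qp c D)) ∧
      ∀ z : Fin 3 → ℝ, s5e_Q6 l (fun m => (φ m).eval) y₀ z = ∏ p, (a p).eval (s5e_L6 l p ⬝ᵥ z) := by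
  obtain ⟨c, hc⟩ := s5e_recenter
  refine ⟨c + 1, ?_⟩
  intro l φ D y₀ hφ hD
  have hD1 : 1 ≤ D := le_trans (Real.one_le_exp (by norm_num)) hD
  obtain ⟨H, hH⟩ : ∃ H : ℝ, H = wy_qp (c + 1) D := ⟨_, rfl⟩
  have hDH : D ≤ H := by rw [hH]; exact wy_le_qp (by omega) hD1
  have hcH : wy_qp c D ≤ H := by rw [hH]; exact wy_qp_mono (by omega) hD1
  -- the first copies
  have h1 : ∀ m : Fin 4, ∃ b : Chart, b.Cplx H ∧
      ∀ y, b.eval y = if m = l then 1 else (φ m).eval (y₀ + y) := by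
    intro m
    by_cases hm : m = l
    · obtain ⟨b, hb, hb'⟩ := s5e_one_chart H (hD.trans hDH)
      exact ⟨b, hb, fun y => by rw [hb' y, if_pos hm]⟩
    · obtain ⟨b, hb, hb'⟩ := hc (φ m) D y₀ (hφ m hm)
      exact ⟨b, s4b_cplx_mono hb hcH, fun y => by rw [hb' y, if_neg hm]⟩
  choose b hb hb' using h1
  have h2 : ∀ m : Fin 4, ∃ b₂ : Chart, b₂.Cplx H ∧ ∀ y, b₂.eval y = conj ((b m).eval y) :=
    fun m => s5e_conj_chart (b m) H (hb m)
  choose b₂ hb₂ hb₂' using h2
  refine ⟨fun p => if p.2 then b₂ p.1 else b p.1, ?_, ?_⟩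
  · rintro ⟨m, ε⟩
    rw [← hH]
    cases ε
    · simpa using hb m
    · simpa using hb₂ m
  · intro z
    rw [Fintype.prod_prod_type]
    unfold s5e_Q6
    refine Finset.prod_congr rfl fun m _ => ?_
    rw [Fintype.prod_bool]
    have e1 : s5e_L6 l (m, true) ⬝ᵥ z = z 0 + ((m : ℝ) - (l : ℝ)) * z 2 := by
      simp [s5e_L6, dotProduct, Fin.sum_univ_three]
    have e2 : s5e_L6 l (m, false) ⬝ᵥ z = z 0 + ((m : ℝ) - (l : ℝ)) * z 1 := by
      simp [s5e_L6, dotProduct, Fin.sum_univ_three]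
    simp only [e1, e2, if_true, Bool.false_eq_true, if_false]
    rw [hb₂', hb', hb']
    by_cases hm : m = l
    · simp [hm]
    · simp only [hm, if_false]
      ring

end Claimed.Agent.R258
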