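/-
Row 258, block [S5e] (architect helper22).  FILE EHt: heights of the rational coefficient vectors `s5e_co2`, `s5e_co1`, and the passage `s4a_Amp → wy_Amp`.   No paper.

PLANS.
* `s5e_height_of_clear`: `N x = z ∈ ℤ`, `N ≥ 1` ⟹ `x = z / N`, so `x.den ∣ N` (`Rat.den_dvd`, or `s8c_ht_div`-type argument) hence `x.den ≤ N`; `|x.num| = |x| x.den ≤ K N` (`Rat.num_div_den`, cast to `ℝ`).  `qHeight = max natAbs den`.
* `s5e_co2_height`: `s8cHt = qHeight` by `rfl`.  `none`: height of `1` is `1`.  `some (i,j)`: `s4a_clear_den` for `C` (`P_C ≤ X^(d²)`), `Pf` and `1 - Pf` (`P_f, P_s ≤ H^(d²)`); `N = 4 P_C P_f P_s` clears `M i j`: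
  `N M = P_f P_s (P_C C + P_C Cᵀ) + (P_f Pfᵀ)(P_C C - P_C Cᵀ)(P_s (1 - Pf)) + transpose`, entrywise sums of products of integers (`Matrix.mul_apply`, `Finset.mul_sum`; choose the integer entries with `choose`).
  `|M i j| ≤ X/2 + d² H² X` (`s4a_abs_le_height`: `|C i j| ≤ X`, `|Pf k i| ≤ H`, `|(1-Pf) k j| ≤ H`; `Finset.abs_sum_le_sum_abs`, `Finset.sum_le_card_nsmul`).   Then `s5e_height_of_clear` and `Nat.le_ceil`.
* `s5e_co1_height`: `s8c_ht_div`; `|ℓ i| ≤ ‖ℓ‖ < T` (`norm_le_pi_norm`, `Int.norm_eq_abs`), `Int.natAbs` vs. `|·|` (`Nat.cast_natAbs`), `Nat.le_ceil`, `Nat.cast_le`.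
* `s5e_amp_of_s4a`: `supp`, `bdd` (`s4a_Amp.norm_le`) directly; `lip`: `‖fderiv ℝ χ x‖ = ‖iteratedFDeriv ℝ 1 χ x‖ ≤ X * X^1 * s4a_w 1 = 2^20 X²` (`norm_iteratedFDeriv_one`-type lemma; `s4a_w 1 = 2^20` by `norm_num [s4a_w]`),
  `Convex.norm_image_sub_le_of_norm_fderiv_le` on `Set.univ` (`convex_univ`), differentiability from `ContDiff`.
-/
import Claimed.Agent.R258.Pack012
import Claimed.Agent.R258.S4a.Br

set_option autoImplicit false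
open MeasureTheory Matrix

namespace Claimed.Agent.R258

/-- a rational number with a multiple `N x ∈ ℤ` and `|x| ≤ K` has height `≤ N K` -/
theorem s5e_height_of_clear (x : ℚ) (N : ℕ) (K : ℝ) (hN : 1 ≤ N) (hK : 1 ≤ K) (hz : ∃ z : ℤ, (N : ℚ) * x = z)
    (hx : |(x : ℝ)| ≤ K) : (qHeight x : ℝ) ≤ N * K := by
  obtain ⟨z, hz⟩ := hz
  have hN0 : (0 : ℚ) < N := by exact_mod_cast hN
  have hx' : x = (z : ℚ) / (N : ℚ) := by rw [← hz]; field_simp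
  have h1 : s8cHt ((z : ℚ) / (N : ℚ)) ≤ max z.natAbs N := s8c_ht_div z N _ hN (le_max_left _ _) (le_max_right _ _)
  have h2 : (qHeight x : ℝ) ≤ ((max z.natAbs N : ℕ) : ℝ) := by
    rw [hx']
    exact_mod_cast h1
  refine h2.trans ?_
  rw [Nat.cast_max]
  have hNr : (0 : ℝ) ≤ N := Nat.cast_nonneg N
  refine max_le ?_ ?_
  · have h3 : ((z.natAbs : ℕ) : ℝ) = |(z : ℝ)| := by
      rw [Nat.cast_natAbs]; push_cast; rfl
    have hzr : (z : ℝ) = N * (x : ℝ) := by exact_mod_cast hz.symm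
    rw [h3, hzr, abs_mul, abs_of_nonneg hNr]
    exact mul_le_mul_of_nonneg_left hx hNr
  · exact le_mul_of_one_le_right hNr hK

/-- the height bound for the coefficient vector of `Λ_*` -/
noncomputable def s5e_B2 (d : ℕ) (X H : ℝ) : ℝ := 4 * X ^ (d ^ 2) * H ^ (2 * d ^ 2) * (X + (d : ℝ) ^ 2 * H ^ 2 * X)

theorem s5e_co2_height {ι : Type} [Fintype ι] [DecidableEq ι] (C Pf : Matrix ι ι ℚ) (X H : ℝ) (hX : 1 ≤ X) (hH : 1 ≤ H)
    (hC : s4a_HtLe C X) (hP : s4a_HtLe Pf H) (hP' : s4a_HtLe (1 - Pf) H) :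
    s8cHtLe ⌈s5e_B2 (Fintype.card ι) X H⌉₊ (s5e_co2 C Pf) := by
  obtain ⟨d, hd⟩ : ∃ d : ℕ, d = Fintype.card ι := ⟨_, rfl⟩
  rw [← hd]
  have hX0 : 0 ≤ X := by linarith
  have hH0 : 0 ≤ H := by linarith
  have hK1 : 1 ≤ X + (d : ℝ) ^ 2 * H ^ 2 * X := by
    have : 0 ≤ (d : ℝ) ^ 2 * H ^ 2 * X := by positivity
    linarith
  have hXd : 1 ≤ X ^ (d ^ 2) := one_le_pow₀ hX
  have hHd : 1 ≤ H ^ (2 * d ^ 2) := one_le_pow₀ hH
  have hB1 : 1 ≤ s5e_B2 d X H := by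
    unfold s5e_B2
    have h1 : 1 ≤ X ^ (d ^ 2) * H ^ (2 * d ^ 2) := one_le_mul_of_one_le_of_one_le hXd hHd
    have h2 : 1 ≤ X ^ (d ^ 2) * H ^ (2 * d ^ 2) * (X + (d : ℝ) ^ 2 * H ^ 2 * X) := one_le_mul_of_one_le_of_one_le h1 hK1
    nlinarith
  rintro (_ | ⟨i, j⟩)
  · show s8cHt 1 ≤ _
    have : s8cHt 1 = 1 := by simp [s8cHt]
    rw [this]
    exact Nat.one_le_ceil_iff.2 (by linarith)
  show s8cHt (s5e_M C Pf i j) ≤ _
  obtain ⟨Nm, hNm⟩ : ∃ Nm : Matrix ι ι ℚ, Nm = Pfᵀ * (C - Cᵀ) * (1 - Pf) := ⟨_, rfl⟩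
  have hMij : s5e_M C Pf i j = (1 / 4) * (C i j + C j i) + (1 / 4) * (Nm i j + Nm j i) := by
    unfold s5e_M
    rw [← hNm]
    simp only [Matrix.add_apply, Matrix.smul_apply, Matrix.transpose_apply, smul_eq_mul]
  have hNe : ∀ i j, Nm i j = ∑ k, ∑ m, Pf m i * (C m k - C k m) * (1 - Pf) k j := by
    intro i j
    rw [hNm, Matrix.mul_apply]
    refine Finset.sum_congr rfl fun k _ => ?_
    rw [Matrix.mul_apply, Finset.sum_mul]
    refine Finset.sum_congr rfl fun m _ => ?_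
    rw [Matrix.transpose_apply, Matrix.sub_apply, Matrix.transpose_apply]
  -- clearing denominators
  obtain ⟨PC, hPC1, hPCle, hPC⟩ := s4a_clear_den C X hC
  obtain ⟨Pa, hPa1, hPale, hPa⟩ := s4a_clear_den Pf H hP
  obtain ⟨Pb, hPb1, hPble, hPb⟩ := s4a_clear_den (1 - Pf) H hP'
  rw [← hd] at hPCle hPale hPble
  obtain ⟨Zq, hZq⟩ : ∃ Zq : Subring ℚ, Zq = (Int.castRingHom ℚ).range := ⟨_, rfl⟩
  have hmem : ∀ q : ℚ, (∃ z : ℤ, q = z) → q ∈ Zq := by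
    rintro q ⟨z, rfl⟩
    rw [hZq]
    exact ⟨z, rfl⟩
  have hnat : ∀ n : ℕ, (n : ℚ) ∈ Zq := fun n => hmem _ ⟨n, by simp⟩
  have hNint : ∀ i j, ((PC : ℚ) * Pa * Pb) * Nm i j ∈ Zq := by
    intro i j
    rw [hNe, Finset.mul_sum]
    refine Subring.sum_mem _ fun k _ => ?_
    rw [Finset.mul_sum]
    refine Subring.sum_mem _ fun m _ => ?_
    have e : ((PC : ℚ) * Pa * Pb) * (Pf m i * (C m k - C k m) * (1 - Pf) k j)
        = ((Pa : ℚ) * Pf m i) * ((PC : ℚ) * C m k - (PC : ℚ) * C k m) * ((Pb : ℚ) * (1 - Pf) k j) := by ring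
    rw [e]
    exact Zq.mul_mem (Zq.mul_mem (hmem _ (hPa m i)) (Zq.sub_mem (hmem _ (hPC m k)) (hmem _ (hPC k m)))) (hmem _ (hPb k j))
  have hclear : ∃ z : ℤ, ((4 * PC * Pa * Pb : ℕ) : ℚ) * s5e_M C Pf i j = z := by
    have e : ((4 * PC * Pa * Pb : ℕ) : ℚ) * s5e_M C Pf i j
        = ((Pa : ℚ) * Pb) * ((PC : ℚ) * C i j + (PC : ℚ) * C j i) + (((PC : ℚ) * Pa * Pb) * Nm i j + ((PC : ℚ) * Pa * Pb) * Nm j i) := by
      rw [hMij]; push_cast; ring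
    have h1 : ((4 * PC * Pa * Pb : ℕ) : ℚ) * s5e_M C Pf i j ∈ Zq := by
      rw [e]
      exact Zq.add_mem (Zq.mul_mem (Zq.mul_mem (hnat _) (hnat _)) (Zq.add_mem (hmem _ (hPC i j)) (hmem _ (hPC j i))))
        (Zq.add_mem (hNint i j) (hNint j i))
    rw [hZq] at h1
    obtain ⟨z, hz⟩ := h1
    exact ⟨z, hz.symm⟩
  -- size
  have hCa : ∀ i j, |((C i j : ℚ) : ℝ)| ≤ X := fun i j => (s4a_abs_le_height _).trans (hC i j)
  have hPfa : ∀ i j, |((Pf i j : ℚ) : ℝ)| ≤ H := fun i j => (s4a_abs_le_height _).trans (hP i j)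
  have hPsa : ∀ i j, |(((1 - Pf) i j : ℚ) : ℝ)| ≤ H := fun i j => (s4a_abs_le_height _).trans (hP' i j)
  have hNa : ∀ i j, |((Nm i j : ℚ) : ℝ)| ≤ (d : ℝ) ^ 2 * (H * (2 * X) * H) := by
    intro i j
    rw [hNe]
    push_cast
    calc |∑ k, ∑ m, ((Pf m i : ℚ) : ℝ) * (((C m k : ℚ) : ℝ) - ((C k m : ℚ) : ℝ)) * (((1 - Pf) k j : ℚ) : ℝ)|
        ≤ ∑ k, |∑ m, ((Pf m i : ℚ) : ℝ) * (((C m k : ℚ) : ℝ) - ((C k m : ℚ) : ℝ)) * (((1 - Pf) k j : ℚ) : ℝ)| :=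
          Finset.abs_sum_le_sum_abs _ _
      _ ≤ ∑ _k : ι, ∑ _m : ι, H * (2 * X) * H := by
          refine Finset.sum_le_sum fun k _ => (Finset.abs_sum_le_sum_abs _ _).trans (Finset.sum_le_sum fun m _ => ?_)
          rw [abs_mul, abs_mul]
          have h1 : |((C m k : ℚ) : ℝ) - ((C k m : ℚ) : ℝ)| ≤ 2 * X :=
            (abs_sub _ _).trans (by linarith [hCa m k, hCa k m])
          exact mul_le_mul (mul_le_mul (hPfa m i) h1 (abs_nonneg _) hH0) (hPsa k j) (abs_nonneg _) (by positivity)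
      _ = (d : ℝ) ^ 2 * (H * (2 * X) * H) := by
          simp only [Finset.sum_const, Finset.card_univ, nsmul_eq_mul, ← hd]
          ring
  have hMa : |((s5e_M C Pf i j : ℚ) : ℝ)| ≤ X + (d : ℝ) ^ 2 * H ^ 2 * X := by
    rw [hMij]
    push_cast
    have a1 := hCa i j
    have a2 := hCa j i
    have a3 := hNa i j
    have a4 := hNa j i
    rw [abs_le] at a1 a2 a3 a4 ⊢
    constructor <;> nlinarith [a1.1, a1.2, a2.1, a2.2, a3.1, a3.2, a4.1, a4.2]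
  have hN1 : 1 ≤ 4 * PC * Pa * Pb := by
    have : 1 ≤ PC * Pa * Pb := Nat.one_le_iff_ne_zero.2 (by positivity)
    nlinarith
  have hfin := s5e_height_of_clear (s5e_M C Pf i j) (4 * PC * Pa * Pb) _ hN1 hK1 hclear hMa
  have hNle : ((4 * PC * Pa * Pb : ℕ) : ℝ) ≤ 4 * X ^ (d ^ 2) * H ^ (2 * d ^ 2) := by
    push_cast
    have h1 : (PC : ℝ) * Pa ≤ X ^ (d ^ 2) * H ^ (d ^ 2) := mul_le_mul hPCle hPale (by positivity) (by positivity)
    have h2 : (PC : ℝ) * Pa * Pb ≤ X ^ (d ^ 2) * H ^ (d ^ 2) * H ^ (d ^ 2) := mul_le_mul h1 hPble (by positivity) (by positivity)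
    have e : H ^ (2 * d ^ 2) = H ^ (d ^ 2) * H ^ (d ^ 2) := by rw [two_mul, pow_add]
    rw [e]
    nlinarith
  have hle : (qHeight (s5e_M C Pf i j) : ℝ) ≤ s5e_B2 d X H := by
    refine hfin.trans ?_
    unfold s5e_B2
    exact mul_le_mul_of_nonneg_right hNle (by linarith)
  have : ((s8cHt (s5e_M C Pf i j) : ℕ) : ℝ) ≤ ((⌈s5e_B2 d X H⌉₊ : ℕ) : ℝ) := hle.trans (Nat.le_ceil _)
  exact_mod_cast this

theorem s5e_co1_height {ι : Type} [Fintype ι] (ℓ : ι → ℤ) (R : ℕ) (T D : ℝ) (hR : 1 ≤ R) (hRD : (R : ℝ) ≤ D) (hℓ : ‖ℓ‖ < T) :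
    s8cHtLe ⌈T + D⌉₊ (s5e_co1 ℓ R) := by
  have hT : 0 < T := lt_of_le_of_lt (norm_nonneg _) hℓ
  have hD : 1 ≤ D := le_trans (by exact_mod_cast hR) hRD
  rintro (_ | i)
  · show s8cHt 1 ≤ _
    have : s8cHt 1 = 1 := by simp [s8cHt]
    rw [this]
    exact Nat.one_le_ceil_iff.2 (by linarith)
  · show s8cHt ((ℓ i : ℚ) / (R : ℚ)) ≤ _
    refine s8c_ht_div (ℓ i) R _ hR ?_ ?_
    · have h1 : (((ℓ i).natAbs : ℕ) : ℝ) = ‖ℓ i‖ := by
        rw [Int.norm_eq_abs, Nat.cast_natAbs]; push_cast; rfl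
      have h2 : (((ℓ i).natAbs : ℕ) : ℝ) ≤ ((⌈T + D⌉₊ : ℕ) : ℝ) := by
        rw [h1]
        exact ((norm_le_pi_norm ℓ i).trans hℓ.le).trans (le_trans (by linarith) (Nat.le_ceil _))
      exact_mod_cast h2
    · have h2 : (R : ℝ) ≤ ((⌈T + D⌉₊ : ℕ) : ℝ) := hRD.trans (le_trans (by linarith) (Nat.le_ceil _))
      exact_mod_cast h2

theorem s5e_amp_of_s4a {ι : Type} [Fintype ι] {X : ℝ} (hX : 1 ≤ X) {χ : (ι → ℝ) → ℂ} (h : s4a_Amp X X X χ) :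
    wy_Amp (2 ^ 20 * X ^ 2) χ := by
  have hXX : X ≤ 2 ^ 20 * X ^ 2 := by nlinarith
  refine ⟨fun x hx i => (h.supp x hx i).trans hXX, fun x => (h.norm_le x).trans hXX, ?_⟩
  have hb : ∀ x ∈ (Set.univ : Set (ι → ℝ)), ‖fderiv ℝ χ x‖ ≤ 2 ^ 20 * X ^ 2 := by
    intro x hx
    have := h.gev.bound 1 x hx
    rw [norm_iteratedFDeriv_one] at this
    have e : s4a_w 1 = 2 ^ 20 := by unfold s4a_w; norm_num
    rw [e] at this
    refine this.trans (le_of_eq ?_)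
    ring
  intro x y
  exact Convex.norm_image_sub_le_of_norm_fderiv_le
    (fun x _ => (h.gev.smooth.differentiable (by simp)).differentiableAt) hb convex_univ (Set.mem_univ y) (Set.mem_univ x)

end Claimed.Agent.R258
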