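/-
Row 258, block [S5e] (architect helper22).  FILE ENum: ALL NUMERICS of the block: quasipolynomial / polylogarithmic bookkeeping in ONE master parameter `X ≥ 1`, `L = 1 + log X ≥ 1`.
`wy_qp c X = exp (c L^c)`.   Mathlib only (+ three definitions).  No paper.

THE CALCULUS OF `wy_qp` IS ALREADY PROVED IN Weyl/Qp.lean (helper197): `wy_qp_mono`, `wy_qp_monoX`, `wy_exp_le_qp`, `wy_le_qp`, `wy_qp_mul`, `wy_qp_add`, `wy_qp_pow`, `wy_qp_comp`, `wy_cast_le_qp`, `wy_dim_le_qp`, `wy_pow_le_qp`,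
`wy_mul_le_qp`, `wy_add_le_qp`, `wy_log_qp`.   USE IT.
FURTHER TOOLBOX (prove what you need, prefix `s5e_qp_`): for `X ≥ 1`, `L = 1 + log X`:
 (Q1) `wy_qp` is monotone in `c` and in `X`;   (Q2) `X ≤ wy_qp 1 X`, `K ≤ wy_qp ⌈K⌉₊ X` for constants;   (Q3) `wy_qp c₁ X * wy_qp c₂ X ≤ wy_qp (c₁ + c₂) X`, `wy_qp c₁ X + wy_qp c₂ X ≤ wy_qp (c₁ + c₂ + 1) X`;
 (Q4) `(wy_qp c X)^m ≤ wy_qp (c + e) X` if `(m : ℝ) ≤ L^e`;    (Q5) `wy_qp c₁ (wy_qp c₂ X) ≤ wy_qp (c₁ (1 + c₂)^c₁ + c₁ c₂) X`   [`1 + c₂ L^c₂ ≤ (1 + c₂) L^c₂`];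
 (Q6) `a^d ≤ wy_qp ⌈a⌉₊ X` for `d ≤ L`, `a ≥ 1`  [`a^d ≤ exp (a L)`].
-/
import Claimed.Agent.R258.S5.EHt
import Claimed.Agent.R258.Pack004

set_option autoImplicit false

namespace Claimed.Agent.R258

theorem s5e_one_le_qp (c : ℕ) (X : ℝ) (hX : 1 ≤ X) : 1 ≤ wy_qp c X := by
  unfold wy_qp
  have := Real.log_nonneg hX
  exact Real.one_le_exp (by positivity)

/-! ### the calculus of quasipolynomially bounded functions of `(X, d)` -/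

/-- `f` is nonnegative and quasipolynomially bounded -/
def s5e_QP (f : ℝ → ℕ → ℝ) : Prop :=
  ∃ c : ℕ, ∀ (X : ℝ) (d : ℕ), 1 ≤ X → (d : ℝ) ≤ 1 + Real.log X → 0 ≤ f X d ∧ f X d ≤ wy_qp c X

theorem s5e_QP.const (K : ℝ) (hK : 0 ≤ K) : s5e_QP fun _ _ => K :=
  ⟨⌈K⌉₊, fun _ _ hX _ => ⟨hK, (Nat.le_ceil K).trans (wy_cast_le_qp _ hX)⟩⟩

theorem s5e_QP.id : s5e_QP fun X _ => X := ⟨1, fun X _ hX _ => ⟨by linarith, wy_le_qp le_rfl hX⟩⟩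

theorem s5e_QP.dim : s5e_QP fun _ d => (d : ℝ) := ⟨1, fun _ d hX hd => ⟨Nat.cast_nonneg d, wy_dim_le_qp hX hd⟩⟩

theorem s5e_QP.add {f g : ℝ → ℕ → ℝ} (hf : s5e_QP f) (hg : s5e_QP g) : s5e_QP fun X d => f X d + g X d := by
  obtain ⟨c, hc⟩ := hf
  obtain ⟨c', hc'⟩ := hg
  exact ⟨c + c' + 2, fun X d hX hd => ⟨add_nonneg (hc X d hX hd).1 (hc' X d hX hd).1,
    wy_add_le_qp hX (hc X d hX hd).2 (hc' X d hX hd).2⟩⟩

theorem s5e_QP.mul {f g : ℝ → ℕ → ℝ} (hf : s5e_QP f) (hg : s5e_QP g) : s5e_QP fun X d => f X d * g X d := by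
  obtain ⟨c, hc⟩ := hf
  obtain ⟨c', hc'⟩ := hg
  exact ⟨c + c', fun X d hX hd => ⟨mul_nonneg (hc X d hX hd).1 (hc' X d hX hd).1,
    wy_mul_le_qp hX (hc X d hX hd).1 (hc X d hX hd).2 (hc' X d hX hd).2⟩⟩

theorem s5e_QP.pow {f : ℝ → ℕ → ℝ} (hf : s5e_QP f) (n : ℕ) : s5e_QP fun X d => f X d ^ n := by
  induction n with
  | zero => simpa using s5e_QP.const 1 zero_le_one
  | succ n ih => simpa only [pow_succ] using ih.mul hf

theorem s5e_QP.powd {f : ℝ → ℕ → ℝ} (hf : s5e_QP f) : s5e_QP fun X d => f X d ^ d := by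
  obtain ⟨c, hc⟩ := hf
  exact ⟨c + 1, fun X d hX hd => ⟨pow_nonneg (hc X d hX hd).1 _, wy_pow_le_qp hX (hc X d hX hd).1 (hc X d hX hd).2 hd⟩⟩

theorem s5e_QP.comp {f : ℝ → ℕ → ℝ} (hf : s5e_QP f) (c' : ℕ)
    (h1 : ∀ (X : ℝ) (d : ℕ), 1 ≤ X → (d : ℝ) ≤ 1 + Real.log X → 1 ≤ f X d) : s5e_QP fun X d => wy_qp c' (f X d) := by
  obtain ⟨c, hc⟩ := hf
  exact ⟨c' * (c + 1) ^ c' + c * c', fun X d hX hd => ⟨(wy_qp_pos _ _).le,
    (wy_qp_monoX c' (h1 X d hX hd) (hc X d hX hd).2).trans (wy_qp_comp c c' hX)⟩⟩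

/-- the explicit level -/
noncomputable def s5e_Z0 (d : ℕ) (X H D : ℝ) : ℝ :=
  H + 1000 * X ^ 7 * (4 ^ d * D) + (25 * X ^ 5 * (4 ^ d * D) + D) + s5e_B2 d X H + 1

/-- numerics of the level.  With `L = 1 + log X ≥ 1`, `d ≤ L`: `log X₁ = 20 log 2 + 2 log X ≤ 14 + 2L`, `log H = cW (1 + log X₁)^cW`, `log X₂ = log 3 + log H + log X`,
`log D = cE (1 + log X₂)^cE`; each of the five summands of `s5e_Z0` has a logarithm which is a polynomial in `L` (`4^d ≤ e^{2L}`, `X^(d²) ≤ e^{L³}`, `H^(2d²) = e^{2 d² log H}`, `d² ≤ e^{2L}`);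
a sum of five terms `≤ e^{p(L)}` is `≤ e^{p(L) + 2}`; finally `p(L) + 2 ≤ c L^c`. -/
theorem s5e_Z0_num (cW cE : ℕ) : ∃ c : ℕ, ∀ (X : ℝ) (d : ℕ), 1 ≤ X → (d : ℝ) ≤ 1 + Real.log X →
    s5e_Z0 d X (wy_qp cW (2 ^ 20 * X ^ 2)) (wy_qp cE (3 * wy_qp cW (2 ^ 20 * X ^ 2) * X)) ≤ wy_qp c X := by
  have hX : s5e_QP fun X _ => X := s5e_QP.id
  have hA1 : ∀ X : ℝ, 1 ≤ X → 1 ≤ 2 ^ 20 * X ^ 2 := fun X h1 => by nlinarith
  have hH : s5e_QP fun X _ => wy_qp cW (2 ^ 20 * X ^ 2) :=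
    s5e_QP.comp (f := fun X _ => 2 ^ 20 * X ^ 2) ((s5e_QP.const (2 ^ 20) (by norm_num)).mul (hX.pow 2)) cW
      (fun X _ h1 _ => hA1 X h1)
  have hD : s5e_QP fun X _ => wy_qp cE (3 * wy_qp cW (2 ^ 20 * X ^ 2) * X) :=
    s5e_QP.comp (f := fun X _ => 3 * wy_qp cW (2 ^ 20 * X ^ 2) * X) (((s5e_QP.const 3 (by norm_num)).mul hH).mul hX) cE
      (fun X _ h1 _ => by
        have := wy_one_le_qp cW (hA1 X h1)
        nlinarith)
  have h4 : s5e_QP fun _ d => (4 : ℝ) ^ d := (s5e_QP.const 4 (by norm_num)).powd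
  have h4D := h4.mul hD
  have t1 := ((s5e_QP.const 1000 (by norm_num)).mul (hX.pow 7)).mul h4D
  have t2 := (((s5e_QP.const 25 (by norm_num)).mul (hX.pow 5)).mul h4D).add hD
  have t3 := (((s5e_QP.const 4 (by norm_num)).mul hX.powd.powd).mul (hH.pow 2).powd.powd).mul
    (hX.add (((s5e_QP.dim.pow 2).mul (hH.pow 2)).mul hX))
  obtain ⟨c, hc⟩ := (((hH.add t1).add t2).add t3).add (s5e_QP.const 1 zero_le_one)
  refine ⟨c, fun X d h1 hd => ?_⟩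
  refine le_trans (le_of_eq ?_) (hc X d h1 hd).2
  unfold s5e_Z0 s5e_B2
  have e1 : X ^ (d ^ 2) = (X ^ d) ^ d := by rw [sq, pow_mul]
  have e2 : ∀ H : ℝ, H ^ (2 * d ^ 2) = ((H ^ 2) ^ d) ^ d := fun H => by rw [sq, pow_mul, pow_mul]
  rw [e1, e2]

/-- the bound of the scale count -/
noncomputable def s5e_N (d' : ℕ) (Z : ℝ) : ℝ :=
  (d' : ℝ) * (Real.logb 2 ((d' : ℝ) * (s8cCr d' ⌈Z⌉₊ : ℝ) + 1) + 2 * Real.logb 2 Z + 1)

/-- general power -/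
theorem s5e_qp_pow_gen (c n K e : ℕ) {X : ℝ} (hX : 1 ≤ X) (hn : (n : ℝ) ≤ K * (1 + Real.log X) ^ e) :
    wy_qp c X ^ n ≤ wy_qp (K * c + c + e) X := by
  unfold wy_qp
  rw [← Real.exp_nat_mul]
  apply Real.exp_le_exp.2
  have hL := wy_L_one_le hX
  calc (n : ℝ) * ((c : ℝ) * (1 + Real.log X) ^ c) ≤ ((K : ℝ) * (1 + Real.log X) ^ e) * ((c : ℝ) * (1 + Real.log X) ^ c) :=
        mul_le_mul_of_nonneg_right hn (by positivity)
    _ = ((K : ℝ) * c) * (1 + Real.log X) ^ (c + e) := by rw [pow_add]; ring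
    _ ≤ ((K * c + c + e : ℕ) : ℝ) * (1 + Real.log X) ^ (K * c + c + e) := by
        refine mul_le_mul ?_ (pow_le_pow_right₀ hL (by omega)) (by positivity) (by positivity)
        push_cast
        have h1 : (0 : ℝ) ≤ c := Nat.cast_nonneg c
        have h2 : (0 : ℝ) ≤ e := Nat.cast_nonneg e
        linarith

/-- the scale count is polylogarithmic -/
theorem s5e_N_bound (c₁ : ℕ) : ∃ K m : ℕ, ∀ (X : ℝ) (d' : ℕ), 1 ≤ X → (d' : ℝ) ≤ 2 * (1 + Real.log X) ^ 2 →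
    s5e_N d' (wy_qp c₁ X) ≤ K * (1 + Real.log X) ^ m := by
  obtain ⟨c₃, hc₃⟩ : ∃ c₃ : ℕ, c₃ = 10 + 2 + (2 + c₁) := ⟨_, rfl⟩
  obtain ⟨c₄, hc₄⟩ : ∃ c₄ : ℕ, c₄ = 1600 * c₃ + c₃ + 8 := ⟨_, rfl⟩
  obtain ⟨c₅, hc₅⟩ : ∃ c₅ : ℕ, c₅ = 2 + c₄ + 0 + 2 := ⟨_, rfl⟩
  refine ⟨2 * (2 * c₅ + 4 * c₁ + 1), 2 + c₅ + c₁, ?_⟩
  intro X d' hX hd'
  obtain ⟨L, hL⟩ : ∃ L : ℝ, L = 1 + Real.log X := ⟨_, rfl⟩
  rw [← hL] at hd' ⊢
  have hL1 : 1 ≤ L := by rw [hL]; exact wy_L_one_le hX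
  obtain ⟨Z, hZ⟩ : ∃ Z : ℝ, Z = wy_qp c₁ X := ⟨_, rfl⟩
  rw [← hZ]
  have hZ1 : 1 ≤ Z := by rw [hZ]; exact wy_one_le_qp _ hX
  have hceil : ((⌈Z⌉₊ : ℕ) : ℝ) ≤ wy_qp (2 + c₁) X := by
    have h1 : ((⌈Z⌉₊ : ℕ) : ℝ) ≤ Z + 1 := (Nat.ceil_lt_add_one (by linarith)).le
    have h3 : (2 : ℝ) * Z ≤ wy_qp (2 + c₁) X :=
      wy_mul_le_qp hX (by norm_num) (by exact_mod_cast wy_cast_le_qp 2 hX) (le_of_eq hZ)
    linarith
  have hdq : (d' : ℝ) ≤ wy_qp 2 X := by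
    calc (d' : ℝ) ≤ 2 * L ^ 2 := hd'
      _ ≤ Real.exp (2 * L ^ 2) := by linarith [Real.add_one_le_exp (2 * L ^ 2)]
      _ ≤ wy_qp 2 X := by rw [hL]; exact wy_exp_le_qp (a := 2) (b := 2) (c := 2) (by norm_num) le_rfl hX
  have hbase : (10 : ℝ) * d' * ((⌈Z⌉₊ : ℕ) : ℝ) ≤ wy_qp c₃ X := by
    rw [hc₃]
    exact wy_mul_le_qp hX (by positivity)
      (wy_mul_le_qp hX (by norm_num) (by exact_mod_cast wy_cast_le_qp 10 hX) hdq) hceil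
  have hexp : ((100 * d' ^ 4 : ℕ) : ℝ) ≤ ((1600 : ℕ) : ℝ) * L ^ 8 := by
    push_cast
    have h1 : (d' : ℝ) ^ 4 ≤ (2 * L ^ 2) ^ 4 := pow_le_pow_left₀ (Nat.cast_nonneg _) hd' 4
    calc 100 * (d' : ℝ) ^ 4 ≤ 100 * (2 * L ^ 2) ^ 4 := by linarith
      _ = 1600 * L ^ 8 := by ring
  have hCr : ((s8cCr d' ⌈Z⌉₊ : ℕ) : ℝ) ≤ wy_qp c₄ X := by
    unfold s8cCr
    push_cast
    calc ((10 : ℝ) * d' * ((⌈Z⌉₊ : ℕ) : ℝ)) ^ (100 * d' ^ 4) ≤ (wy_qp c₃ X) ^ (100 * d' ^ 4) :=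
          pow_le_pow_left₀ (by positivity) hbase _
      _ ≤ wy_qp (1600 * c₃ + c₃ + 8) X := s5e_qp_pow_gen c₃ _ 1600 8 hX (by rw [← hL]; exact hexp)
      _ = wy_qp c₄ X := by rw [hc₄]
  have hy : (d' : ℝ) * ((s8cCr d' ⌈Z⌉₊ : ℕ) : ℝ) + 1 ≤ wy_qp c₅ X := by
    rw [hc₅]
    exact wy_add_le_qp (c := 2 + c₄) (c' := 0) hX (wy_mul_le_qp hX (Nat.cast_nonneg _) hdq hCr) (wy_one_le_qp 0 hX)
  have hlogb : ∀ (y : ℝ) (c : ℕ), 1 ≤ y → y ≤ wy_qp c X → 0 ≤ Real.logb 2 y ∧ Real.logb 2 y ≤ 2 * ((c : ℝ) * L ^ c) := by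
    intro y c hy1 hyc
    have h1 : Real.log y ≤ (c : ℝ) * L ^ c := by
      rw [hL, ← wy_log_qp]; exact Real.log_le_log (by linarith) hyc
    have h2 : 0 ≤ Real.log y := Real.log_nonneg hy1
    have h3 : (1 / 2 : ℝ) ≤ Real.log 2 := by have := Real.log_two_gt_d9; linarith
    refine ⟨Real.logb_nonneg (by norm_num) hy1, ?_⟩
    unfold Real.logb
    rw [div_le_iff₀ (by linarith)]
    nlinarith
  have hy1 : 1 ≤ (d' : ℝ) * ((s8cCr d' ⌈Z⌉₊ : ℕ) : ℝ) + 1 := by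
    have : 0 ≤ (d' : ℝ) * ((s8cCr d' ⌈Z⌉₊ : ℕ) : ℝ) := by positivity
    linarith
  obtain ⟨a0, a1⟩ := hlogb _ c₅ hy1 hy
  obtain ⟨b0, b1⟩ := hlogb Z c₁ hZ1 (le_of_eq hZ)
  obtain ⟨M, hM⟩ : ∃ M : ℝ, M = L ^ (c₅ + c₁) := ⟨_, rfl⟩
  have hM1 : 1 ≤ M := by rw [hM]; exact one_le_pow₀ hL1
  have hM5 : L ^ c₅ ≤ M := by rw [hM]; exact pow_le_pow_right₀ hL1 (by omega)
  have hM1' : L ^ c₁ ≤ M := by rw [hM]; exact pow_le_pow_right₀ hL1 (by omega)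
  have hin : Real.logb 2 ((d' : ℝ) * ((s8cCr d' ⌈Z⌉₊ : ℕ) : ℝ) + 1) + 2 * Real.logb 2 Z + 1
      ≤ (2 * (c₅ : ℝ) + 4 * c₁ + 1) * M := by
    have h5 : (c₅ : ℝ) * L ^ c₅ ≤ (c₅ : ℝ) * M := mul_le_mul_of_nonneg_left hM5 (Nat.cast_nonneg _)
    have h1 : (c₁ : ℝ) * L ^ c₁ ≤ (c₁ : ℝ) * M := mul_le_mul_of_nonneg_left hM1' (Nat.cast_nonneg _)
    nlinarith
  unfold s5e_N
  calc (d' : ℝ) * (Real.logb 2 ((d' : ℝ) * ((s8cCr d' ⌈Z⌉₊ : ℕ) : ℝ) + 1) + 2 * Real.logb 2 Z + 1)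
      ≤ (2 * L ^ 2) * ((2 * (c₅ : ℝ) + 4 * c₁ + 1) * M) := mul_le_mul hd' hin (by linarith) (by positivity)
    _ = ((2 * (2 * c₅ + 4 * c₁ + 1) : ℕ) : ℝ) * L ^ (2 + c₅ + c₁) := by
        rw [hM]; push_cast; rw [pow_add, pow_add, pow_add]; ring

/-- numerics of the count.  `L = 1 + log X ≥ 1`, `d ≤ L`, `Z = wy_qp c₁ X = exp (c₁ L^c₁)`, `⌈Z⌉₊ ≤ 2 Z`; for `d' ∈ {d² + 1, d + 1}` (`d' ≤ 2 L²`):
`logb 2 (d' (10 d' ⌈Z⌉₊)^(100 d'^4) + 1) ≤ 1 + logb 2 d' + 100 d'^4 logb 2 (10 d' ⌈Z⌉₊)`, `logb 2 t = log t / log 2 ≤ 2 log t` for `t ≥ 1`, `log (20 d' Z) ≤ 3 + d' + c₁ L^c₁`.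
Everything is a polynomial in `L` with coefficients depending on `c₁`. -/
theorem s5e_count_num (c₁ : ℕ) : ∃ c : ℕ, ∀ (X : ℝ) (d : ℕ), 1 ≤ X → (d : ℝ) ≤ 1 + Real.log X →
    9 * s5e_N (d ^ 2 + 1) (wy_qp c₁ X) + s5e_N (d + 1) (wy_qp c₁ X) ≤ ((c : ℝ) * (1 + Real.log X)) ^ c := by
  obtain ⟨K, m, hKm⟩ := s5e_N_bound c₁
  obtain ⟨c, hc⟩ : ∃ c : ℕ, c = 10 * K + m + 1 := ⟨_, rfl⟩
  refine ⟨c, fun X d hX hd => ?_⟩
  obtain ⟨L, hL⟩ : ∃ L : ℝ, L = 1 + Real.log X := ⟨_, rfl⟩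
  have hL1 : 1 ≤ L := by rw [hL]; exact wy_L_one_le hX
  have hd0 : (0 : ℝ) ≤ d := Nat.cast_nonneg d
  have hLL : L ≤ L ^ 2 := by nlinarith
  have h1 : ((d ^ 2 + 1 : ℕ) : ℝ) ≤ 2 * (1 + Real.log X) ^ 2 := by
    rw [← hL] at hd ⊢
    push_cast
    have : (d : ℝ) ^ 2 ≤ L ^ 2 := pow_le_pow_left₀ hd0 hd 2
    nlinarith
  have h2 : ((d + 1 : ℕ) : ℝ) ≤ 2 * (1 + Real.log X) ^ 2 := by
    rw [← hL] at hd ⊢
    push_cast
    nlinarith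
  have a := hKm X _ hX h1
  have b := hKm X _ hX h2
  rw [← hL] at a b ⊢
  have hc1 : (1 : ℝ) ≤ c := by
    have : 1 ≤ c := by omega
    exact_mod_cast this
  have hKc : 10 * (K : ℝ) ≤ c := by
    rw [hc]; push_cast
    have : (0 : ℝ) ≤ m := Nat.cast_nonneg m
    linarith
  calc 9 * s5e_N (d ^ 2 + 1) (wy_qp c₁ X) + s5e_N (d + 1) (wy_qp c₁ X) ≤ (10 * (K : ℝ)) * L ^ m := by linarith
    _ ≤ (c : ℝ) * L ^ c := mul_le_mul hKc (pow_le_pow_right₀ hL1 (by omega)) (by positivity) (by positivity)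
    _ ≤ (c : ℝ) ^ c * L ^ c := mul_le_mul_of_nonneg_right (le_self_pow₀ hc1 (by omega)) (by positivity)
    _ = ((c : ℝ) * L) ^ c := (mul_pow _ _ _).symm

/-- the master parameter of the final assembly -/
noncomputable def s5e_X (K H δ : ℝ) : ℝ := K + 1 / δ ^ 2 + 8 * H ^ 80 + Real.exp 2

theorem s5e_four_le (a b c d : ℝ) (ha : 1 ≤ a) (hb : 1 ≤ b) (hc : 1 ≤ c) (hd : 1 ≤ d) :
    a + b + c + d ≤ 4 * (a * b * c * d) := by
  have h1 : a ≤ a * (b * c * d) := le_mul_of_one_le_right (by linarith)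
    (one_le_mul_of_one_le_of_one_le (one_le_mul_of_one_le_of_one_le hb hc) hd)
  have h2 : b ≤ b * (a * c * d) := le_mul_of_one_le_right (by linarith)
    (one_le_mul_of_one_le_of_one_le (one_le_mul_of_one_le_of_one_le ha hc) hd)
  have h3 : c ≤ c * (a * b * d) := le_mul_of_one_le_right (by linarith)
    (one_le_mul_of_one_le_of_one_le (one_le_mul_of_one_le_of_one_le ha hb) hd)
  have h4 : d ≤ d * (a * b * c) := le_mul_of_one_le_right (by linarith)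
    (one_le_mul_of_one_le_of_one_le (one_le_mul_of_one_le_of_one_le ha hb) hc)
  have e1 : a * (b * c * d) = a * b * c * d := by ring
  have e2 : b * (a * c * d) = a * b * c * d := by ring
  have e3 : c * (a * b * d) = a * b * c * d := by ring
  have e4 : d * (a * b * c) = a * b * c * d := by ring
  linarith

/-- final numerics.  `x = log D + log (1/δ) ≥ 2`.  `s5e_X ≤ 4 max(...)`, so `log (s5e_X ..) ≤ log 4 + log K + 2 log (1/δ) + log 8 + 80 c₆ (1 + log D)^c₆ + 2 ≤ K' (1 + x)^(c₆ + 1)` with `K'` depending on `K, c₆`;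
`(c (1 + K' (1+x)^(c₆+1)))^c ≤ (c (1 + K'))^c (1+x)^((c₆+1) c)`;   `plog Cf x = (Cf (1+x))^Cf` (real power) `≥ Cf (1+x)^Cf` for `Cf ≥ 1`: take `Cf = max ((c₆+1) c) ((c (1+K'))^c) + 1`. -/
theorem s5e_final_num (c c₆ : ℕ) (K : ℝ) (hK : 1 ≤ K) : ∃ Cf : ℝ, 1 ≤ Cf ∧ ∀ D δ : ℝ, Real.exp 2 ≤ D → 0 < δ → δ ≤ 1 →
    ((c : ℝ) * (1 + Real.log (s5e_X K (wy_qp c₆ D) δ))) ^ c ≤ plog Cf (Real.log D + Real.log (1 / δ)) := by
  obtain ⟨K2, hK2⟩ : ∃ K2 : ℝ, K2 = 9 + Real.log K + 80 * c₆ := ⟨_, rfl⟩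
  have hlK : 0 ≤ Real.log K := Real.log_nonneg hK
  have hK20 : 0 ≤ K2 := by rw [hK2]; positivity
  obtain ⟨n, hn⟩ : ∃ n : ℕ, n = ⌈((c : ℝ) * K2) ^ c⌉₊ + (c₆ + 1) * c + 1 := ⟨_, rfl⟩
  have hn1 : 1 ≤ n := by omega
  have hn1' : (1 : ℝ) ≤ n := by exact_mod_cast hn1
  refine ⟨n, hn1', ?_⟩
  intro D δ hD hδ0 hδ1
  obtain ⟨x, hx⟩ : ∃ x : ℝ, x = Real.log D + Real.log (1 / δ) := ⟨_, rfl⟩
  rw [← hx]
  have hD1 : 1 ≤ D := le_trans (Real.one_le_exp (by norm_num)) hD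
  have hlD : 0 ≤ Real.log D := Real.log_nonneg hD1
  have h1δ : 1 ≤ 1 / δ := by rw [le_div_iff₀ hδ0]; linarith
  have hlδ : 0 ≤ Real.log (1 / δ) := Real.log_nonneg h1δ
  have hx0 : 0 ≤ x := by rw [hx]; linarith
  obtain ⟨y, hy⟩ : ∃ y : ℝ, y = 1 + x := ⟨_, rfl⟩
  have hy1 : 1 ≤ y := by rw [hy]; linarith
  obtain ⟨H, hH⟩ : ∃ H : ℝ, H = wy_qp c₆ D := ⟨_, rfl⟩
  rw [← hH]
  have hH1 : 1 ≤ H := by rw [hH]; exact wy_one_le_qp _ hD1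
  have hH0 : 0 < H := by linarith
  have hb : 1 ≤ 1 / δ ^ 2 := by
    rw [← one_div_pow]; exact one_le_pow₀ h1δ
  have hc8 : 1 ≤ 8 * H ^ 80 := by
    have : 1 ≤ H ^ 80 := one_le_pow₀ hH1
    linarith
  have he : 1 ≤ Real.exp 2 := Real.one_le_exp (by norm_num)
  have hsum : s5e_X K H δ ≤ 4 * (K * (1 / δ ^ 2) * (8 * H ^ 80) * Real.exp 2) := by
    unfold s5e_X
    exact s5e_four_le _ _ _ _ hK hb hc8 he
  have hX1 : 1 ≤ s5e_X K H δ := by unfold s5e_X; linarith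
  have hlog2 : Real.log 2 ≤ 1 := by have := Real.log_two_lt_d9; linarith
  have hlog : Real.log (4 * (K * (1 / δ ^ 2) * (8 * H ^ 80) * Real.exp 2))
      = 5 * Real.log 2 + Real.log K + 2 * Real.log (1 / δ) + 80 * Real.log H + 2 := by
    have e4 : (4 : ℝ) = 2 ^ 2 := by norm_num
    have e8 : (8 : ℝ) = 2 ^ 3 := by norm_num
    rw [Real.log_mul (by norm_num) (by positivity), Real.log_mul (by positivity) (by positivity),
      Real.log_mul (by positivity) (by positivity), Real.log_mul (by positivity) (by positivity),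
      Real.log_mul (by norm_num) (by positivity), Real.log_exp, ← one_div_pow, Real.log_pow, Real.log_pow, e4, e8,
      Real.log_pow, Real.log_pow]
    push_cast
    ring
  have hlH : Real.log H = (c₆ : ℝ) * (1 + Real.log D) ^ c₆ := by rw [hH]; exact wy_log_qp _ _
  have hyD : (1 + Real.log D) ^ c₆ ≤ y ^ c₆ := pow_le_pow_left₀ (by linarith) (by rw [hy, hx]; linarith) _
  have hyy : y ^ c₆ ≤ y ^ (c₆ + 1) := pow_le_pow_right₀ hy1 (by omega)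
  have hy1' : 1 ≤ y ^ (c₆ + 1) := one_le_pow₀ hy1
  have hyle : y ≤ y ^ (c₆ + 1) := by
    calc y = y ^ 1 := (pow_one y).symm
      _ ≤ y ^ (c₆ + 1) := pow_le_pow_right₀ hy1 (by omega)
  have hmain : 1 + Real.log (s5e_X K H δ) ≤ K2 * y ^ (c₆ + 1) := by
    have h1 : Real.log (s5e_X K H δ) ≤ 5 * Real.log 2 + Real.log K + 2 * Real.log (1 / δ) + 80 * Real.log H + 2 := by
      rw [← hlog]; exact Real.log_le_log (by linarith) hsum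
    have h2 : 2 * Real.log (1 / δ) ≤ 2 * y ^ (c₆ + 1) := by
      have : Real.log (1 / δ) ≤ y := by rw [hy, hx]; linarith
      linarith
    have h3 : 80 * Real.log H ≤ 80 * (c₆ : ℝ) * y ^ (c₆ + 1) := by
      rw [hlH]
      have : (c₆ : ℝ) * (1 + Real.log D) ^ c₆ ≤ (c₆ : ℝ) * y ^ (c₆ + 1) :=
        mul_le_mul_of_nonneg_left (hyD.trans hyy) (Nat.cast_nonneg _)
      linarith
    have h4 : 8 + Real.log K ≤ (7 + Real.log K) * y ^ (c₆ + 1) + 1 := by nlinarith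
    have h5 : (1 : ℝ) ≤ y ^ (c₆ + 1) := hy1'
    rw [hK2]
    nlinarith
  have hpos : 0 ≤ 1 + Real.log (s5e_X K H δ) := by
    have := Real.log_nonneg hX1
    linarith
  have hstep : ((c : ℝ) * (1 + Real.log (s5e_X K H δ))) ^ c ≤ ((c : ℝ) * K2) ^ c * y ^ ((c₆ + 1) * c) := by
    calc ((c : ℝ) * (1 + Real.log (s5e_X K H δ))) ^ c ≤ ((c : ℝ) * (K2 * y ^ (c₆ + 1))) ^ c :=
          pow_le_pow_left₀ (by positivity) (mul_le_mul_of_nonneg_left hmain (Nat.cast_nonneg _)) _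
      _ = ((c : ℝ) * K2) ^ c * y ^ ((c₆ + 1) * c) := by
          rw [← mul_assoc, mul_pow, ← pow_mul]
  refine hstep.trans ?_
  unfold plog
  rw [Real.rpow_natCast, ← hy, mul_pow (n : ℝ) y n]
  have hA : ((c : ℝ) * K2) ^ c ≤ (n : ℝ) ^ n := by
    have h1 : ((c : ℝ) * K2) ^ c ≤ (n : ℝ) := by
      have := Nat.le_ceil (((c : ℝ) * K2) ^ c)
      refine this.trans ?_
      rw [hn]
      push_cast
      have : (0 : ℝ) ≤ ((c₆ : ℝ) + 1) * c := by positivity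
      linarith
    exact h1.trans (le_self_pow₀ hn1' (by omega))
  have hB : y ^ ((c₆ + 1) * c) ≤ y ^ n := pow_le_pow_right₀ hy1 (by omega)
  exact mul_le_mul hA hB (by positivity) (by positivity)

/-- **dyadic bands** (last paragraph of the proof of Lemma 5.7), abstract form.
PLAN.  For `I ∈ A` and every `N` with `f I = 0 ∨ δ / 2^(N+1) < f I`:  `f I ≤ ∑_{n ≤ N} δ / 2^n * 1[δ / 2^(n+1) < f I]`  (if `f I > 0` let `k ≤ N` be the least index with `δ / 2^(k+1) < f I`; then `f I ≤ δ / 2^k`: for `k = 0` by `f I ≤ δ`).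
Choose `N` for all `I ∈ A` (finite set; `δ / 2^(N+1) → 0`).  Sum over `I`, exchange the sums: `∑ f ≤ ∑_{n ≤ N} δ / 2^n * plog C (x + (n+1) log 2)`.
`1 + x + (n+1) log 2 ≤ (1 + x)(n + 2)`, so `plog C (x + (n+1) log 2) ≤ plog C x * (n+2)^C` (`Real.mul_rpow`).  `Kc := ∑' n, (n+2)^⌈C⌉₊ / 2^n < ∞` (`summable_pow_mul_geometric_of_norm_lt_one` after a shift, or ratio test).
`C' = max C (Kc * C^C) + 1`:  `plog C' x = (C' (1+x))^C' ≥ C' (1+x)^C ≥ Kc C^C (1+x)^C = Kc plog C x`. -/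
theorem s5e_bands (C : ℝ) (hC : 1 ≤ C) : ∃ C' : ℝ, 1 ≤ C' ∧ ∀ x δ : ℝ, 0 ≤ x → 0 < δ →
    ∀ (α : Type) (A : Finset α) (f : α → ℝ), (∀ I ∈ A, 0 ≤ f I ∧ f I ≤ δ) →
      (∀ n : ℕ, ((A.filter fun I => δ / 2 ^ (n + 1) < f I).card : ℝ) ≤ plog C (x + ((n : ℝ) + 1) * Real.log 2)) →
      ∑ I ∈ A, f I ≤ δ * plog C' x := by
  classical
  obtain ⟨m, hm⟩ : ∃ m : ℕ, m = ⌈C⌉₊ := ⟨_, rfl⟩
  have hCm : C ≤ m := by rw [hm]; exact Nat.le_ceil C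
  have hC0 : 0 ≤ C := by linarith
  -- the series
  have hsum : Summable (fun n : ℕ => ((n : ℝ) + 2) ^ m / 2 ^ n) := by
    have h1 := summable_pow_mul_geometric_of_norm_lt_one (R := ℝ) m (r := 1 / 2) (by norm_num)
    have h2 := (summable_nat_add_iff 2).2 h1
    have h3 := h2.mul_left 4
    refine h3.congr fun n => ?_
    push_cast
    rw [pow_add, one_div, inv_pow]
    field_simp
    norm_num
  obtain ⟨Kc, hKc⟩ : ∃ Kc : ℝ, Kc = ∑' n : ℕ, ((n : ℝ) + 2) ^ m / 2 ^ n := ⟨_, rfl⟩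
  have hKc0 : 0 ≤ Kc := by rw [hKc]; exact tsum_nonneg fun n => by positivity
  have hpart : ∀ N : ℕ, ∑ n ∈ Finset.range N, ((n : ℝ) + 2) ^ m / 2 ^ n ≤ Kc := fun N => by
    rw [hKc]; exact hsum.sum_le_tsum _ (fun n _ => by positivity)
  refine ⟨C * (Kc + 1), by nlinarith, ?_⟩
  intro x δ hx hδ α A f hf hcnt
  -- pointwise
  have hpt : ∀ I ∈ A, ∀ N : ℕ,
      f I ≤ ∑ n ∈ Finset.range N, (δ / 2 ^ n) * (if δ / 2 ^ (n + 1) < f I then (1 : ℝ) else 0) + δ / 2 ^ N := by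
    intro I hI N
    induction N with
    | zero => simpa using (hf I hI).2
    | succ N ih =>
      rw [Finset.sum_range_succ]
      have hS : 0 ≤ ∑ n ∈ Finset.range N, (δ / 2 ^ n) * (if δ / 2 ^ (n + 1) < f I then (1 : ℝ) else 0) :=
        Finset.sum_nonneg fun n _ => by split_ifs <;> positivity
      by_cases hc : δ / 2 ^ (N + 1) < f I
      · rw [if_pos hc, mul_one]
        have : 0 < δ / 2 ^ (N + 1) := by positivity
        linarith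
      · rw [if_neg hc, mul_zero, add_zero]
        push Not at hc
        linarith
  obtain ⟨N, hN⟩ : ∃ N : ℕ, N = A.card := ⟨_, rfl⟩
  have h1 : ∑ I ∈ A, f I ≤ ∑ n ∈ Finset.range N, (δ / 2 ^ n) * ((A.filter fun I => δ / 2 ^ (n + 1) < f I).card : ℝ)
      + A.card * (δ / 2 ^ N) := by
    calc ∑ I ∈ A, f I
        ≤ ∑ I ∈ A, (∑ n ∈ Finset.range N, (δ / 2 ^ n) * (if δ / 2 ^ (n + 1) < f I then (1 : ℝ) else 0) + δ / 2 ^ N) :=
          Finset.sum_le_sum fun I hI => hpt I hI N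
      _ = _ := by
          rw [Finset.sum_add_distrib, Finset.sum_comm, Finset.sum_const, nsmul_eq_mul]
          congr 1
          refine Finset.sum_congr rfl fun n _ => ?_
          rw [← Finset.mul_sum, Finset.sum_boole]
  have hb : 1 ≤ C * (1 + x) := by nlinarith
  have hP1 : 1 ≤ plog C x := by unfold plog; exact Real.one_le_rpow hb hC0
  have hband : ∀ n : ℕ, plog C (x + ((n : ℝ) + 1) * Real.log 2) ≤ plog C x * ((n : ℝ) + 2) ^ m := by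
    intro n
    unfold plog
    have hlog2 : Real.log 2 ≤ 1 := by have := Real.log_two_lt_d9; linarith
    have hlog20 : 0 ≤ Real.log 2 := Real.log_nonneg (by norm_num)
    have hn : (0 : ℝ) ≤ n := Nat.cast_nonneg n
    have h1 : C * (1 + (x + ((n : ℝ) + 1) * Real.log 2)) ≤ (C * (1 + x)) * ((n : ℝ) + 2) := by
      have h2 : ((n : ℝ) + 1) * Real.log 2 ≤ ((n : ℝ) + 1) * 1 := mul_le_mul_of_nonneg_left hlog2 (by linarith)
      have h3 : 1 + (x + ((n : ℝ) + 1) * Real.log 2) ≤ (1 + x) * ((n : ℝ) + 2) := by nlinarith [mul_nonneg hx hn]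
      calc C * (1 + (x + ((n : ℝ) + 1) * Real.log 2)) ≤ C * ((1 + x) * ((n : ℝ) + 2)) := mul_le_mul_of_nonneg_left h3 hC0
        _ = _ := by ring
    calc (C * (1 + (x + ((n : ℝ) + 1) * Real.log 2))) ^ C ≤ ((C * (1 + x)) * ((n : ℝ) + 2)) ^ C :=
          Real.rpow_le_rpow (by positivity) h1 hC0
      _ = (C * (1 + x)) ^ C * ((n : ℝ) + 2) ^ C := Real.mul_rpow (by positivity) (by positivity)
      _ ≤ (C * (1 + x)) ^ C * ((n : ℝ) + 2) ^ m := by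
          refine mul_le_mul_of_nonneg_left ?_ (Real.rpow_nonneg (by positivity) _)
          rw [← Real.rpow_natCast]
          exact Real.rpow_le_rpow_of_exponent_le (by linarith) hCm
  have h2 : ∑ n ∈ Finset.range N, (δ / 2 ^ n) * ((A.filter fun I => δ / 2 ^ (n + 1) < f I).card : ℝ)
      ≤ δ * plog C x * Kc := by
    calc ∑ n ∈ Finset.range N, (δ / 2 ^ n) * ((A.filter fun I => δ / 2 ^ (n + 1) < f I).card : ℝ)
        ≤ ∑ n ∈ Finset.range N, (δ * plog C x) * (((n : ℝ) + 2) ^ m / 2 ^ n) := by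
          refine Finset.sum_le_sum fun n _ => ?_
          calc (δ / 2 ^ n) * ((A.filter fun I => δ / 2 ^ (n + 1) < f I).card : ℝ)
              ≤ (δ / 2 ^ n) * (plog C x * ((n : ℝ) + 2) ^ m) :=
                mul_le_mul_of_nonneg_left ((hcnt n).trans (hband n)) (by positivity)
            _ = _ := by ring
      _ = (δ * plog C x) * ∑ n ∈ Finset.range N, ((n : ℝ) + 2) ^ m / 2 ^ n := by rw [Finset.mul_sum]
      _ ≤ δ * plog C x * Kc := mul_le_mul_of_nonneg_left (hpart N) (by positivity)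
  have h3 : (A.card : ℝ) * (δ / 2 ^ N) ≤ δ := by
    have h4 : (A.card : ℝ) ≤ 2 ^ N := by
      rw [← hN]
      exact_mod_cast (Nat.lt_two_pow_self (n := N)).le
    have h5 : (0 : ℝ) < 2 ^ N := by positivity
    calc (A.card : ℝ) * (δ / 2 ^ N) = δ * ((A.card : ℝ) / 2 ^ N) := by ring
      _ ≤ δ * 1 := mul_le_mul_of_nonneg_left ((div_le_one h5).2 h4) hδ.le
      _ = δ := mul_one δ
  have hfin : plog C x * (Kc + 1) ≤ plog (C * (Kc + 1)) x := by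
    unfold plog
    have hK1 : 1 ≤ Kc + 1 := by linarith
    have e : C * (Kc + 1) * (1 + x) = (C * (1 + x)) * (Kc + 1) := by ring
    calc (C * (1 + x)) ^ C * (Kc + 1) ≤ (C * (1 + x)) ^ C * (Kc + 1) ^ C := by
          refine mul_le_mul_of_nonneg_left ?_ (Real.rpow_nonneg (by positivity) _)
          calc Kc + 1 = (Kc + 1) ^ (1 : ℝ) := (Real.rpow_one _).symm
            _ ≤ (Kc + 1) ^ C := Real.rpow_le_rpow_of_exponent_le hK1 hC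
      _ = ((C * (1 + x)) * (Kc + 1)) ^ C := (Real.mul_rpow (by positivity) (by positivity)).symm
      _ ≤ ((C * (1 + x)) * (Kc + 1)) ^ (C * (Kc + 1)) :=
          Real.rpow_le_rpow_of_exponent_le (one_le_mul_of_one_le_of_one_le hb hK1) (by nlinarith)
      _ = _ := by rw [e]
  calc ∑ I ∈ A, f I ≤ δ * plog C x * Kc + δ := by linarith
    _ ≤ δ * plog C x * Kc + δ * plog C x := by nlinarith
    _ = δ * (plog C x * (Kc + 1)) := by ring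
    _ ≤ δ * plog (C * (Kc + 1)) x := mul_le_mul_of_nonneg_left hfin hδ.le

end Claimed.Agent.R258
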