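/-
Row 258, block [S5e] (architect helper22).  FILE EBins: an intermediate factor occurs at few dyadic scales (= Lemma 3.5 (2), compression.tex l.568-575), from helper61's `s8c_packets` (= Lemma 3.5 (1), black box).
Mathlib + S8c/Exc.lean.  No paper.

PLANS.
* `s5e_int_interval_card`: `S ⊆ Finset.Icc ⌈u⌉ ⌊u + lam⌋`, `Int.card_Icc`, `⌊u + lam⌋ - ⌈u⌉ + 1 ≤ lam + 1` (`Int.floor_le`, `Int.le_ceil`; if the `toNat` argument is negative the card is `0 ≤ lam + 1`).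
* `s5e_scale_count`: `W := logb 2 (d' Cr + 1)`, `lz := logb 2 Z ≥ 0`.  `obtain ⟨packets, hcard, hpk⟩ := s8c_packets Θ ⌈Z⌉₊ _ 1 one_pos`  (`1 ≤ ⌈Z⌉₊` by `Nat.one_le_ceil_iff`/`Nat.ceil_pos`).
  For `n ∈ S` take `q` from `s5e_Mid`; `s8cEv q Θ ≠ 0` because `0 < 1/Z ≤ ρ |ev|`; with `x = logb 2 (|ev| * 1)`:  `logb 2 (ρ |ev|) = -(n e) + x`  (`Real.logb_mul`, `Real.logb_pow`, `Real.logb_zpow`, `Real.logb_self_eq_one`),
  and `-lz ≤ logb 2 (ρ |ev|) ≤ lz` (`Real.logb_le_logb_of_le`, `logb 2 (1/Z) = -lz`).  So `n e ∈ [α - lz, α + W + lz]`, i.e. `n ∈ [(α - lz)/e, (α - lz)/e + (W + 2 lz)/e]`, and `(W + 2 lz)/e ≤ W + 2 lz` (`e ≥ 1`, `W ≥ 0`).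
  `S ⊆ packets.biUnion (fun α => S.filter (fun n => (α - lz)/e ≤ n ∧ n ≤ (α - lz)/e + (W + 2 lz)))`; `Finset.card_biUnion_le`, `s5e_int_interval_card`, `Finset.sum_le_card_nsmul`.
-/
import Claimed.Agent.R258.S5.ENum
import Claimed.Agent.R258.S8c.Exc

set_option autoImplicit false

namespace Claimed.Agent.R258

/-- a set of integers in a real interval of length `lam` has at most `lam + 1` elements -/
theorem s5e_int_interval_card (S : Finset ℤ) (u lam : ℝ) (hlam : 0 ≤ lam) (h : ∀ n ∈ S, u ≤ (n : ℝ) ∧ (n : ℝ) ≤ u + lam) :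
    (S.card : ℝ) ≤ lam + 1 := by
  have hsub : S ⊆ Finset.Icc ⌈u⌉ ⌊u + lam⌋ := by
    intro n hn
    obtain ⟨h1, h2⟩ := h n hn
    exact Finset.mem_Icc.2 ⟨Int.ceil_le.2 h1, Int.le_floor.2 h2⟩
  have hcard := Finset.card_le_card hsub
  rw [Int.card_Icc] at hcard
  have h1 : ((⌊u + lam⌋ + 1 - ⌈u⌉).toNat : ℝ) ≤ lam + 1 := by
    rcases le_or_gt (⌊u + lam⌋ + 1 - ⌈u⌉) 0 with h0 | h0
    · rw [Int.toNat_of_nonpos h0]
      simp only [Nat.cast_zero]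
      linarith
    · have h3 : ((⌊u + lam⌋ + 1 - ⌈u⌉).toNat : ℤ) = ⌊u + lam⌋ + 1 - ⌈u⌉ := Int.toNat_of_nonneg h0.le
      have h2 : ((⌊u + lam⌋ + 1 - ⌈u⌉).toNat : ℝ) = ((⌊u + lam⌋ + 1 - ⌈u⌉ : ℤ) : ℝ) := by exact_mod_cast h3
      rw [h2]
      push_cast
      linarith [Int.floor_le (u + lam), Int.le_ceil u]
  exact le_trans (by exact_mod_cast hcard) h1

/-- **Lemma 3.5 (2).** -/
theorem s5e_scale_count {ι' : Type} [Fintype ι'] (Θ : ι' → ℝ) (Z : ℝ) (hZ : 1 ≤ Z) (e : ℕ) (he : 1 ≤ e) (S : Finset ℤ)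
    (h : ∀ n ∈ S, s5e_Mid Θ Z (((2 : ℝ) ^ (-n)) ^ e)) : (S.card : ℝ) ≤ s5e_N (Fintype.card ι') Z := by
  classical
  have hZ0 : 0 < Z := by linarith
  have hceil : 1 ≤ ⌈Z⌉₊ := Nat.one_le_ceil_iff.2 hZ0
  obtain ⟨packets, hcard, hpk⟩ := s8c_packets Θ ⌈Z⌉₊ hceil 1 one_pos
  obtain ⟨d', hd'⟩ : ∃ d' : ℕ, d' = Fintype.card ι' := ⟨_, rfl⟩
  rw [← hd'] at hcard hpk ⊢
  obtain ⟨W, hW⟩ : ∃ W : ℝ, W = Real.logb 2 ((d' : ℝ) * (s8cCr d' ⌈Z⌉₊ : ℝ) + 1) := ⟨_, rfl⟩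
  obtain ⟨lz, hlz⟩ : ∃ lz : ℝ, lz = Real.logb 2 Z := ⟨_, rfl⟩
  have hW0 : 0 ≤ W := by
    rw [hW]
    refine Real.logb_nonneg (by norm_num) ?_
    have : 0 ≤ (d' : ℝ) * (s8cCr d' ⌈Z⌉₊ : ℝ) := by positivity
    linarith
  have hlz0 : 0 ≤ lz := by rw [hlz]; exact Real.logb_nonneg (by norm_num) hZ
  have he0 : (0 : ℝ) < e := by exact_mod_cast he
  have he1 : (1 : ℝ) ≤ e := by exact_mod_cast he
  have key : ∀ n ∈ S, ∃ α ∈ packets, (α - lz) / e ≤ (n : ℝ) ∧ (n : ℝ) ≤ (α - lz) / e + (W + 2 * lz) := by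
    intro n hn
    obtain ⟨q, hq, h1, h2⟩ := h n hn
    have hρ : 0 < ((2 : ℝ) ^ (-n)) ^ e := by positivity
    have hev : s8cEv q Θ ≠ 0 := by
      intro h0
      rw [h0, abs_zero, mul_zero] at h1
      have : 0 < 1 / Z := by positivity
      linarith
    have hev0 : 0 < |s8cEv q Θ| := abs_pos.2 hev
    obtain ⟨α, hα, ha1, ha2⟩ := hpk q hq hev
    rw [mul_one] at ha1 ha2
    obtain ⟨x, hx⟩ : ∃ x : ℝ, x = Real.logb 2 |s8cEv q Θ| := ⟨_, rfl⟩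
    rw [← hx] at ha1 ha2
    rw [← hW] at ha2
    have hlog : Real.logb 2 (((2 : ℝ) ^ (-n)) ^ e * |s8cEv q Θ|) = -((n : ℝ) * e) + x := by
      have hz : Real.logb 2 ((2 : ℝ) ^ (-n)) = -(n : ℝ) := by
        unfold Real.logb
        rw [Real.log_zpow]
        have : Real.log 2 ≠ 0 := (Real.log_pos (by norm_num)).ne'
        field_simp
        push_cast
        ring
      rw [Real.logb_mul hρ.ne' hev0.ne', Real.logb_pow, hz, ← hx]
      ring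
    have hl1 : -lz ≤ -((n : ℝ) * e) + x := by
      rw [← hlog, hlz, ← Real.logb_inv, ← one_div]
      exact Real.logb_le_logb_of_le (by norm_num) (by positivity) h1
    have hl2 : -((n : ℝ) * e) + x ≤ lz := by
      rw [← hlog, hlz]
      exact Real.logb_le_logb_of_le (by norm_num) (by positivity) h2
    refine ⟨α, hα, ?_, ?_⟩
    · rw [div_le_iff₀ he0]; linarith
    · have h3 : (n : ℝ) ≤ (α - lz) / e + (W + 2 * lz) / e := by
        rw [← add_div, le_div_iff₀ he0]; linarith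
      have h4 : (W + 2 * lz) / e ≤ W + 2 * lz := div_le_self (by linarith) he1
      linarith
  have hsub : S ⊆ packets.biUnion (fun α => S.filter
      (fun n : ℤ => (α - lz) / e ≤ (n : ℝ) ∧ (n : ℝ) ≤ (α - lz) / e + (W + 2 * lz))) := by
    intro n hn
    obtain ⟨α, hα, h1, h2⟩ := key n hn
    exact Finset.mem_biUnion.2 ⟨α, hα, Finset.mem_filter.2 ⟨hn, h1, h2⟩⟩
  have hc1 : S.card ≤ ∑ α ∈ packets, (S.filter
      (fun n : ℤ => (α - lz) / e ≤ (n : ℝ) ∧ (n : ℝ) ≤ (α - lz) / e + (W + 2 * lz))).card :=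
    (Finset.card_le_card hsub).trans Finset.card_biUnion_le
  have hc2 : ∀ α ∈ packets, ((S.filter
      (fun n : ℤ => (α - lz) / e ≤ (n : ℝ) ∧ (n : ℝ) ≤ (α - lz) / e + (W + 2 * lz))).card : ℝ) ≤ W + 2 * lz + 1 :=
    fun α _ => s5e_int_interval_card _ ((α - lz) / e) (W + 2 * lz) (by linarith) (fun n hn => (Finset.mem_filter.1 hn).2)
  calc (S.card : ℝ) ≤ ∑ α ∈ packets, ((S.filter
      (fun n : ℤ => (α - lz) / e ≤ (n : ℝ) ∧ (n : ℝ) ≤ (α - lz) / e + (W + 2 * lz))).card : ℝ) := by exact_mod_cast hc1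
    _ ≤ ∑ _α ∈ packets, (W + 2 * lz + 1) := Finset.sum_le_sum hc2
    _ = packets.card * (W + 2 * lz + 1) := by rw [Finset.sum_const, nsmul_eq_mul]
    _ ≤ d' * (W + 2 * lz + 1) := mul_le_mul_of_nonneg_right (by exact_mod_cast hcard) (by linarith)
    _ = s5e_N d' Z := by unfold s5e_N; rw [hW, hlz]

end Claimed.Agent.R258
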