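/-
Row 258, block [S5e] (architect helper22).  FILE ETerm: integrals of a Lipschitz compactly supported amplitude `ϑ` on `ℝ³ = Fin 3 → ℝ` (`wy_Amp X ϑ`: support in `[-X,X]³`, `‖ϑ‖ ≤ X`,
Lipschitz constant `≤ X` for the sup norm) against bounded functions and against characters `e(γ·z)`.   Mathlib only + `ee`.   No paper.

PLANS.
* `s5e_amp_continuous`: `LipschitzWith` (`LipschitzWith.of_dist_le_mul`, `X ≥ 0` from `bdd`), `.continuous`.
* `s5e_amp_support`: `Function.support ϑ ⊆ Set.Icc (fun _ => -X) (fun _ => X)` (`abs_le`); compact (`isCompact_Icc`), measurable; `volume (Icc a b) = ∏ ofReal (b i - a i) = ofReal ((2X)^3)` (`Real.volume_Icc_pi`).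
* `s5e_amp_integrable_mul`: `ϑ * G` with `G` continuous is continuous with compact support (`Continuous.integrable_of_hasCompactSupport`, `HasCompactSupport.intro`/`.mul_right`).
* `s5e_amp_int_norm`: `∫ ‖ϑ‖ = ∫_{box} ‖ϑ‖ ≤ X * (2X)^3` (`setIntegral_eq_integral_of_forall_compl_eq_zero`, `norm_setIntegral_le_of_norm_le_const`).
* `s5e_int_split`: `ϑ F` is integrable because its integral is not `0` (`integral_undef`); `ϑ G` by `s5e_amp_integrable_mul`; `∫ ϑ F = ∫ ϑ (F - G) + ∫ ϑ G`;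
  `‖ϑ (F - G)‖ ≤ η ‖ϑ‖` everywhere (off the box `ϑ = 0`); `norm_integral_le_of_norm_le`, `s5e_amp_int_norm`.
* `s5e_fubini_coord`: `MeasureTheory.volume_preserving_piFinSuccAbove (fun _ => ℝ) a₁` : `(Fin 3 → ℝ) ≃ᵐ ℝ × (Fin 2 → ℝ)` is measure preserving; `MeasurePreserving.integral_comp'`, `integral_prod_symm`;
  `(MeasurableEquiv.piFinSuccAbove _ a₁).symm (s, z') = Fin.insertNth a₁ s z'` and `Function.update (Fin.insertNth a₁ 0 z') a₁ s = Fin.insertNth a₁ s z'` (`Fin.update_insertNth`-type lemma).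
* `s5e_term_tiny`: write `γ·z = γ'·z + γ_{a₁} z_{a₁}` with `γ' = update γ a₁ 0`.  `∫ ϑ e(γ'·z) = 0` by `s5e_fubini_coord` (`g z = e(γ'·z)` does not depend on `z_{a₁}`, inner integral `= g * ∫ ϑ = 0`).
  So `∫ ϑ e(γ·z) = ∫ ϑ e(γ'·z) (e(γ_{a₁} z_{a₁}) - 1)`, `|e(t) - 1| ≤ 2π|t|` (`s4a_ee_sub_le` with `ee 0 = 1`), `|z_{a₁}| ≤ X` on the support: `≤ 2π |γ_{a₁}| X * 8 X⁴ ≤ 51 X⁵ |γ_{a₁}|` (`π < 3.15`).
* `s5e_term_large`: translation trick.  `h = 1/(2γ_{a₁})`, `v = Pi.single a₁ h`: `∫ ϑ(z) e(γ·z) = ∫ ϑ(z+v) e(γ·(z+v)) = - ∫ ϑ(z+v) e(γ·z)` (`integral_add_right_eq_self`, `ee (t + 1/2) = - ee t`), hence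
  `2 ∫ ϑ e(γ·z) = ∫ (ϑ(z) - ϑ(z+v)) e(γ·z)`; the integrand is `≤ X ‖v‖ = X |h|` in norm and vanishes off the box of radius `X + 1/2 ≤ 3X/2`, of volume `(3X)³`.
-/
import Claimed.Agent.R258.Pack012
import Claimed.Agent.R258.S4a.Br

set_option autoImplicit false
open MeasureTheory Matrix
open scoped ComplexConjugate

namespace Claimed.Agent.R258

theorem s5e_amp_nonneg {n : Type} [Fintype n] {X : ℝ} {ϑ : (n → ℝ) → ℂ} (h : wy_Amp X ϑ) : 0 ≤ X :=
  (norm_nonneg _).trans (h.bdd 0)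

theorem s5e_amp_continuous {n : Type} [Fintype n] {X : ℝ} {ϑ : (n → ℝ) → ℂ} (h : wy_Amp X ϑ) : Continuous ϑ := by
  have hX : 0 ≤ X := s5e_amp_nonneg h
  have : LipschitzWith (Real.toNNReal X) ϑ := LipschitzWith.of_dist_le_mul fun x y => by
    rw [dist_eq_norm, dist_eq_norm, Real.coe_toNNReal _ hX]
    exact h.lip x y
  exact this.continuous

/-- a function vanishing off a box has compact support -/
theorem s5e_box_compact {n : Type} [Fintype n] {f : (n → ℝ) → ℂ} {Y : ℝ} (hs : ∀ z, f z ≠ 0 → ∀ i, |z i| ≤ Y) :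
    HasCompactSupport f := by
  refine HasCompactSupport.intro (K := Set.Icc (fun _ : n => -Y) (fun _ => Y)) isCompact_Icc ?_
  intro z hz
  by_contra hne
  exact hz ⟨fun i => (abs_le.1 (hs z hne i)).1, fun i => (abs_le.1 (hs z hne i)).2⟩

/-- the integral of a bounded function vanishing off a box -/
theorem s5e_box_int_le (f : (Fin 3 → ℝ) → ℂ) (M Y : ℝ) (hY : 0 ≤ Y) (hM : ∀ z, ‖f z‖ ≤ M)
    (hs : ∀ z, f z ≠ 0 → ∀ i, |z i| ≤ Y) : ∫ z, ‖f z‖ ≤ M * (2 * Y) ^ 3 := by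
  have hbox : ∀ z, z ∉ Set.Icc (fun _ : Fin 3 => -Y) (fun _ => Y) → ‖f z‖ = 0 := by
    intro z hz
    by_contra hne
    have hne' : f z ≠ 0 := fun h0 => hne (by rw [h0, norm_zero])
    exact hz ⟨fun i => (abs_le.1 (hs z hne' i)).1, fun i => (abs_le.1 (hs z hne' i)).2⟩
  rw [← setIntegral_eq_integral_of_forall_compl_eq_zero hbox]
  have hvol : volume.real (Set.Icc (fun _ : Fin 3 => -Y) (fun _ => Y)) = (2 * Y) ^ 3 := by
    unfold Measure.real
    rw [Real.volume_Icc_pi_toReal (fun i => by linarith)]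
    simp only [Finset.prod_const, Finset.card_univ, Fintype.card_fin]
    ring
  have hfin : volume (Set.Icc (fun _ : Fin 3 => -Y) (fun _ => Y)) < ⊤ := isCompact_Icc.measure_lt_top
  have h1 := norm_setIntegral_le_of_norm_le_const (μ := volume) (f := fun z => ‖f z‖) (C := M) hfin
    (fun z _ => by rw [norm_norm]; exact hM z)
  rw [hvol] at h1
  exact (le_abs_self _).trans h1

theorem s5e_amp_integrable_mul {X : ℝ} {ϑ : (Fin 3 → ℝ) → ℂ} (h : wy_Amp X ϑ) {G : (Fin 3 → ℝ) → ℂ} (hG : Continuous G) :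
    Integrable fun z => ϑ z * G z :=
  ((s5e_amp_continuous h).mul hG).integrable_of_hasCompactSupport (s5e_box_compact h.supp).mul_right

theorem s5e_amp_int_norm {X : ℝ} {ϑ : (Fin 3 → ℝ) → ℂ} (h : wy_Amp X ϑ) : ∫ z, ‖ϑ z‖ ≤ 8 * X ^ 4 := by
  have := s5e_box_int_le ϑ X X (s5e_amp_nonneg h) h.bdd h.supp
  calc ∫ z, ‖ϑ z‖ ≤ X * (2 * X) ^ 3 := this
    _ = 8 * X ^ 4 := by ring

/-- replace `F` by a continuous approximation `G` on the box -/
theorem s5e_int_split {X : ℝ} {ϑ : (Fin 3 → ℝ) → ℂ} (h : wy_Amp X ϑ) (F G : (Fin 3 → ℝ) → ℂ) (η : ℝ) (hG : Continuous G)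
    (hFG : ∀ z, (∀ i, |z i| ≤ X) → ‖F z - G z‖ ≤ η) (hne : ∫ z, ϑ z * F z ≠ 0) :
    ‖∫ z, ϑ z * F z‖ ≤ 8 * X ^ 4 * η + ‖∫ z, ϑ z * G z‖ := by
  have hX : 0 ≤ X := s5e_amp_nonneg h
  have hη : 0 ≤ η := (norm_nonneg _).trans (hFG 0 fun i => by simpa using hX)
  have hi1 : Integrable fun z => ϑ z * F z := by
    by_contra hni
    exact hne (integral_undef hni)
  have hi2 : Integrable fun z => ϑ z * G z := s5e_amp_integrable_mul h hG
  have hi3 : Integrable ϑ := (s5e_amp_continuous h).integrable_of_hasCompactSupport (s5e_box_compact h.supp)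
  have e1 : ∫ z, ϑ z * F z = (∫ z, (ϑ z * F z - ϑ z * G z)) + ∫ z, ϑ z * G z := by
    rw [integral_sub hi1 hi2]; ring
  have h2 : ‖∫ z, (ϑ z * F z - ϑ z * G z)‖ ≤ ∫ z, η * ‖ϑ z‖ := by
    refine norm_integral_le_of_norm_le (hi3.norm.const_mul η) (Filter.Eventually.of_forall fun z => ?_)
    rw [← mul_sub, norm_mul, mul_comm]
    by_cases hz : ϑ z = 0
    · rw [hz, norm_zero, mul_zero, mul_zero]
    · exact mul_le_mul_of_nonneg_right (hFG z (h.supp z hz)) (norm_nonneg _)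
  rw [integral_const_mul] at h2
  have h3 := s5e_amp_int_norm h
  calc ‖∫ z, ϑ z * F z‖ ≤ ‖∫ z, (ϑ z * F z - ϑ z * G z)‖ + ‖∫ z, ϑ z * G z‖ := by rw [e1]; exact norm_add_le _ _
    _ ≤ 8 * X ^ 4 * η + ‖∫ z, ϑ z * G z‖ := by nlinarith

/-- Fubini in one coordinate: an integrable function all of whose lines in the direction `a₁` have integral zero has integral zero -/
theorem s5e_fubini_coord (a₁ : Fin 3) (f : (Fin 3 → ℝ) → ℂ) (hf : Integrable f)
    (h0 : ∀ z, ∫ s : ℝ, f (Function.update z a₁ s) = 0) : ∫ z, f z = 0 := by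
  have hmp := volume_preserving_piFinSuccAbove (fun _ : Fin 3 => ℝ) a₁
  have hmp' := hmp.symm (MeasurableEquiv.piFinSuccAbove (fun _ : Fin 3 => ℝ) a₁)
  rw [← hmp'.integral_comp' f]
  have hint : Integrable (fun p : ℝ × (Fin 2 → ℝ) => f ((MeasurableEquiv.piFinSuccAbove (fun _ : Fin 3 => ℝ) a₁).symm p))
      (volume.prod volume) :=
    (hmp'.integrable_comp_emb (MeasurableEquiv.measurableEmbedding _)).2 hf
  have e1 := integral_prod_symm _ hint
  refine e1.trans ?_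
  refine (integral_congr_ae (Filter.Eventually.of_forall fun z' => ?_)).trans (integral_zero _ _)
  have := h0 (a₁.insertNth (0 : ℝ) z')
  simp only [Fin.update_insertNth] at this
  exact this

/-- tiny frequency in the direction of the zero marginal -/
theorem s5e_term_tiny {X : ℝ} (hX : 1 ≤ X) {ϑ : (Fin 3 → ℝ) → ℂ} (h : wy_Amp X ϑ) (a₁ : Fin 3)
    (hm : ∀ z, ∫ s : ℝ, ϑ (Function.update z a₁ s) = 0) (γ : Fin 3 → ℝ) :
    ‖∫ z, ϑ z * ee (γ ⬝ᵥ z)‖ ≤ 51 * X ^ 5 * |γ a₁| := by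
  by_cases hne : ∫ z, ϑ z * ee (γ ⬝ᵥ z) = 0
  · rw [hne, norm_zero]; positivity
  obtain ⟨γ', hγ'⟩ : ∃ γ' : Fin 3 → ℝ, γ' = Function.update γ a₁ 0 := ⟨_, rfl⟩
  have hsplit : ∀ z : Fin 3 → ℝ, γ ⬝ᵥ z = γ' ⬝ᵥ z + γ a₁ * z a₁ := by
    intro z
    have : γ = γ' + Pi.single a₁ (γ a₁) := by
      rw [hγ']
      funext i
      by_cases hi : i = a₁
      · subst hi; simp
      · simp [hi]
    conv_lhs => rw [this]
    rw [add_dotProduct, single_dotProduct]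
  have hcG : Continuous fun z : Fin 3 → ℝ => ee (γ' ⬝ᵥ z) := by
    refine s4a_ee_continuous.comp ?_
    unfold dotProduct
    exact continuous_finsetSum _ fun i _ => continuous_const.mul (continuous_apply i)
  have hG0 : ∫ z, ϑ z * ee (γ' ⬝ᵥ z) = 0 := by
    refine s5e_fubini_coord a₁ _ (s5e_amp_integrable_mul h hcG) fun z => ?_
    have hconst : ∀ s : ℝ, γ' ⬝ᵥ Function.update z a₁ s = γ' ⬝ᵥ z := by
      intro s
      unfold dotProduct
      refine Finset.sum_congr rfl fun i _ => ?_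
      by_cases hi : i = a₁
      · subst hi; rw [hγ']; simp
      · rw [Function.update_of_ne hi]
    simp only [hconst]
    rw [integral_mul_const, hm z, zero_mul]
  have hX0 : 0 ≤ X := by linarith
  have := s5e_int_split h (fun z => ee (γ ⬝ᵥ z)) (fun z => ee (γ' ⬝ᵥ z)) (2 * Real.pi * (|γ a₁| * X)) hcG
    (fun z hz => by
      refine (s4a_ee_sub_le _ _).trans ?_
      rw [hsplit z, add_sub_cancel_left, abs_mul]
      have := hz a₁
      have h0 := abs_nonneg (γ a₁)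
      have hpi := Real.pi_pos
      exact mul_le_mul_of_nonneg_left (mul_le_mul_of_nonneg_left this h0) (by positivity)) hne
  rw [hG0, norm_zero, add_zero] at this
  refine this.trans ?_
  have hpi : Real.pi < 3.15 := Real.pi_lt_d2
  have h5 : 0 ≤ X ^ 5 * |γ a₁| := by positivity
  calc 8 * X ^ 4 * (2 * Real.pi * (|γ a₁| * X)) = 16 * Real.pi * (X ^ 5 * |γ a₁|) := by ring
    _ ≤ 51 * (X ^ 5 * |γ a₁|) := mul_le_mul_of_nonneg_right (by linarith) h5
    _ = _ := by ring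

/-- large frequency -/
theorem s5e_term_large {X : ℝ} (hX : 1 ≤ X) {ϑ : (Fin 3 → ℝ) → ℂ} (h : wy_Amp X ϑ) (a₁ : Fin 3) (γ : Fin 3 → ℝ)
    (hγ : 1 ≤ |γ a₁|) : ‖∫ z, ϑ z * ee (γ ⬝ᵥ z)‖ ≤ 51 * X ^ 5 / |γ a₁| := by
  have hX0 : 0 ≤ X := by linarith
  have hγ0 : γ a₁ ≠ 0 := by
    intro h0
    rw [h0, abs_zero] at hγ
    linarith
  obtain ⟨hh, hhh⟩ : ∃ hh : ℝ, hh = 1 / (2 * γ a₁) := ⟨_, rfl⟩
  obtain ⟨v, hv⟩ : ∃ v : Fin 3 → ℝ, v = Pi.single a₁ hh := ⟨_, rfl⟩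
  have habs : |hh| = 1 / (2 * |γ a₁|) := by
    rw [hhh, abs_div, abs_one, abs_mul, abs_two]
  have hh2 : |hh| ≤ 1 / 2 := by
    rw [habs, div_le_div_iff₀ (by positivity) (by norm_num)]
    linarith
  have hvn : ‖v‖ = |hh| := by
    rw [hv, Pi.norm_single, Real.norm_eq_abs]
  have hγv : γ ⬝ᵥ v = 1 / 2 := by
    rw [hv, dotProduct_single, hhh]
    field_simp
  have hhalf : ∀ t : ℝ, ee (t + 1 / 2) = -ee t := by
    intro t
    rw [s4a_ee_add]
    have : ee (1 / 2) = -1 := by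
      unfold ee
      have : (2 * (Real.pi : ℂ) * ((1 / 2 : ℝ) : ℂ) * Complex.I) = Real.pi * Complex.I := by
        push_cast; ring
      rw [this, Complex.exp_pi_mul_I]
    rw [this]; ring
  have hcE : Continuous fun z : Fin 3 → ℝ => ee (γ ⬝ᵥ z) := by
    refine s4a_ee_continuous.comp ?_
    unfold dotProduct
    exact continuous_finsetSum _ fun i _ => continuous_const.mul (continuous_apply i)
  have hi1 : Integrable fun z => ϑ z * ee (γ ⬝ᵥ z) := s5e_amp_integrable_mul h hcE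
  -- the translate
  have hs2 : ∀ z, ϑ (z + v) ≠ 0 → ∀ i, |z i| ≤ X + 1 / 2 := by
    intro z hz i
    have h1 := h.supp _ hz i
    have h2 : |v i| ≤ 1 / 2 := ((norm_le_pi_norm v i).trans (by rw [hvn])).trans hh2
    have h3 : z i = (z + v) i - v i := by simp
    rw [h3]
    exact (abs_sub _ _).trans (by linarith)
  have hc2 : Continuous fun z => ϑ (z + v) := (s5e_amp_continuous h).comp (continuous_id.add continuous_const)
  have hi2 : Integrable fun z => ϑ (z + v) * ee (γ ⬝ᵥ z) :=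
    (hc2.mul hcE).integrable_of_hasCompactSupport (s5e_box_compact hs2).mul_right
  have e1 : ∫ z, ϑ z * ee (γ ⬝ᵥ z) = -∫ z, ϑ (z + v) * ee (γ ⬝ᵥ z) := by
    rw [← integral_add_right_eq_self (fun z => ϑ z * ee (γ ⬝ᵥ z)) v, ← integral_neg]
    refine integral_congr_ae (Filter.Eventually.of_forall fun z => ?_)
    simp only
    rw [dotProduct_add, hγv, hhalf]
    ring
  have e2 : 2 * ∫ z, ϑ z * ee (γ ⬝ᵥ z) = ∫ z, (ϑ z - ϑ (z + v)) * ee (γ ⬝ᵥ z) := by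
    have : ∫ z, (ϑ z - ϑ (z + v)) * ee (γ ⬝ᵥ z) = (∫ z, ϑ z * ee (γ ⬝ᵥ z)) - ∫ z, ϑ (z + v) * ee (γ ⬝ᵥ z) := by
      rw [← integral_sub hi1 hi2]
      exact integral_congr_ae (Filter.Eventually.of_forall fun z => by simp only; ring)
    rw [this]
    have e1' : ∫ z, ϑ (z + v) * ee (γ ⬝ᵥ z) = -∫ z, ϑ z * ee (γ ⬝ᵥ z) := by rw [e1, neg_neg]
    rw [e1']; ring
  have h3 : ∫ z, ‖ϑ z - ϑ (z + v)‖ ≤ X * |hh| * (2 * (X + 1 / 2)) ^ 3 := by
    refine s5e_box_int_le (fun z => ϑ z - ϑ (z + v)) _ _ (by linarith) (fun z => ?_) (fun z hz i => ?_)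
    · refine (h.lip _ _).trans (le_of_eq ?_)
      rw [← hvn]
      congr 1
      rw [sub_add_cancel_left, norm_neg]
    · by_cases h1 : ϑ z = 0
      · by_cases h2 : ϑ (z + v) = 0
        · exact absurd (by rw [h1, h2, sub_zero]) hz
        · exact hs2 z h2 i
      · exact (h.supp z h1 i).trans (by linarith)
  have h4 : ‖∫ z, (ϑ z - ϑ (z + v)) * ee (γ ⬝ᵥ z)‖ ≤ ∫ z, ‖ϑ z - ϑ (z + v)‖ := by
    refine (norm_integral_le_integral_norm _).trans (le_of_eq ?_)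
    refine integral_congr_ae (Filter.Eventually.of_forall fun z => ?_)
    simp only
    rw [norm_mul, s4a_ee_norm, mul_one]
  rw [← e2, norm_mul] at h4
  have h5 : ‖(2 : ℂ)‖ = 2 := by simp
  rw [h5] at h4
  have hg : 0 < |γ a₁| := by linarith
  rw [le_div_iff₀ hg]
  have h6 : |hh| * |γ a₁| = 1 / 2 := by rw [habs]; field_simp
  have h7 : (2 * (X + 1 / 2)) ^ 3 ≤ (3 * X) ^ 3 := pow_le_pow_left₀ (by linarith) (by linarith) 3
  have h8 : 2 * ‖∫ z, ϑ z * ee (γ ⬝ᵥ z)‖ * |γ a₁| ≤ X * (1 / 2) * (3 * X) ^ 3 := by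
    calc 2 * ‖∫ z, ϑ z * ee (γ ⬝ᵥ z)‖ * |γ a₁| ≤ (X * |hh| * (2 * (X + 1 / 2)) ^ 3) * |γ a₁| :=
          mul_le_mul_of_nonneg_right (h4.trans h3) hg.le
      _ = X * (|hh| * |γ a₁|) * (2 * (X + 1 / 2)) ^ 3 := by ring
      _ = X * (1 / 2) * (2 * (X + 1 / 2)) ^ 3 := by rw [h6]
      _ ≤ X * (1 / 2) * (3 * X) ^ 3 := mul_le_mul_of_nonneg_left h7 (by positivity)
  have h9 : X ^ 4 ≤ X ^ 5 := pow_le_pow_right₀ hX (by norm_num)
  nlinarith

end Claimed.Agent.R258
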