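/-
Row 258, block [S5e] (architect helper22).  FILE EOne: ONE SCALE.   GLUE (proved here) from EAdapt, ETerm, EHt, S4a/Lat, S4a/Br.
 * `s5e_pointwise`  : on the box, `wy_Q` is `e(b·z) ∑_{‖ℓ‖<T} a_ℓ e(ℓ·Vz/R)` up to `Y/T + 2π ε Y` if `|zᵀ Λ_* z| ≤ ε`;
 * `s5e_J_le`       : if all entries of `Λ_*` are `≤ ε` and all `a₁`-frequencies are `≤ ε` or `≥ 1/ε` then the integral is small;
 * `s5e_one_explicit`: the alternative with explicit level `Z ≥ s5e_Z0`.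
-/
import Claimed.Agent.R258.S5.EAdapt
import Claimed.Agent.R258.S5.ETerm
import Claimed.Agent.R258.S5.ENum
import Claimed.Agent.R258.S4a.Lat

set_option autoImplicit false
open MeasureTheory Matrix
open scoped ComplexConjugate

namespace Claimed.Agent.R258

section
variable {ι κ : Type} [Fintype ι] [Fintype κ] [DecidableEq ι]

theorem s5e_pointwise (C Pf : Matrix ι ι ℚ) (V : Matrix ι κ ℝ) (Lam : Matrix κ κ ℝ) (b : κ → ℝ) (χ : (ι → ℝ) → ℂ)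
    (R : ℕ) (a : (ι → ℤ) → ℂ) (Y T ε : ℝ) (z : κ → ℝ)
    (hsum : HasSum (fun ℓ : ι → ℤ => a ℓ * ee ((∑ i, (ℓ i : ℝ) * (V *ᵥ z) i) / R))
      (ee (-(s4a_quad C Pf (V *ᵥ z))) * s4a_br C χ (V *ᵥ z)))
    (hs : Summable fun ℓ => ‖a ℓ‖ * (1 + ‖ℓ‖) ^ 1) (hY : ∑' ℓ, ‖a ℓ‖ * (1 + ‖ℓ‖) ^ 1 ≤ Y) (hT : 0 < T)
    (hq : |z ⬝ᵥ (wy_LamStar C V Lam Pf *ᵥ z)| ≤ ε) :
    ‖wy_Q C V Lam b χ z - ee (b ⬝ᵥ z) * ∑ ℓ ∈ (s4a_lat_ball_finite (ι := ι) T).toFinset,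
        a ℓ * ee ((∑ i, (ℓ i : ℝ) * (V *ᵥ z) i) / R)‖ ≤ Y / T + 2 * Real.pi * ε * Y := by
  obtain ⟨Sg, hSg⟩ : ∃ Sg : ℂ, Sg = ee (-(s4a_quad C Pf (V *ᵥ z))) * s4a_br C χ (V *ᵥ z) := ⟨_, rfl⟩
  rw [← hSg] at hsum
  obtain ⟨SgT, hSgT⟩ : ∃ SgT : ℂ, SgT = ∑ ℓ ∈ (s4a_lat_ball_finite (ι := ι) T).toFinset,
        a ℓ * ee ((∑ i, (ℓ i : ℝ) * (V *ᵥ z) i) / R) := ⟨_, rfl⟩
  rw [← hSgT]
  have htr : ‖Sg - SgT‖ ≤ Y / T ^ 1 := by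
    rw [hSgT]
    exact s4a_lat_truncate a _ (fun ℓ => (s4a_ee_norm _).le) 1 Y T hT hs hY Sg hsum
  rw [pow_one] at htr
  -- the size of the full sum
  have hSgn : ‖Sg‖ ≤ Y := by
    have h1 : ∀ ℓ : ι → ℤ, ‖a ℓ * ee ((∑ i, (ℓ i : ℝ) * (V *ᵥ z) i) / R)‖ ≤ ‖a ℓ‖ * (1 + ‖ℓ‖) ^ 1 := by
      intro ℓ
      rw [norm_mul, s4a_ee_norm, mul_one, pow_one]
      nlinarith [norm_nonneg (a ℓ), norm_nonneg ℓ]
    rw [← hsum.tsum_eq]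
    exact (tsum_of_norm_bounded hs.hasSum h1).trans hY
  -- the identity
  have hid : wy_Q C V Lam b χ z = ee (z ⬝ᵥ (wy_LamStar C V Lam Pf *ᵥ z)) * (ee (b ⬝ᵥ z) * Sg) := by
    rw [s5e_wyQ_eq, s5e_lamStar_form, hSg, s4a_ee_add, s4a_ee_add, s4a_ee_neg]
    have hne : ee (s4a_quad C Pf (V *ᵥ z)) ≠ 0 := by
      intro h0
      have := s4a_ee_norm (s4a_quad C Pf (V *ᵥ z))
      rw [h0, norm_zero] at this
      exact zero_ne_one this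
    field_simp
  have h1 : ‖ee (z ⬝ᵥ (wy_LamStar C V Lam Pf *ᵥ z)) - 1‖ ≤ 2 * Real.pi * ε := by
    have := s4a_ee_sub_le (z ⬝ᵥ (wy_LamStar C V Lam Pf *ᵥ z)) 0
    rw [s4a_ee_zero, sub_zero] at this
    exact this.trans (mul_le_mul_of_nonneg_left hq (by positivity))
  have hdec : wy_Q C V Lam b χ z - ee (b ⬝ᵥ z) * SgT
      = (ee (z ⬝ᵥ (wy_LamStar C V Lam Pf *ᵥ z)) - 1) * (ee (b ⬝ᵥ z) * Sg) + ee (b ⬝ᵥ z) * (Sg - SgT) := by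
    rw [hid]; ring
  rw [hdec]
  have hY0 : 0 ≤ Y := (norm_nonneg _).trans hSgn
  calc ‖(ee (z ⬝ᵥ (wy_LamStar C V Lam Pf *ᵥ z)) - 1) * (ee (b ⬝ᵥ z) * Sg) + ee (b ⬝ᵥ z) * (Sg - SgT)‖
      ≤ ‖ee (z ⬝ᵥ (wy_LamStar C V Lam Pf *ᵥ z)) - 1‖ * (‖ee (b ⬝ᵥ z)‖ * ‖Sg‖) + ‖ee (b ⬝ᵥ z)‖ * ‖Sg - SgT‖ := by
        refine (norm_add_le _ _).trans ?_
        rw [norm_mul, norm_mul, norm_mul]
    _ ≤ 2 * Real.pi * ε * (1 * Y) + 1 * (Y / T) := by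
        rw [s4a_ee_norm]
        refine add_le_add (mul_le_mul h1 (mul_le_mul_of_nonneg_left hSgn zero_le_one) (by positivity) ?_)
          (mul_le_mul_of_nonneg_left htr zero_le_one)
        exact (norm_nonneg _).trans h1
    _ = Y / T + 2 * Real.pi * ε * Y := by ring

end

section
variable {ι : Type} [Fintype ι] [DecidableEq ι]

/-- a quadratic form on `ℝ³` with small entries is small on a box -/
theorem s5e_form_le (M : Matrix (Fin 3) (Fin 3) ℝ) (ε X : ℝ) (hX : 0 ≤ X) (hM : ∀ p q, |M p q| ≤ ε) (z : Fin 3 → ℝ)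
    (hz : ∀ i, |z i| ≤ X) : |z ⬝ᵥ (M *ᵥ z)| ≤ 9 * X ^ 2 * ε := by
  have hε : 0 ≤ ε := (abs_nonneg _).trans (hM 0 0)
  have h1 : ∀ p q, |z p * (M p q * z q)| ≤ X ^ 2 * ε := by
    intro p q
    rw [abs_mul, abs_mul]
    calc |z p| * (|M p q| * |z q|) ≤ X * (ε * X) :=
          mul_le_mul (hz p) (mul_le_mul (hM p q) (hz q) (abs_nonneg _) hε) (by positivity) hX
      _ = X ^ 2 * ε := by ring
  simp only [dotProduct, mulVec, Fin.sum_univ_three, mul_add]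
  have := h1 0 0; have := h1 0 1; have := h1 0 2; have := h1 1 0; have := h1 1 1; have := h1 1 2
  have := h1 2 0; have := h1 2 1; have := h1 2 2
  simp only [abs_le] at *
  constructor <;> linarith

theorem s5e_J_le (X Y T ε : ℝ) (C Pf : Matrix ι ι ℚ) (V : Matrix ι (Fin 3) ℝ) (Lam : Matrix (Fin 3) (Fin 3) ℝ)
    (b : Fin 3 → ℝ) (χ : (ι → ℝ) → ℂ) (a₁ : Fin 3) (ϑ : (Fin 3 → ℝ) → ℂ) (R : ℕ) (a : (ι → ℤ) → ℂ)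
    (hX : 1 ≤ X) (hϑ : wy_Amp X ϑ) (hm : ∀ z, ∫ s : ℝ, ϑ (Function.update z a₁ s) = 0) (hT : 0 < T) (hε : 0 < ε)
    (hε1 : ε ≤ 1)
    (hs : Summable fun ℓ => ‖a ℓ‖ * (1 + ‖ℓ‖) ^ 1) (hY : ∑' ℓ, ‖a ℓ‖ * (1 + ‖ℓ‖) ^ 1 ≤ Y)
    (hexp : ∀ z : Fin 3 → ℝ, (∀ i, |z i| ≤ X) →
      HasSum (fun ℓ : ι → ℤ => a ℓ * ee ((∑ i, (ℓ i : ℝ) * (V *ᵥ z) i) / R))
        (ee (-(s4a_quad C Pf (V *ᵥ z))) * s4a_br C χ (V *ᵥ z)))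
    (h2 : ∀ p q, |wy_LamStar C V Lam Pf p q| ≤ ε)
    (h1 : ∀ ℓ : ι → ℤ, ‖ℓ‖ < T → |b a₁ + (∑ i, (ℓ i : ℝ) * V i a₁) / R| ≤ ε ∨
      1 / ε ≤ |b a₁ + (∑ i, (ℓ i : ℝ) * V i a₁) / R|) :
    ‖∫ z, ϑ z * wy_Q C V Lam b χ z‖
      ≤ 8 * X ^ 4 * (Y / T + 2 * Real.pi * (9 * X ^ 2 * ε) * Y) + Y * (51 * X ^ 5 * ε) := by
  have hY0 : 0 ≤ Y := le_trans (tsum_nonneg fun ℓ => by positivity) hY
  by_cases hne : ∫ z, ϑ z * wy_Q C V Lam b χ z = 0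
  · rw [hne, norm_zero]; positivity
  obtain ⟨Bl, hBl⟩ : ∃ Bl : Finset (ι → ℤ), Bl = (s4a_lat_ball_finite (ι := ι) T).toFinset := ⟨_, rfl⟩
  have hBmem : ∀ ℓ ∈ Bl, ‖ℓ‖ < T := by
    intro ℓ hℓ
    rw [hBl, Set.Finite.mem_toFinset] at hℓ
    exact hℓ
  -- the approximation
  have hGeq : ∀ z : Fin 3 → ℝ, ee (b ⬝ᵥ z) * ∑ ℓ ∈ Bl, a ℓ * ee ((∑ i, (ℓ i : ℝ) * (V *ᵥ z) i) / R)
      = ∑ ℓ ∈ Bl, a ℓ * ee ((fun k => b k + (∑ i, (ℓ i : ℝ) * V i k) / R) ⬝ᵥ z) := by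
    intro z
    rw [Finset.mul_sum]
    refine Finset.sum_congr rfl fun ℓ _ => ?_
    rw [← s5e_freq_dot, s4a_ee_add]
    ring
  have hcont : ∀ γ : Fin 3 → ℝ, Continuous fun z : Fin 3 → ℝ => ee (γ ⬝ᵥ z) := by
    intro γ
    refine s4a_ee_continuous.comp ?_
    unfold dotProduct
    fun_prop
  have hGc : Continuous fun z : Fin 3 → ℝ =>
      ∑ ℓ ∈ Bl, a ℓ * ee ((fun k => b k + (∑ i, (ℓ i : ℝ) * V i k) / R) ⬝ᵥ z) :=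
    continuous_finsetSum _ fun ℓ _ => continuous_const.mul (hcont _)
  have hsplit := s5e_int_split hϑ (wy_Q C V Lam b χ)
    (fun z => ∑ ℓ ∈ Bl, a ℓ * ee ((fun k => b k + (∑ i, (ℓ i : ℝ) * V i k) / R) ⬝ᵥ z))
    (Y / T + 2 * Real.pi * (9 * X ^ 2 * ε) * Y) hGc
    (by
      intro z hz
      rw [← hGeq z, hBl]
      exact s5e_pointwise C Pf V Lam b χ R a Y T _ z (hexp z hz) hs hY hT
        (s5e_form_le _ ε X (by linarith) h2 z hz)) hne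
  refine hsplit.trans (add_le_add le_rfl ?_)
  -- the finite sum
  have hint : ∀ ℓ ∈ Bl, Integrable fun z : Fin 3 → ℝ =>
      a ℓ * (ϑ z * ee ((fun k => b k + (∑ i, (ℓ i : ℝ) * V i k) / R) ⬝ᵥ z)) :=
    fun ℓ _ => (s5e_amp_integrable_mul hϑ (hcont _)).const_mul _
  have e1 : ∫ z, ϑ z * ∑ ℓ ∈ Bl, a ℓ * ee ((fun k => b k + (∑ i, (ℓ i : ℝ) * V i k) / R) ⬝ᵥ z)
      = ∑ ℓ ∈ Bl, a ℓ * ∫ z, ϑ z * ee ((fun k => b k + (∑ i, (ℓ i : ℝ) * V i k) / R) ⬝ᵥ z) := by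
    rw [← Finset.sum_congr rfl fun ℓ _ => integral_const_mul (a ℓ) _, ← integral_finsetSum _ hint]
    refine integral_congr_ae (Filter.Eventually.of_forall fun z => ?_)
    simp only [Finset.mul_sum]
    refine Finset.sum_congr rfl fun ℓ _ => ?_
    ring
  rw [e1]
  have hterm : ∀ ℓ ∈ Bl, ‖∫ z, ϑ z * ee ((fun k => b k + (∑ i, (ℓ i : ℝ) * V i k) / R) ⬝ᵥ z)‖ ≤ 51 * X ^ 5 * ε := by
    intro ℓ hℓ
    rcases h1 ℓ (hBmem ℓ hℓ) with h | h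
    · exact (s5e_term_tiny hX hϑ a₁ hm _).trans (mul_le_mul_of_nonneg_left h (by positivity))
    · have h1ε : 1 ≤ 1 / ε := by rw [le_div_iff₀ hε]; linarith
      refine (s5e_term_large hX hϑ a₁ _ (h1ε.trans h)).trans ?_
      rw [div_le_iff₀ (lt_of_lt_of_le (by positivity) h)]
      have h3 : 1 ≤ ε * |b a₁ + (∑ i, (ℓ i : ℝ) * V i a₁) / R| := by
        rw [div_le_iff₀ hε] at h; linarith
      calc 51 * X ^ 5 = 51 * X ^ 5 * 1 := by ring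
        _ ≤ 51 * X ^ 5 * (ε * |b a₁ + (∑ i, (ℓ i : ℝ) * V i a₁) / R|) :=
            mul_le_mul_of_nonneg_left h3 (by positivity)
        _ = _ := by ring
  have hsumA : ∑ ℓ ∈ Bl, ‖a ℓ‖ ≤ Y := by
    refine le_trans ?_ hY
    refine le_trans (Finset.sum_le_sum fun ℓ _ => ?_) (hs.sum_le_tsum Bl fun ℓ _ => by positivity)
    rw [pow_one]
    nlinarith [norm_nonneg (a ℓ), norm_nonneg ℓ]
  calc ‖∑ ℓ ∈ Bl, a ℓ * ∫ z, ϑ z * ee ((fun k => b k + (∑ i, (ℓ i : ℝ) * V i k) / R) ⬝ᵥ z)‖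
      ≤ ∑ ℓ ∈ Bl, ‖a ℓ‖ * (51 * X ^ 5 * ε) := by
        refine (norm_sum_le _ _).trans (Finset.sum_le_sum fun ℓ hℓ => ?_)
        rw [norm_mul]
        exact mul_le_mul_of_nonneg_left (hterm ℓ hℓ) (norm_nonneg _)
    _ = (∑ ℓ ∈ Bl, ‖a ℓ‖) * (51 * X ^ 5 * ε) := by rw [Finset.sum_mul]
    _ ≤ Y * (51 * X ^ 5 * ε) := mul_le_mul_of_nonneg_right hsumA (by positivity)

theorem s5e_B2_nonneg (d : ℕ) (X H : ℝ) (hX : 0 ≤ X) (hH : 0 ≤ H) : 0 ≤ s5e_B2 d X H := by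
  unfold s5e_B2; positivity

/-- **One scale, explicit form.** -/
theorem s5e_one_explicit (X H D Z : ℝ) (C Pf : Matrix ι ι ℚ) (V₀ : Matrix ι (Fin 3) ℝ) (Lam₀ : Matrix (Fin 3) (Fin 3) ℝ)
    (b₀ : Fin 3 → ℝ) (χ : (ι → ℝ) → ℂ) (a₁ : Fin 3) (r : ℝ) (ϑ : (Fin 3 → ℝ) → ℂ) (R : ℕ) (a : (ι → ℤ) → ℂ)
    (hX : 1 ≤ X) (hH : 1 ≤ H) (hr : 0 < r) (hC : s4a_HtLe C X) (hϑ : wy_Amp X ϑ)
    (hm : ∀ z, ∫ s : ℝ, ϑ (Function.update z a₁ s) = 0)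
    (hS : wy_Splits H C (r • V₀) (r ^ 2 • Lam₀) Pf) (hR1 : 1 ≤ R) (hRD : (R : ℝ) ≤ D)
    (ha : ∀ ℓ, ‖a ℓ‖ * (1 + ‖ℓ‖) ^ (1 + 2 * Fintype.card ι) ≤ D)
    (hexp : ∀ u : ι → ℝ, (∀ i, |s4a_mv (1 - Pf) u i| ≤ 3 * H * X) →
      HasSum (fun ℓ : ι → ℤ => a ℓ * ee ((∑ i, (ℓ i : ℝ) * u i) / R)) (ee (-(s4a_quad C Pf u)) * s4a_br C χ u))
    (hZ : s5e_Z0 (Fintype.card ι) X H D ≤ Z)
    (hJ : 1 / X ≤ ‖∫ z, ϑ z * wy_Q C (r • V₀) (r ^ 2 • Lam₀) (r • b₀) χ z‖) :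
    (∃ p q, s5e_Mid (s5e_Th2 V₀ Lam₀ p q) Z (r ^ 2)) ∨ s5e_Mid (s5e_Th1 V₀ b₀ a₁) Z r := by
  by_contra hcon
  rw [not_or, not_exists] at hcon
  obtain ⟨hc2, hc1⟩ := hcon
  have hD1 : 1 ≤ D := le_trans (by exact_mod_cast hR1) hRD
  obtain ⟨Y, hYdef⟩ : ∃ Y : ℝ, Y = 4 ^ Fintype.card ι * D := ⟨_, rfl⟩
  have hY1 : 1 ≤ Y := by
    rw [hYdef]
    have : (1 : ℝ) ≤ 4 ^ Fintype.card ι := one_le_pow₀ (by norm_num)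
    nlinarith
  obtain ⟨hs, hY⟩ := s4a_lat_weighted a 1 D (by linarith) ha
  rw [← hYdef] at hY
  obtain ⟨T, hTdef⟩ : ∃ T : ℝ, T = 25 * X ^ 5 * Y := ⟨_, rfl⟩
  have hT : 0 < T := by rw [hTdef]; positivity
  have hB2 := s5e_B2_nonneg (Fintype.card ι) X H (by linarith) (by linarith)
  unfold s5e_Z0 at hZ
  rw [← hYdef, ← hTdef] at hZ
  have hXY : 0 < 1000 * X ^ 7 * Y := by positivity
  have hZ1 : 1 ≤ Z := by linarith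
  have hZ0 : 0 < Z := by linarith
  -- quadratic entries are tiny
  have h2 : ∀ p q, |wy_LamStar C (r • V₀) (r ^ 2 • Lam₀) Pf p q| ≤ 1 / Z := by
    intro p q
    have hq := hS.quad p q
    rw [s5e_lamStar_entry, abs_mul, abs_of_nonneg (sq_nonneg r)] at hq ⊢
    by_contra hlt
    rw [not_le] at hlt
    refine hc2 p ⟨q, s5e_co2 C Pf, ?_, hlt.le, hq.trans (by linarith)⟩
    exact s5e_htLe_mono (s5e_co2_height C Pf X H hX hH hC hS.height hS.height') (Nat.ceil_mono (by linarith))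
  -- linear frequencies are tiny or large
  have h1 : ∀ ℓ : ι → ℤ, ‖ℓ‖ < T → |(r • b₀) a₁ + (∑ i, (ℓ i : ℝ) * (r • V₀) i a₁) / R| ≤ 1 / Z ∨
      1 / (1 / Z) ≤ |(r • b₀) a₁ + (∑ i, (ℓ i : ℝ) * (r • V₀) i a₁) / R| := by
    intro ℓ hℓ
    rw [s5e_freq_entry, abs_mul, abs_of_pos hr, one_div_one_div]
    by_contra hlt
    rw [not_or, not_le, not_le] at hlt
    refine hc1 ⟨s5e_co1 ℓ R, ?_, hlt.1.le, hlt.2.le⟩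
    exact s5e_htLe_mono (s5e_co1_height ℓ R T D hR1 hRD hℓ) (Nat.ceil_mono (by linarith))
  -- the expansion on the box
  have hexp' : ∀ z : Fin 3 → ℝ, (∀ i, |z i| ≤ X) →
      HasSum (fun ℓ : ι → ℤ => a ℓ * ee ((∑ i, (ℓ i : ℝ) * ((r • V₀) *ᵥ z) i) / R))
        (ee (-(s4a_quad C Pf ((r • V₀) *ᵥ z))) * s4a_br C χ ((r • V₀) *ᵥ z)) := by
    intro z hz
    refine hexp _ fun i => ?_
    rw [s5e_slow_eq, Fin.sum_univ_three]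
    have hb : ∀ k, |((r • V₀) - wy_R Pf * (r • V₀)) i k * z k| ≤ H * X := by
      intro k
      rw [abs_mul]
      exact mul_le_mul (hS.slow i k) (hz k) (abs_nonneg _) (by linarith)
    have := hb 0; have := hb 1; have := hb 2
    simp only [abs_le] at *
    constructor <;> linarith
  have hmain := s5e_J_le X Y T (1 / Z) C Pf (r • V₀) (r ^ 2 • Lam₀) (r • b₀) χ a₁ ϑ R a hX hϑ hm hT (by positivity)
    (by rw [div_le_one hZ0]; exact hZ1) hs hY hexp' h2 h1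
  have hfin : 8 * X ^ 4 * (Y / T + 2 * Real.pi * (9 * X ^ 2 * (1 / Z)) * Y) + Y * (51 * X ^ 5 * (1 / Z)) < 1 / X := by
    have hX0 : 0 < X := by linarith
    have hY0 : 0 < Y := by linarith
    have hε : X ^ 7 * Y * (1 / Z) ≤ 1 / 1000 := by
      rw [mul_one_div, div_le_iff₀ hZ0]
      linarith
    have hε6 : X ^ 6 * Y * (1 / Z) ≤ X ^ 7 * Y * (1 / Z) := by
      have : X ^ 6 ≤ X ^ 7 := pow_le_pow_right₀ hX (by norm_num)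
      have hYZ : 0 ≤ Y * (1 / Z) := by positivity
      nlinarith
    rw [lt_div_iff₀ hX0]
    have e1 : (8 * X ^ 4 * (Y / T + 2 * Real.pi * (9 * X ^ 2 * (1 / Z)) * Y) + Y * (51 * X ^ 5 * (1 / Z))) * X
        = 8 / 25 + 144 * Real.pi * (X ^ 7 * Y * (1 / Z)) + 51 * (X ^ 6 * Y * (1 / Z)) := by
      rw [hTdef]
      field_simp
      ring
    rw [e1]
    have hpi := Real.pi_lt_d2
    have hpi0 := Real.pi_pos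
    have h3 : 144 * Real.pi * (X ^ 7 * Y * (1 / Z)) ≤ 144 * 3.15 * (1 / 1000) := by
      have h0 : 0 ≤ X ^ 7 * Y * (1 / Z) := by positivity
      nlinarith
    linarith
  linarith

/-- **One scale.**  If the integral of `ϑ` against the chart at the scale `r` is `≥ 1/X` then `r²` or `r` is an intermediate factor for one of the ten fixed vectors. -/
theorem s5e_one_scale (hW : s5e_WeylHyp) (hE : s5e_ExpHyp) :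
    ∃ c : ℕ, ∀ (ι : Type) [Fintype ι] [DecidableEq ι] (X : ℝ) (C : Matrix ι ι ℚ) (V₀ : Matrix ι (Fin 3) ℝ)
      (Lam₀ : Matrix (Fin 3) (Fin 3) ℝ) (b₀ : Fin 3 → ℝ) (χ : (ι → ℝ) → ℂ) (a₁ : Fin 3) (r : ℝ) (ϑ : (Fin 3 → ℝ) → ℂ),
      wy_Std X C (Fin 3) → Lam₀ᵀ = Lam₀ → s4a_Amp X X X χ → 0 < r → wy_Amp X ϑ →
      (∀ z, ∫ s : ℝ, ϑ (Function.update z a₁ s) = 0) →
      1 / X ≤ ‖∫ z, ϑ z * wy_Q C (r • V₀) (r ^ 2 • Lam₀) (r • b₀) χ z‖ →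
      (∃ p q, s5e_Mid (s5e_Th2 V₀ Lam₀ p q) (wy_qp c X) (r ^ 2)) ∨ s5e_Mid (s5e_Th1 V₀ b₀ a₁) (wy_qp c X) r := by
  obtain ⟨cW, hW⟩ := hW
  obtain ⟨cE, hE⟩ := hE
  obtain ⟨c, hc⟩ := s5e_Z0_num cW cE
  refine ⟨c, ?_⟩
  intro ι _ _ X C V₀ Lam₀ b₀ χ a₁ r ϑ hStd hsym hχ hr hϑ hm hJ
  have hX : 1 ≤ X := hStd.one_le
  have hX0 : 0 < X := by linarith
  obtain ⟨X₁, hX₁⟩ : ∃ X₁ : ℝ, X₁ = 2 ^ 20 * X ^ 2 := ⟨_, rfl⟩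
  have hXX₁ : X ≤ X₁ := by rw [hX₁]; nlinarith
  obtain ⟨Pf, hS⟩ := hW ι (Fin 3) X₁ C (r • V₀) (r ^ 2 • Lam₀) (r • b₀) χ ϑ (s5e_std_mono hStd hXX₁)
    (by rw [Matrix.transpose_smul, hsym]) (by rw [hX₁]; exact s5e_amp_of_s4a hX hχ) (s5e_amp_mono hϑ hXX₁)
    ((one_div_le_one_div_of_le hX0 hXX₁).trans hJ)
  obtain ⟨H, hH⟩ : ∃ H : ℝ, H = wy_qp cW X₁ := ⟨_, rfl⟩
  rw [← hH] at hS
  have hH1 : 1 ≤ H := by rw [hH]; exact s5e_one_le_qp _ _ (hX.trans hXX₁)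
  obtain ⟨X₂, hX₂⟩ : ∃ X₂ : ℝ, X₂ = 3 * H * X := ⟨_, rfl⟩
  have hXX₂ : X ≤ X₂ := by rw [hX₂]; nlinarith
  have hHX₂ : H ≤ X₂ := by rw [hX₂]; nlinarith
  obtain ⟨hproj, hiso, hht⟩ := s5e_splits_s4a hS
  obtain ⟨R, a, hR1, hRD, ha, hexp⟩ := hE ι X₂ C Pf χ (hX.trans hXX₂)
    (hStd.dim.trans (by linarith [Real.log_le_log hX0 hXX₂])) (fun i j => (hStd.height i j).trans hXX₂)
    (fun i j => (hht i j).trans hHX₂) hproj hiso (hχ.mono (by linarith) (by linarith) hXX₂ hXX₂ hXX₂)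
  refine s5e_one_explicit X H (wy_qp cE X₂) (wy_qp c X) C Pf V₀ Lam₀ b₀ χ a₁ r ϑ R a hX hH1 hr hStd.height hϑ hm hS hR1
    hRD ha (by rw [← hX₂]; exact hexp) ?_ hJ
  rw [hX₂, hH, hX₁]
  exact hc X _ hX hStd.dim

end

end Claimed.Agent.R258
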