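/-
Row 258, block [S5e] (architect helper22).  FILE ECore: THE ABSTRACT COUNT OF ACTIVE SCALES (GLUE, proved here from `s5e_one_scale`, `s5e_scale_count`, `s5e_count_num`).

For ONE fixed multivariable chart `(C, V₀, Λ₀, b₀, χ)` in three variables and any family of amplitudes `ϑ_x` (support, size, Lipschitz constant `≤ X`, zero marginal in the variable `a₁`) at
pairwise different dyadic scales `2^{-dep x}`:  the number of `x` with `|∫ ϑ_x(z) Q(2^{-dep x} z) dz| ≥ 1/X` is `≤ (c (1 + log X))^c`.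
-/
import Claimed.Agent.R258.S5.EOne
import Claimed.Agent.R258.S5.EBins

set_option autoImplicit false
open MeasureTheory Matrix

namespace Claimed.Agent.R258

theorem s5e_core (hW : s5e_WeylHyp) (hE : s5e_ExpHyp) :
    ∃ c : ℕ, ∀ (ι : Type) [Fintype ι] [DecidableEq ι] (X : ℝ) (C : Matrix ι ι ℚ) (V₀ : Matrix ι (Fin 3) ℝ)
      (Lam₀ : Matrix (Fin 3) (Fin 3) ℝ) (b₀ : Fin 3 → ℝ) (χ : (ι → ℝ) → ℂ) (a₁ : Fin 3),
      wy_Std X C (Fin 3) → Lam₀ᵀ = Lam₀ → s4a_Amp X X X χ →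
      ∀ (α : Type) (S : Finset α) (dep : α → ℤ) (ϑ : α → (Fin 3 → ℝ) → ℂ), Set.InjOn dep S →
        (∀ x ∈ S, wy_Amp X (ϑ x)) → (∀ x ∈ S, ∀ z, ∫ s : ℝ, ϑ x (Function.update z a₁ s) = 0) →
        (∀ x ∈ S, 1 / X ≤ ‖∫ z, ϑ x z * wy_Q C ((2 : ℝ) ^ (-dep x) • V₀) (((2 : ℝ) ^ (-dep x)) ^ 2 • Lam₀)
          ((2 : ℝ) ^ (-dep x) • b₀) χ z‖) →
        (S.card : ℝ) ≤ ((c : ℝ) * (1 + Real.log X)) ^ c := by
  classical
  obtain ⟨c₁, h₁⟩ := s5e_one_scale hW hE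
  obtain ⟨c, hc⟩ := s5e_count_num c₁
  refine ⟨c, ?_⟩
  intro ι _ _ X C V₀ Lam₀ b₀ χ a₁ hStd hsym hχ α S dep ϑ hinj hϑ hm hJ
  have hX : 1 ≤ X := hStd.one_le
  obtain ⟨Z, hZ⟩ : ∃ Z : ℝ, Z = wy_qp c₁ X := ⟨_, rfl⟩
  have hZ1 : 1 ≤ Z := by rw [hZ]; exact s5e_one_le_qp _ _ hX
  refine le_trans ?_ (hc X (Fintype.card ι) hX hStd.dim)
  rw [← hZ, ← Finset.card_image_of_injOn hinj]
  obtain ⟨S', hS'⟩ : ∃ S' : Finset ℤ, S' = S.image dep := ⟨_, rfl⟩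
  rw [← hS']
  have halt : ∀ n ∈ S', (∃ p q, s5e_Mid (s5e_Th2 V₀ Lam₀ p q) Z (((2 : ℝ) ^ (-n)) ^ 2)) ∨
      s5e_Mid (s5e_Th1 V₀ b₀ a₁) Z (((2 : ℝ) ^ (-n)) ^ 1) := by
    intro n hn
    rw [hS', Finset.mem_image] at hn
    obtain ⟨x, hx, rfl⟩ := hn
    rw [pow_one, hZ]
    exact h₁ ι X C V₀ Lam₀ b₀ χ a₁ _ (ϑ x) hStd hsym hχ (by positivity) (hϑ x hx) (hm x hx) (hJ x hx)
  have hsub : S' ⊆ ((Finset.univ : Finset (Fin 3 × Fin 3)).biUnion fun pq =>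
        S'.filter fun n => s5e_Mid (s5e_Th2 V₀ Lam₀ pq.1 pq.2) Z (((2 : ℝ) ^ (-n)) ^ 2)) ∪
      S'.filter fun n => s5e_Mid (s5e_Th1 V₀ b₀ a₁) Z (((2 : ℝ) ^ (-n)) ^ 1) := by
    intro n hn
    rcases halt n hn with ⟨p, q, h⟩ | h
    · exact Finset.mem_union_left _ (Finset.mem_biUnion.2 ⟨(p, q), Finset.mem_univ _, Finset.mem_filter.2 ⟨hn, h⟩⟩)
    · exact Finset.mem_union_right _ (Finset.mem_filter.2 ⟨hn, h⟩)
  have h2 : ∀ pq : Fin 3 × Fin 3,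
      ((S'.filter fun n => s5e_Mid (s5e_Th2 V₀ Lam₀ pq.1 pq.2) Z (((2 : ℝ) ^ (-n)) ^ 2)).card : ℝ)
        ≤ s5e_N (Fintype.card ι ^ 2 + 1) Z := by
    intro pq
    have := s5e_scale_count (s5e_Th2 V₀ Lam₀ pq.1 pq.2) Z hZ1 2 (by norm_num)
      (S'.filter fun n => s5e_Mid (s5e_Th2 V₀ Lam₀ pq.1 pq.2) Z (((2 : ℝ) ^ (-n)) ^ 2))
      fun n hn => (Finset.mem_filter.1 hn).2
    rwa [Fintype.card_option, Fintype.card_prod, ← sq] at this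
  have h1 : ((S'.filter fun n => s5e_Mid (s5e_Th1 V₀ b₀ a₁) Z (((2 : ℝ) ^ (-n)) ^ 1)).card : ℝ)
      ≤ s5e_N (Fintype.card ι + 1) Z := by
    have := s5e_scale_count (s5e_Th1 V₀ b₀ a₁) Z hZ1 1 le_rfl
      (S'.filter fun n => s5e_Mid (s5e_Th1 V₀ b₀ a₁) Z (((2 : ℝ) ^ (-n)) ^ 1))
      fun n hn => (Finset.mem_filter.1 hn).2
    rwa [Fintype.card_option] at this
  calc (S'.card : ℝ) ≤ ((((Finset.univ : Finset (Fin 3 × Fin 3)).biUnion fun pq =>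
        S'.filter fun n => s5e_Mid (s5e_Th2 V₀ Lam₀ pq.1 pq.2) Z (((2 : ℝ) ^ (-n)) ^ 2)) ∪
      S'.filter fun n => s5e_Mid (s5e_Th1 V₀ b₀ a₁) Z (((2 : ℝ) ^ (-n)) ^ 1)).card : ℝ) := by
        exact_mod_cast Finset.card_le_card hsub
    _ ≤ (∑ pq : Fin 3 × Fin 3,
          ((S'.filter fun n => s5e_Mid (s5e_Th2 V₀ Lam₀ pq.1 pq.2) Z (((2 : ℝ) ^ (-n)) ^ 2)).card : ℝ)) +
        ((S'.filter fun n => s5e_Mid (s5e_Th1 V₀ b₀ a₁) Z (((2 : ℝ) ^ (-n)) ^ 1)).card : ℝ) := by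
        exact_mod_cast (Finset.card_union_le _ _).trans (Nat.add_le_add_right Finset.card_biUnion_le _)
    _ ≤ (∑ _pq : Fin 3 × Fin 3, s5e_N (Fintype.card ι ^ 2 + 1) Z) + s5e_N (Fintype.card ι + 1) Z :=
        add_le_add (Finset.sum_le_sum fun pq _ => h2 pq) h1
    _ = 9 * s5e_N (Fintype.card ι ^ 2 + 1) Z + s5e_N (Fintype.card ι + 1) Z := by
        rw [Finset.sum_const, Finset.card_univ, Fintype.card_prod, Fintype.card_fin, nsmul_eq_mul]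
        norm_num

end Claimed.Agent.R258
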