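/-
Row 258, block [S5e] (architect helper22).  FILE EKer: the amplitude `ϑ_I = s5e_th I w l y₀` of the squared transpose: support, size, Lipschitz constant (uniform in `I`, `w`, `l`, `y₀ ∈ I`) and EXACT ZERO MARGINAL in `z₁`.
Mathlib + `Admissible` (R258/Defs.lean) + CellApi.  No paper.

`ϑ(z) = W(z₀ - l z₁, z₁) conj W(z₀ - l z₂, z₂)`,  `W(a,s) = w(y₀ + r a, r s)`,  `r = I.len`.
PLANS.
* `s5e_w_bdd`: `Admissible.deriv` with `n = 0`: `‖iteratedFDeriv ℝ 0 w p‖ = ‖w p‖` (`norm_iteratedFDeriv_zero`), `(r^0)⁻¹ = 1`, `(C0 (0+2))^(C0 (0+2))`.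
* `s5e_w_lip`: `n = 1`: `‖fderiv ℝ w p‖ = ‖iteratedFDeriv ℝ 1 w p‖ ≤ r⁻¹ (3 C0)^(3 C0)` (`norm_iteratedFDeriv_one`-type lemma / `norm_fderiv_iteratedFDeriv` with `n = 0`), mean value inequality `Convex.norm_image_sub_le_of_norm_fderiv_le` on `Set.univ`;
  the norm of `ℝ × ℝ` is the sup norm.
* `s5e_w_supp`: if `w (y₀ + r a, r s) ≠ 0` and `y₀ ∈ I.set` then for all `j : Fin 4`: `I.left ≤ y₀ + r (a + j s) ≤ I.right` (`Admissible.supp`, `c0 r ≥ 0`), and `I.left ≤ y₀ < I.right = I.left + r` give `-1 ≤ a + j s ≤ 1`.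
* `s5e_th_amp`: `K = max 2 (8 K₀ K₁)`-type constant with `K₀ = (2 C0)^(2 C0)`, `K₁ = (3 C0)^(3 C0)` (real powers).   supp: with `(a,s) = (z₀ - l z₁, z₁)`: `j = l` gives `|z₀| ≤ 1`; `j = 0, 1` give `|s| = |(a+s) - a| ≤ 2`; the same for `z₂`.
  bdd: `K₀²`.   lip: `|x y - x' y'| ≤ |x - x'| |y| + |x'| |y - y'|`; `‖(y₀ + r(z₀ - l z₁), r z₁) - (y₀ + r(z'₀ - l z'₁), r z'₁)‖ ≤ 4 r ‖z - z'‖` (`l ≤ 3`, `norm_le_pi_norm`), times `r⁻¹ K₁`.
* `s5e_th_marg`: `Function.update z 1 s` has the coordinates `z 0, s, z 2` (`Function.update_of_ne`, `Function.update_self`); pull out the constant factor (`integral_mul_const`);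
  `∫ s, w (y₀ + r (z₀ - l s), r s) = r⁻¹ ∫ t, w ((y₀ + r z₀) - l t, t)` (`MeasureTheory.Measure.integral_comp_mul_left`: `∫ g (r s) ds = |r⁻¹| • ∫ g`), `= 0` by `Admissible.marg (y₀ + r z₀) l`.
-/
import Claimed.Agent.R258.Pack012

set_option autoImplicit false
open MeasureTheory Matrix
open scoped ComplexConjugate

namespace Claimed.Agent.R258

theorem s5e_w_bdd {c0 C0 : ℝ} {I : Cell} {w : ℝ × ℝ → ℂ} (h : Admissible c0 C0 I w) (p : ℝ × ℝ) :
    ‖w p‖ ≤ (C0 * 2) ^ (C0 * 2) := by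
  have := h.deriv 0 p
  rw [norm_iteratedFDeriv_zero] at this
  simpa using this

theorem s5e_w_lip {c0 C0 : ℝ} {I : Cell} {w : ℝ × ℝ → ℂ} (h : Admissible c0 C0 I w) (p p' : ℝ × ℝ) :
    ‖w p - w p'‖ ≤ I.len⁻¹ * (C0 * 3) ^ (C0 * 3) * ‖p - p'‖ := by
  have hb : ∀ x ∈ (Set.univ : Set (ℝ × ℝ)), ‖fderiv ℝ w x‖ ≤ I.len⁻¹ * (C0 * 3) ^ (C0 * 3) := by
    intro x _
    have := h.deriv 1 x
    rw [norm_iteratedFDeriv_one] at this
    have e : ((1 : ℕ) : ℝ) + 2 = 3 := by norm_num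
    rw [e, pow_one] at this
    exact this
  exact Convex.norm_image_sub_le_of_norm_fderiv_le
    (fun x _ => (h.smooth.differentiable (by simp)).differentiableAt) hb convex_univ (Set.mem_univ p') (Set.mem_univ p)

theorem s5e_w_supp {c0 C0 : ℝ} (hc0 : 0 < c0) {I : Cell} {w : ℝ × ℝ → ℂ} (h : Admissible c0 C0 I w) {y₀ : ℝ} (hy : y₀ ∈ I.set)
    {a s : ℝ} (hne : w (y₀ + I.len * a, I.len * s) ≠ 0) (j : Fin 4) : |a + (j : ℝ) * s| ≤ 1 := by
  have hr := cell_len_pos I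
  obtain ⟨h1, h2⟩ := h.supp _ hne j
  simp only at h1 h2
  have hR := cell_right_eq I
  have hcr : 0 < c0 * I.len := mul_pos hc0 hr
  have hy1 := hy.1
  have hy2 := hy.2
  have e : y₀ + I.len * a + (j : ℝ) * (I.len * s) = y₀ + I.len * (a + (j : ℝ) * s) := by ring
  rw [e] at h1 h2
  rw [abs_le]
  constructor
  · have : -I.len ≤ I.len * (a + (j : ℝ) * s) := by linarith
    nlinarith
  · have : I.len * (a + (j : ℝ) * s) ≤ I.len := by linarith
    nlinarith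

/-- uniform amplitude bounds -/
theorem s5e_th_amp (c0 C0 : ℝ) (hc0 : 0 < c0) (hC0 : 1 ≤ C0) :
    ∃ K : ℝ, 1 ≤ K ∧ ∀ (I : Cell) (w : ℝ × ℝ → ℂ), Admissible c0 C0 I w → ∀ (l : Fin 4) (y₀ : ℝ), y₀ ∈ I.set →
      wy_Amp K (s5e_th I w l y₀) := by
  obtain ⟨K₀, hK₀⟩ : ∃ K₀ : ℝ, K₀ = (C0 * 2) ^ (C0 * 2) := ⟨_, rfl⟩
  obtain ⟨K₁, hK₁⟩ : ∃ K₁ : ℝ, K₁ = (C0 * 3) ^ (C0 * 3) := ⟨_, rfl⟩
  have hK₀0 : 0 ≤ K₀ := by rw [hK₀]; exact Real.rpow_nonneg (by linarith) _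
  have hK₁0 : 0 ≤ K₁ := by rw [hK₁]; exact Real.rpow_nonneg (by linarith) _
  refine ⟨2 + K₀ ^ 2 + 8 * (K₀ * K₁), by nlinarith [mul_nonneg hK₀0 hK₁0, sq_nonneg K₀], ?_⟩
  intro I w h l y₀ hy
  have hr := cell_len_pos I
  have hKK := mul_nonneg hK₀0 hK₁0
  have hl3 : (l : ℝ) ≤ 3 := by
    have : (l : ℕ) ≤ 3 := by omega
    exact_mod_cast this
  have hl0 : (0 : ℝ) ≤ (l : ℝ) := by positivity
  -- one factor
  have hfac : ∀ (z : Fin 3 → ℝ) (i : Fin 3), w (y₀ + I.len * (z 0 - (l : ℝ) * z i), I.len * z i) ≠ 0 →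
      |z 0| ≤ 1 ∧ |z i| ≤ 2 := by
    intro z i hne
    have h1 := s5e_w_supp hc0 h hy hne l
    have h2 := s5e_w_supp hc0 h hy hne 0
    have h3 := s5e_w_supp hc0 h hy hne 1
    simp only [Fin.val_zero, Fin.val_one, Nat.cast_zero, Nat.cast_one, zero_mul, add_zero, one_mul] at h2 h3
    have e : z 0 - (l : ℝ) * z i + (l : ℝ) * z i = z 0 := by ring
    rw [e] at h1
    refine ⟨h1, ?_⟩
    rw [abs_le] at h2 h3 ⊢
    constructor <;> linarith [h2.1, h2.2, h3.1, h3.2]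
  have hlipf : ∀ (z z' : Fin 3 → ℝ) (i : Fin 3),
      ‖w (y₀ + I.len * (z 0 - (l : ℝ) * z i), I.len * z i) - w (y₀ + I.len * (z' 0 - (l : ℝ) * z' i), I.len * z' i)‖
        ≤ 4 * K₁ * ‖z - z'‖ := by
    intro z z' i
    have h1 := s5e_w_lip h (y₀ + I.len * (z 0 - (l : ℝ) * z i), I.len * z i)
      (y₀ + I.len * (z' 0 - (l : ℝ) * z' i), I.len * z' i)
    rw [← hK₁] at h1
    have d0 : |z 0 - z' 0| ≤ ‖z - z'‖ := by
      have := norm_le_pi_norm (z - z') 0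
      simpa using this
    have di : |z i - z' i| ≤ ‖z - z'‖ := by
      have := norm_le_pi_norm (z - z') i
      simpa using this
    have h2 : ‖((y₀ + I.len * (z 0 - (l : ℝ) * z i), I.len * z i) : ℝ × ℝ)
        - (y₀ + I.len * (z' 0 - (l : ℝ) * z' i), I.len * z' i)‖ ≤ I.len * (4 * ‖z - z'‖) := by
      rw [Prod.norm_def]
      simp only [Prod.fst_sub, Prod.snd_sub, Real.norm_eq_abs]
      refine max_le ?_ ?_
      · have e : y₀ + I.len * (z 0 - (l : ℝ) * z i) - (y₀ + I.len * (z' 0 - (l : ℝ) * z' i))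
            = I.len * ((z 0 - z' 0) - (l : ℝ) * (z i - z' i)) := by ring
        rw [e, abs_mul, abs_of_pos hr]
        refine mul_le_mul_of_nonneg_left ?_ hr.le
        calc |(z 0 - z' 0) - (l : ℝ) * (z i - z' i)| ≤ |z 0 - z' 0| + |(l : ℝ) * (z i - z' i)| := abs_sub _ _
          _ = |z 0 - z' 0| + (l : ℝ) * |z i - z' i| := by rw [abs_mul, abs_of_nonneg hl0]
          _ ≤ ‖z - z'‖ + 3 * ‖z - z'‖ := by
              have := mul_le_mul hl3 di (abs_nonneg _) (by norm_num)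
              linarith
          _ = 4 * ‖z - z'‖ := by ring
      · have e : I.len * z i - I.len * z' i = I.len * (z i - z' i) := by ring
        rw [e, abs_mul, abs_of_pos hr]
        refine mul_le_mul_of_nonneg_left ?_ hr.le
        linarith [norm_nonneg (z - z')]
    calc _ ≤ I.len⁻¹ * K₁ * _ := h1
      _ ≤ I.len⁻¹ * K₁ * (I.len * (4 * ‖z - z'‖)) := mul_le_mul_of_nonneg_left h2 (by positivity)
      _ = 4 * K₁ * ‖z - z'‖ := by field_simp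
  refine ⟨?_, ?_, ?_⟩
  · intro z hz i
    unfold s5e_th at hz
    have h1 := hfac z 1 (left_ne_zero_of_mul hz)
    have h2 := hfac z 2 (fun h0 => right_ne_zero_of_mul hz (by rw [h0, map_zero]))
    have hK2 : (2 : ℝ) ≤ 2 + K₀ ^ 2 + 8 * (K₀ * K₁) := by nlinarith [sq_nonneg K₀]
    fin_cases i
    · exact (h1.1.trans (by norm_num)).trans hK2
    · exact h1.2.trans hK2
    · exact h2.2.trans hK2
  · intro z
    unfold s5e_th
    rw [norm_mul, RCLike.norm_conj]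
    have h1 := s5e_w_bdd h (y₀ + I.len * (z 0 - (l : ℝ) * z 1), I.len * z 1)
    have h2 := s5e_w_bdd h (y₀ + I.len * (z 0 - (l : ℝ) * z 2), I.len * z 2)
    rw [← hK₀] at h1 h2
    have := mul_le_mul h1 h2 (norm_nonneg _) hK₀0
    nlinarith
  · intro z z'
    unfold s5e_th
    obtain ⟨x, hx⟩ : ∃ x, x = w (y₀ + I.len * (z 0 - (l : ℝ) * z 1), I.len * z 1) := ⟨_, rfl⟩
    obtain ⟨y, hy'⟩ : ∃ y, y = w (y₀ + I.len * (z 0 - (l : ℝ) * z 2), I.len * z 2) := ⟨_, rfl⟩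
    obtain ⟨x', hx'⟩ : ∃ x', x' = w (y₀ + I.len * (z' 0 - (l : ℝ) * z' 1), I.len * z' 1) := ⟨_, rfl⟩
    obtain ⟨y', hy''⟩ : ∃ y', y' = w (y₀ + I.len * (z' 0 - (l : ℝ) * z' 2), I.len * z' 2) := ⟨_, rfl⟩
    have l1 := hlipf z z' 1
    have l2 := hlipf z z' 2
    have b1 := s5e_w_bdd h (y₀ + I.len * (z 0 - (l : ℝ) * z 2), I.len * z 2)
    have b2 := s5e_w_bdd h (y₀ + I.len * (z' 0 - (l : ℝ) * z' 1), I.len * z' 1)
    rw [← hK₀] at b1 b2
    rw [← hx, ← hx'] at l1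
    rw [← hy', ← hy''] at l2
    rw [← hy'] at b1
    rw [← hx'] at b2
    rw [← hx, ← hy', ← hx', ← hy'']
    have e : x * conj y - x' * conj y' = (x - x') * conj y + x' * conj (y - y') := by
      rw [map_sub]; ring
    have hn := norm_nonneg (z - z')
    calc ‖x * conj y - x' * conj y'‖ ≤ ‖x - x'‖ * ‖y‖ + ‖x'‖ * ‖y - y'‖ := by
          rw [e]
          refine (norm_add_le _ _).trans ?_
          rw [norm_mul, norm_mul, RCLike.norm_conj, RCLike.norm_conj]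
      _ ≤ (4 * K₁ * ‖z - z'‖) * K₀ + K₀ * (4 * K₁ * ‖z - z'‖) :=
          add_le_add (mul_le_mul l1 b1 (norm_nonneg _) (by positivity)) (mul_le_mul b2 l2 (norm_nonneg _) hK₀0)
      _ = 8 * (K₀ * K₁) * ‖z - z'‖ := by ring
      _ ≤ (2 + K₀ ^ 2 + 8 * (K₀ * K₁)) * ‖z - z'‖ :=
          mul_le_mul_of_nonneg_right (by nlinarith [sq_nonneg K₀]) hn

/-- the exact marginal -/
theorem s5e_th_marg {c0 C0 : ℝ} {I : Cell} {w : ℝ × ℝ → ℂ} (h : Admissible c0 C0 I w) (l : Fin 4) (y₀ : ℝ) (z : Fin 3 → ℝ) :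
    ∫ s : ℝ, s5e_th I w l y₀ (Function.update z 1 s) = 0 := by
  have hr := cell_len_pos I
  have e : ∀ s : ℝ, s5e_th I w l y₀ (Function.update z 1 s)
      = w (y₀ + I.len * z 0 - (l : ℝ) * (I.len * s), I.len * s) * conj (w (y₀ + I.len * (z 0 - (l : ℝ) * z 2), I.len * z 2)) := by
    intro s
    unfold s5e_th
    have e0 : Function.update z 1 s 0 = z 0 := Function.update_of_ne (by decide) _ _
    have e1 : Function.update z 1 s 1 = s := Function.update_self _ _ _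
    have e2 : Function.update z 1 s 2 = z 2 := Function.update_of_ne (by decide) _ _
    rw [e0, e1, e2]
    congr 3
    ring
  simp only [e]
  rw [integral_mul_const]
  have h1 := Measure.integral_comp_mul_left (fun t => w (y₀ + I.len * z 0 - (l : ℝ) * t, t)) I.len
  rw [h.marg (y₀ + I.len * z 0) l, smul_zero] at h1
  rw [h1, zero_mul]

end Claimed.Agent.R258
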