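/-
Row 258, block [S5e] (architect helper22).  FILE ETrans: TRANSPOSITION AND SQUARING:  `δ < 𝒜_I ⟹ δ² ≤ |∫_{ℝ³} ϑ_I(z) Q₆(r z) dz|`.    Measure theory (Fubini, affine changes of variables, Cauchy-Schwarz).  No paper.

`r = I.len`, `y₀` ARBITRARY.   `F(a,s) = w(y₀ + r(a - l s), r s) ∏_{m ≠ l} φ_m(y₀ + r(a + (m-l) s))` (`s5e_F`),   `τ(a) = ∫ F(a,s) ds` (`s5e_tau`).
 (T0) `s5e_F_continuous`, `s5e_F_supp`: `F` is continuous with compact support, and `F(a,s) ≠ 0 ⟹ y₀ + r a ∈ I.set`.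
 (T1) `s5e_form_eq`:   `H_I(φ with g in the slot l) = ∫ g(y₀ + r a) τ(a) da`          [`x = y₀ + r(a - l s)`, `t = r s`, `dx dt = r² da ds`; `x + l t = y₀ + r a`, `x + m t = y₀ + r(a + (m-l)s)`]
 (T2) `s5e_cs`:        `|∫ g(y₀ + r a) τ(a) da|² ≤ (r⁻¹ ∫_I |g|²) ∫ |τ|²`                [Cauchy-Schwarz; `τ(a) = 0` unless `y₀ + r a ∈ I`]
 (T2')`s5e_phys_l2`:   `physFn u ∈ L²`, `r⁻¹ ∫_I |physFn u|² ≤ (n2 I u)²`
 (T3) `s5e_sq_fubini`, `s5e_tau_sq`:  `∫ |τ|² = ∫_{Fin 3 → ℝ} F(z₀,z₁) conj F(z₀,z₂) dz = ∫ ϑ_I(z) Q₆(r z) dz`.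
GLUE (proved here): `s5e_tau_sq`, `s5e_transpose`.

PLANS.
* (T0): `w` is continuous (`Admissible.smooth.continuous`), finite products of continuous functions (`continuous_finsetProd`, `Continuous.if_const`/case split on `m = l`).  Support: `Admissible.supp` at `p = (y₀ + r(a - l s), r s)`: `j = l`:
  `p.1 + l p.2 = y₀ + r a ∈ [I.left + c0 r, I.right - c0 r] ⊆ I.set`; `j = 0, 1`: `|r s| ≤ r`.  So the support lies in the compact set `Icc ((I.left - y₀)/r) ((I.right - y₀)/r) ×ˢ Icc (-1) 1`.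
* (T1): `form` unfolds to `(r²)⁻¹ ∫ p, w p * ∏ j, (update φ l g) j (p.1 + j p.2)`; `∏ j = g (p.1 + l p.2) * ∏ m, if m = l then 1 else φ m (p.1 + m p.2)` (`Finset.prod_update_of_mem`/`Fintype.prod_eq_mul_prod_compl`/`Fin.prod_univ_four` + case split on `l`).
  The integrand `G p` is integrable on `ℝ × ℝ`: bounded by `K₀ 1_{box}(p) |g (p.1 + l p.2)|`; e.g. `|g(v)| ≤ (1 + |g(v)|²)/2` and the shear `(x,t) ↦ (x + l t, t)` is measure preserving.
  Change of variables by iterated integrals: `integral_prod`, swap, `integral_sub_right_eq_self`/`integral_add_right_eq_self` in `x`, swap back, then the two dilations/translation (`Measure.integral_comp_mul_left`, `integral_add_left_eq_self`).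
  (Alternative: `MeasurePreserving.skew_product`, or the linear change of variables `Measure.map_linearMap_addHaar_eq_smul_addHaar`.)
* (T2): `a ↦ g (y₀ + r a)` restricted to `E = {a | y₀ + r a ∈ I.set}` is in `L²`, `τ` is continuous with compact support; Cauchy-Schwarz: `MeasureTheory.integral_mul_le_Lp_mul_Lq` (`p = q = 2`) or `L2.inner`/`norm_inner_le_norm` or the elementary
  `|∫ f h|² ≤ ∫|f|² ∫|h|²` via `∫ |f| |h| ≤ (t ∫|f|² + t⁻¹ ∫|h|²)/2`.   `∫_E |g(y₀ + r a)|² da = r⁻¹ ∫_I |g|²` (`Measure.integral_comp_mul_left`, `integral_add_left_eq_self` applied to the indicator).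
* (T2'): `physFn u y = phys (u y)`, `|phys v| = |v 0| ≤ ‖v‖` (`lp.norm_apply_le_norm`), `u` is `AEStronglyMeasurable`/`MemLp 2` (`Lp.memLp`), `phys` is continuous linear (evaluation of `lp` at the coordinate `0`); `‖restr I.set u‖² = ∫_I ‖u y‖²`
  (`xv_restr_ae` of XV/Restr.lean, `L2.norm_sq_eq_...`/`Lp.norm_def`, `MemLp.eLpNorm_eq_integral_rpow_norm`); `n2 I u = ‖restr I.set u‖ / √r`.   (See also S5/Form.lean `s5f_len_n2_sq`, `s5f_phys_restr`; S8/Atom.lean.)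
* `s5e_sq_fubini`: `‖∫ F a s ds‖² = (∫ F a s ds) conj (∫ F a s' ds') = ∫∫ F a s conj (F a s')` (`integral_conj`, `integral_mul_const`, `integral_const_mul`), then `∫_a ∫_s ∫_{s'} = ∫_{Fin 3 → ℝ}`:
  `MeasureTheory.volume_preserving_piFinSuccAbove (fun _ => ℝ) 0` twice (or with `MeasurableEquiv.piFinTwo`/`volume_preserving_finTwoArrow`), `integral_prod` for the continuous compactly supported function `(a,s,s') ↦ F a s conj (F a s')`.
-/
import Claimed.Agent.R258.Pack012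
import Claimed.Agent.R258.S5.Form
import Claimed.Agent.R258.Pack011

set_option autoImplicit false
open MeasureTheory Matrix
open scoped ComplexConjugate

namespace Claimed.Agent.R258

/-! ### general lemmas -/

/-- affine change of variables on the line -/
theorem s5e_int_affine {E : Type*} [NormedAddCommGroup E] [NormedSpace ℝ E] (H : ℝ → E) (y₀ r : ℝ) (hr : 0 < r) :
    ∫ a, H (y₀ + r * a) = r⁻¹ • ∫ u, H u := by
  have h1 := Measure.integral_comp_mul_left (fun x => H (y₀ + x)) r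
  rw [h1, abs_of_pos (inv_pos.2 hr), integral_add_left_eq_self]

/-- Cauchy-Schwarz -/
theorem s5e_cs_gen {α : Type*} [MeasurableSpace α] {μ : Measure α} {f h : α → ℂ} (hf : MemLp f 2 μ) (hh : MemLp h 2 μ) :
    ‖∫ a, f a * h a ∂μ‖ ^ 2 ≤ (∫ a, ‖f a‖ ^ 2 ∂μ) * ∫ a, ‖h a‖ ^ 2 ∂μ := by
  have h1 : ‖∫ a, f a * h a ∂μ‖ ≤ ∫ a, ‖f a‖ * ‖h a‖ ∂μ := by
    refine (norm_integral_le_integral_norm _).trans (le_of_eq ?_)
    simp only [norm_mul]
  have h2 := integral_mul_le_Lp_mul_Lq_of_nonneg Real.HolderConjugate.two_two (μ := μ) (f := fun a => ‖f a‖)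
    (g := fun a => ‖h a‖) (Filter.Eventually.of_forall fun a => norm_nonneg _)
    (Filter.Eventually.of_forall fun a => norm_nonneg _) (by simpa using hf.norm) (by simpa using hh.norm)
  simp only [Real.rpow_two] at h2
  obtain ⟨A, hA⟩ : ∃ A : ℝ, A = ∫ a, ‖f a‖ ^ 2 ∂μ := ⟨_, rfl⟩
  obtain ⟨B, hB⟩ : ∃ B : ℝ, B = ∫ a, ‖h a‖ ^ 2 ∂μ := ⟨_, rfl⟩
  rw [← hA, ← hB] at h2 ⊢
  have hA0 : 0 ≤ A := by rw [hA]; exact integral_nonneg fun a => by positivity
  have hB0 : 0 ≤ B := by rw [hB]; exact integral_nonneg fun a => by positivity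
  have h3 : (A ^ (1 / 2 : ℝ) * B ^ (1 / 2 : ℝ)) ^ 2 = A * B := by
    rw [mul_pow, ← Real.sqrt_eq_rpow, ← Real.sqrt_eq_rpow, Real.sq_sqrt hA0, Real.sq_sqrt hB0]
  calc ‖∫ a, f a * h a ∂μ‖ ^ 2 ≤ (A ^ (1 / 2 : ℝ) * B ^ (1 / 2 : ℝ)) ^ 2 := pow_le_pow_left₀ (norm_nonneg _) (h1.trans h2) 2
    _ = A * B := h3

/-- a compactly supported function on `ℝ × ℝ` vanishes off a square -/
theorem s5e_cc_box {F : ℝ → ℝ → ℂ} (hs : HasCompactSupport (Function.uncurry F)) :
    ∃ B : ℝ, 0 ≤ B ∧ ∀ a s, F a s ≠ 0 → |a| ≤ B ∧ |s| ≤ B := by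
  obtain ⟨B, hB⟩ := hs.isCompact.isBounded.subset_closedBall (0 : ℝ × ℝ)
  refine ⟨max B 0, le_max_right _ _, fun a s hne => ?_⟩
  have hmem : (a, s) ∈ tsupport (Function.uncurry F) := subset_tsupport _ (by simpa [Function.uncurry] using hne)
  have h1 := hB hmem
  rw [mem_closedBall_zero_iff, Prod.norm_def] at h1
  exact ⟨((le_max_left _ _).trans h1).trans (le_max_left _ _), ((le_max_right _ _).trans h1).trans (le_max_left _ _)⟩

/-- `L²` in the first variable times `C_c(ℝ²)` is integrable -/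
theorem s5e_integrable_mul_cc {g : ℝ → ℂ} (hg : MemLp g 2 volume) {F : ℝ → ℝ → ℂ} (hc : Continuous (Function.uncurry F))
    (hs : HasCompactSupport (Function.uncurry F)) :
    Integrable (fun p : ℝ × ℝ => g p.1 * F p.1 p.2) ((volume : Measure ℝ).prod (volume : Measure ℝ)) := by
  obtain ⟨M, hM⟩ := hc.bounded_above_of_compact_support hs
  obtain ⟨B, hB0, hB⟩ := s5e_cc_box hs
  have hM0 : 0 ≤ M := (norm_nonneg _).trans (hM (0, 0))
  have i1 : Integrable ((Set.Icc (-B) B).indicator fun u => ‖g u‖) volume := by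
    rw [integrable_indicator_iff measurableSet_Icc]
    have h1 : MemLp g 1 (volume.restrict (Set.Icc (-B) B)) := (hg.restrict _).mono_exponent (by norm_num)
    exact (memLp_one_iff_integrable.1 h1).norm
  have i2 : Integrable ((Set.Icc (-B) B).indicator fun _ : ℝ => M) volume := by
    rw [integrable_indicator_iff measurableSet_Icc]
    exact integrableOn_const (by simp)
  refine (i1.mul_prod i2).mono' (hg.1.comp_fst.mul hc.aestronglyMeasurable) (Filter.Eventually.of_forall fun p => ?_)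
  by_cases hp : F p.1 p.2 = 0
  · rw [hp, mul_zero, norm_zero]
    exact mul_nonneg (Set.indicator_nonneg (fun _ _ => norm_nonneg _) _) (Set.indicator_nonneg (fun _ _ => hM0) _)
  · obtain ⟨h1, h2⟩ := hB _ _ hp
    have m1 : p.1 ∈ Set.Icc (-B) B := abs_le.1 h1
    have m2 : p.2 ∈ Set.Icc (-B) B := abs_le.1 h2
    rw [Set.indicator_of_mem m1, Set.indicator_of_mem m2, norm_mul]
    exact mul_le_mul_of_nonneg_left (hM p) (norm_nonneg _)

/-- the shear `(u,t) ↦ (u - c t, t)` -/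
def s5e_shear (c : ℝ) : ℝ × ℝ ≃ᵐ ℝ × ℝ where
  toEquiv :=
    { toFun := fun p => (p.1 - c * p.2, p.2)
      invFun := fun p => (p.1 + c * p.2, p.2)
      left_inv := fun p => by simp
      right_inv := fun p => by simp }
  measurable_toFun := by
    show Measurable fun p : ℝ × ℝ => (p.1 - c * p.2, p.2)
    fun_prop
  measurable_invFun := by
    show Measurable fun p : ℝ × ℝ => (p.1 + c * p.2, p.2)
    fun_prop

theorem s5e_shear_mp (c : ℝ) : MeasurePreserving (s5e_shear c) (volume : Measure (ℝ × ℝ)) volume := by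
  have h1 : MeasurePreserving (fun p : ℝ × ℝ => (p.1, p.2 - c * p.1))
      ((volume : Measure ℝ).prod volume) (volume.prod volume) :=
    (MeasurePreserving.id volume).skew_product (g := fun t x => x - c * t) (by fun_prop)
      (Filter.Eventually.of_forall fun t => map_sub_right_eq_self volume (c * t))
  have h3 : MeasurePreserving Prod.swap ((volume : Measure ℝ).prod (volume : Measure ℝ)) (volume.prod volume) :=
    Measure.measurePreserving_swap
  exact h3.comp (h1.comp h3)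

theorem s5e_prod_update (φ : Fin 4 → ℝ → ℂ) (l : Fin 4) (g : ℝ → ℂ) (x : Fin 4 → ℝ) :
    ∏ j, Function.update φ l g j (x j) = g (x l) * ∏ m, if m = l then 1 else φ m (x m) := by
  have h1 : ∀ j, Function.update φ l g j (x j) = (if j = l then g (x l) else 1) * (if j = l then 1 else φ j (x j)) := by
    intro j
    by_cases hj : j = l
    · subst hj; simp
    · simp [hj]
  simp only [h1]
  rw [Finset.prod_mul_distrib, Finset.prod_ite_eq']
  simp

/-- the integrand of the normalised transpose -/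
noncomputable def s5e_F (I : Cell) (w : ℝ × ℝ → ℂ) (l : Fin 4) (φ : Fin 4 → ℝ → ℂ) (y₀ a s : ℝ) : ℂ :=
  w (y₀ + I.len * (a - (l : ℝ) * s), I.len * s) *
    ∏ m : Fin 4, if m = l then 1 else φ m (y₀ + I.len * (a + ((m : ℝ) - (l : ℝ)) * s))

/-- the normalised transpose -/
noncomputable def s5e_tau (I : Cell) (w : ℝ × ℝ → ℂ) (l : Fin 4) (φ : Fin 4 → ℝ → ℂ) (y₀ a : ℝ) : ℂ :=
  ∫ s : ℝ, s5e_F I w l φ y₀ a s

section
variable {c0 C0 : ℝ} {I : Cell} {w : ℝ × ℝ → ℂ} (l : Fin 4) (φ : Fin 4 → ℝ → ℂ) (y₀ : ℝ)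

theorem s5e_F_continuous (h : Admissible c0 C0 I w) (hc : ∀ m, m ≠ l → Continuous (φ m)) :
    Continuous (Function.uncurry (s5e_F I w l φ y₀)) := by
  have hw : Continuous w := h.smooth.continuous
  show Continuous fun p : ℝ × ℝ => s5e_F I w l φ y₀ p.1 p.2
  unfold s5e_F
  refine (hw.comp (by fun_prop)).mul (continuous_finsetProd _ fun m _ => ?_)
  by_cases hm : m = l
  · simp only [hm, if_true]; exact continuous_const
  · simp only [hm, if_false]; exact (hc m hm).comp (by fun_prop)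

theorem s5e_F_supp (hc0 : 0 < c0) (h : Admissible c0 C0 I w) {a s : ℝ} (hne : s5e_F I w l φ y₀ a s ≠ 0) :
    y₀ + I.len * a ∈ I.set ∧ |s| ≤ 1 := by
  have hr := cell_len_pos I
  have hw : w (y₀ + I.len * (a - (l : ℝ) * s), I.len * s) ≠ 0 := by
    intro h0
    apply hne
    unfold s5e_F
    rw [h0, zero_mul]
  have hsup := h.supp _ hw
  have hR := cell_right_eq I
  have hcr : 0 < c0 * I.len := mul_pos hc0 hr
  constructor
  · obtain ⟨h1, h2⟩ := hsup l
    simp only at h1 h2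
    have e : y₀ + I.len * (a - (l : ℝ) * s) + (l : ℝ) * (I.len * s) = y₀ + I.len * a := by ring
    rw [e] at h1 h2
    exact ⟨by linarith, by linarith⟩
  · obtain ⟨h1, h2⟩ := hsup 0
    obtain ⟨h3, h4⟩ := hsup 1
    simp only [Fin.val_zero, Fin.val_one, Nat.cast_zero, Nat.cast_one, zero_mul, add_zero, one_mul] at h1 h2 h3 h4
    rw [abs_le]
    constructor
    · have : -I.len ≤ I.len * s := by linarith
      nlinarith
    · have : I.len * s ≤ I.len := by linarith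
      nlinarith

theorem s5e_F_compact (hc0 : 0 < c0) (h : Admissible c0 C0 I w) : HasCompactSupport (Function.uncurry (s5e_F I w l φ y₀)) := by
  have hr := cell_len_pos I
  refine HasCompactSupport.intro
    (K := Set.Icc ((I.left - y₀) / I.len) ((I.right - y₀) / I.len) ×ˢ Set.Icc (-1 : ℝ) 1) (isCompact_Icc.prod isCompact_Icc) ?_
  rintro ⟨a, s⟩ hp
  by_contra hne
  obtain ⟨h1, h2⟩ := s5e_F_supp l φ y₀ hc0 h (a := a) (s := s) hne
  apply hp
  refine ⟨⟨?_, ?_⟩, abs_le.1 h2⟩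
  · rw [div_le_iff₀ hr]; have := h1.1; simp only; linarith
  · rw [le_div_iff₀ hr]; have := h1.2.le; simp only; linarith

theorem s5e_tau_supp (hc0 : 0 < c0) (h : Admissible c0 C0 I w) {a : ℝ} (hne : s5e_tau I w l φ y₀ a ≠ 0) :
    y₀ + I.len * a ∈ I.set := by
  by_contra hn
  apply hne
  unfold s5e_tau
  refine (integral_congr_ae (Filter.Eventually.of_forall fun s => ?_)).trans (integral_zero _ _)
  by_contra h0
  exact hn (s5e_F_supp l φ y₀ hc0 h h0).1

theorem s5e_tau_continuous (hc0 : 0 < c0) (h : Admissible c0 C0 I w) (hc : ∀ m, m ≠ l → Continuous (φ m)) :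
    Continuous (s5e_tau I w l φ y₀) := by
  have h1 : s5e_tau I w l φ y₀ = fun a => ∫ s in Set.Icc (-1 : ℝ) 1, s5e_F I w l φ y₀ a s := by
    funext a
    unfold s5e_tau
    refine (setIntegral_eq_integral_of_forall_compl_eq_zero fun s hs => ?_).symm
    by_contra h0
    exact hs (abs_le.1 (s5e_F_supp l φ y₀ hc0 h h0).2)
  rw [h1]
  exact continuous_parametric_integral_of_continuous (s5e_F_continuous l φ y₀ h hc) isCompact_Icc

/-- (T1) -/
theorem s5e_form_eq (hc0 : 0 < c0) (h : Admissible c0 C0 I w) (hc : ∀ m, m ≠ l → Continuous (φ m)) (g : ℝ → ℂ)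
    (hg : MemLp g 2 volume) :
    form I w (Function.update φ l g) = ∫ a : ℝ, g (y₀ + I.len * a) * s5e_tau I w l φ y₀ a := by
  have hr := cell_len_pos I
  obtain ⟨Ft, hFt⟩ : ∃ Ft : ℝ → ℝ → ℂ, Ft = fun u t => s5e_F I w l φ y₀ ((u - y₀) / I.len) (t / I.len) := ⟨_, rfl⟩
  have hFtc : Continuous (Function.uncurry Ft) := by
    rw [hFt]
    exact (s5e_F_continuous l φ y₀ h hc).comp
      (show Continuous fun p : ℝ × ℝ => ((p.1 - y₀) / I.len, p.2 / I.len) by fun_prop)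
  have hFts : HasCompactSupport (Function.uncurry Ft) := by
    refine HasCompactSupport.intro (K := Set.Icc I.left I.right ×ˢ Set.Icc (-I.len) I.len)
      (isCompact_Icc.prod isCompact_Icc) ?_
    rintro ⟨u, t⟩ hp
    by_contra hne
    rw [hFt] at hne
    obtain ⟨h1, h2⟩ := s5e_F_supp l φ y₀ hc0 h (a := (u - y₀) / I.len) (s := t / I.len) hne
    have e : y₀ + I.len * ((u - y₀) / I.len) = u := by field_simp; ring
    rw [e] at h1
    rw [abs_div, abs_of_pos hr, div_le_one hr] at h2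
    exact hp ⟨⟨h1.1, h1.2.le⟩, abs_le.1 h2⟩
  have hFt' : ∀ u t, Ft u t = w (u - (l : ℝ) * t, t) * ∏ m : Fin 4, if m = l then 1 else φ m (u + ((m : ℝ) - (l : ℝ)) * t) := by
    intro u t
    rw [hFt]
    unfold s5e_F
    have e1 : y₀ + I.len * ((u - y₀) / I.len - (l : ℝ) * (t / I.len)) = u - (l : ℝ) * t := by field_simp; ring
    have e2 : I.len * (t / I.len) = t := by field_simp
    have e3 : ∀ m : Fin 4, y₀ + I.len * ((u - y₀) / I.len + ((m : ℝ) - (l : ℝ)) * (t / I.len)) = u + ((m : ℝ) - (l : ℝ)) * t := by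
      intro m; field_simp; ring
    simp only [e1, e2, e3]
  have hFa : ∀ a s, Ft (y₀ + I.len * a) (I.len * s) = s5e_F I w l φ y₀ a s := by
    intro a s
    rw [hFt]
    have e1 : (y₀ + I.len * a - y₀) / I.len = a := by field_simp; ring
    have e2 : I.len * s / I.len = s := by field_simp
    simp only [e1, e2]
  have hK : Integrable (fun p : ℝ × ℝ => g p.1 * Ft p.1 p.2) ((volume : Measure ℝ).prod volume) :=
    s5e_integrable_mul_cc hg hFtc hFts
  have hL : ∫ p : ℝ × ℝ, w p * ∏ j : Fin 4, Function.update φ l g j (p.1 + (j : ℝ) * p.2)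
      = ∫ p : ℝ × ℝ, g p.1 * Ft p.1 p.2 := by
    rw [← (s5e_shear_mp (l : ℝ)).integral_comp' (fun p : ℝ × ℝ => w p * ∏ j : Fin 4, Function.update φ l g j (p.1 + (j : ℝ) * p.2))]
    refine integral_congr_ae (Filter.Eventually.of_forall fun p => ?_)
    show w (p.1 - (l : ℝ) * p.2, p.2) * ∏ j : Fin 4, Function.update φ l g j (p.1 - (l : ℝ) * p.2 + (j : ℝ) * p.2)
      = g p.1 * Ft p.1 p.2
    rw [hFt', s5e_prod_update φ l g (fun j => p.1 - (l : ℝ) * p.2 + (j : ℝ) * p.2)]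
    have e1 : p.1 - (l : ℝ) * p.2 + (l : ℝ) * p.2 = p.1 := by ring
    have e2 : ∀ m : Fin 4, p.1 - (l : ℝ) * p.2 + (m : ℝ) * p.2 = p.1 + ((m : ℝ) - (l : ℝ)) * p.2 := fun m => by ring
    simp only [e1, e2]
    ring
  have hT : ∀ a, s5e_tau I w l φ y₀ a = I.len⁻¹ • ∫ t, Ft (y₀ + I.len * a) t := by
    intro a
    unfold s5e_tau
    have := Measure.integral_comp_mul_left (fun t => Ft (y₀ + I.len * a) t) I.len
    rw [abs_of_pos (inv_pos.2 hr)] at this
    rw [← this]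
    exact integral_congr_ae (Filter.Eventually.of_forall fun s => (hFa a s).symm)
  have hR : ∫ a : ℝ, g (y₀ + I.len * a) * s5e_tau I w l φ y₀ a
      = I.len⁻¹ • ∫ u, g u * (I.len⁻¹ • ∫ t, Ft u t) := by
    rw [← s5e_int_affine (fun u => g u * (I.len⁻¹ • ∫ t, Ft u t)) y₀ I.len hr]
    exact integral_congr_ae (Filter.Eventually.of_forall fun a => by simp only [hT a])
  have hP : ∫ p : ℝ × ℝ, g p.1 * Ft p.1 p.2 = ∫ u, ∫ t, g u * Ft u t := integral_prod _ hK
  unfold form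
  rw [hL, hP, hR]
  have e5 : ∀ u, g u * (I.len⁻¹ • ∫ t, Ft u t) = I.len⁻¹ • ∫ t, g u * Ft u t := by
    intro u
    rw [integral_const_mul, mul_smul_comm]
  simp only [e5]
  rw [integral_smul, smul_smul, Complex.real_smul]
  congr 2
  rw [sq, mul_inv]

/-- (T2) -/
theorem s5e_cs (hc0 : 0 < c0) (h : Admissible c0 C0 I w) (hc : ∀ m, m ≠ l → Continuous (φ m)) (g : ℝ → ℂ)
    (hg : MemLp g 2 volume) :
    ‖∫ a : ℝ, g (y₀ + I.len * a) * s5e_tau I w l φ y₀ a‖ ^ 2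
      ≤ (I.len⁻¹ * ∫ y in I.set, ‖g y‖ ^ 2) * ∫ a : ℝ, ‖s5e_tau I w l φ y₀ a‖ ^ 2 := by
  have hr := cell_len_pos I
  obtain ⟨r, hrr⟩ : ∃ r : ℝ, r = I.len := ⟨_, rfl⟩
  rw [← hrr] at hr ⊢
  obtain ⟨k, hk⟩ : ∃ k : ℝ → ℂ, k = fun u => s5e_tau I w l φ y₀ ((u - y₀) / r) := ⟨_, rfl⟩
  have hkc : Continuous k := by
    rw [hk]; exact (s5e_tau_continuous l φ y₀ hc0 h hc).comp (by fun_prop)
  have hka : ∀ a, k (y₀ + r * a) = s5e_tau I w l φ y₀ a := by
    intro a
    rw [hk]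
    have : (y₀ + r * a - y₀) / r = a := by field_simp; ring
    simp only [this]
  have hks : ∀ u, k u ≠ 0 → u ∈ I.set := by
    intro u hu
    rw [hk] at hu
    have := s5e_tau_supp l φ y₀ hc0 h hu
    rw [← hrr] at this
    have e : y₀ + r * ((u - y₀) / r) = u := by field_simp; ring
    rwa [e] at this
  have hkcs : HasCompactSupport k := by
    refine HasCompactSupport.intro (K := Set.Icc I.left I.right) isCompact_Icc fun u hu => ?_
    by_contra hne
    exact hu ⟨(hks u hne).1, (hks u hne).2.le⟩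
  have hkm : MemLp k 2 volume := hkc.memLp_of_hasCompactSupport hkcs
  have hIm : MeasurableSet I.set := measurableSet_Ico
  have hgI : MemLp (I.set.indicator g) 2 volume := hg.indicator hIm
  have e1 : ∫ a, g (y₀ + r * a) * s5e_tau I w l φ y₀ a = r⁻¹ • ∫ u, I.set.indicator g u * k u := by
    rw [← s5e_int_affine (fun u => I.set.indicator g u * k u) y₀ r hr]
    refine integral_congr_ae (Filter.Eventually.of_forall fun a => ?_)
    simp only
    rw [hka]
    by_cases ha : y₀ + r * a ∈ I.set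
    · rw [Set.indicator_of_mem ha]
    · have : s5e_tau I w l φ y₀ a = 0 := by
        by_contra hne
        exact ha (hrr ▸ s5e_tau_supp l φ y₀ hc0 h hne)
      rw [this, mul_zero, mul_zero]
  have e2 : ∫ a, ‖s5e_tau I w l φ y₀ a‖ ^ 2 = r⁻¹ * ∫ u, ‖k u‖ ^ 2 := by
    have := s5e_int_affine (fun u => ‖k u‖ ^ 2) y₀ r hr
    simp only [hka, smul_eq_mul] at this
    exact this
  have e3 : ∫ u, ‖I.set.indicator g u‖ ^ 2 = ∫ y in I.set, ‖g y‖ ^ 2 := by
    rw [← integral_indicator hIm]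
    refine integral_congr_ae (Filter.Eventually.of_forall fun u => ?_)
    by_cases hu : u ∈ I.set
    · simp only [Set.indicator_of_mem hu]
    · simp only [Set.indicator_of_notMem hu, norm_zero]; norm_num
  have hcs := s5e_cs_gen hgI hkm
  rw [e3] at hcs
  rw [e1, e2, norm_smul, mul_pow, Real.norm_of_nonneg (inv_nonneg.2 hr.le)]
  have hr2 : 0 ≤ (r⁻¹) ^ 2 := by positivity
  calc r⁻¹ ^ 2 * ‖∫ u, I.set.indicator g u * k u‖ ^ 2 ≤ r⁻¹ ^ 2 * ((∫ y in I.set, ‖g y‖ ^ 2) * ∫ u, ‖k u‖ ^ 2) :=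
        mul_le_mul_of_nonneg_left hcs hr2
    _ = _ := by ring

end

/-- (T2') -/
theorem s5e_phys_l2 (I : Cell) (u : XV) :
    MemLp (physFn u) 2 volume ∧ I.len⁻¹ * ∫ y in I.set, ‖physFn u y‖ ^ 2 ≤ n2 I u ^ 2 := by
  refine ⟨xv_physFn_memLp u, ?_⟩
  have hr := cell_len_pos I
  have hIm : MeasurableSet I.set := measurableSet_Ico
  have h1 : n2 I u ^ 2 = I.len⁻¹ * ∫ y in I.set, ‖(u : ℝ → HV) y‖ ^ 2 := by
    unfold n2
    rw [div_pow, Real.sq_sqrt hr.le, xv_normsq_restr hIm, div_eq_inv_mul]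
  rw [h1]
  refine mul_le_mul_of_nonneg_left ?_ (inv_nonneg.2 hr.le)
  refine integral_mono_of_nonneg (Filter.Eventually.of_forall fun y => by positivity) (xv_integrable_normsq u).integrableOn
    (Filter.Eventually.of_forall fun y => ?_)
  exact pow_le_pow_left₀ (norm_nonneg _) (xv_physFn_norm_le u y) 2

/-- (T3), general form -/
theorem s5e_sq_fubini (F : ℝ → ℝ → ℂ) (hc : Continuous (Function.uncurry F)) (hs : HasCompactSupport (Function.uncurry F)) :
    ((∫ a : ℝ, ‖∫ s : ℝ, F a s‖ ^ 2 : ℝ) : ℂ) = ∫ z : Fin 3 → ℝ, F (z 0) (z 1) * conj (F (z 0) (z 2)) := by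
  obtain ⟨B, hB0, hB⟩ := s5e_cc_box hs
  obtain ⟨Φ, hΦ⟩ : ∃ Φ : (Fin 3 → ℝ) → ℂ, Φ = fun z => F (z 0) (z 1) * conj (F (z 0) (z 2)) := ⟨_, rfl⟩
  have hΦc : Continuous Φ := by
    have h1 : Continuous fun z : Fin 3 → ℝ => Function.uncurry F (z 0, z 1) := hc.comp (by fun_prop)
    have h2 : Continuous fun z : Fin 3 → ℝ => Function.uncurry F (z 0, z 2) := hc.comp (by fun_prop)
    rw [hΦ]
    exact h1.mul (Complex.continuous_conj.comp h2)
  have hΦs : HasCompactSupport Φ := by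
    refine HasCompactSupport.intro (K := Set.Icc (fun _ => -B) (fun _ => B)) isCompact_Icc fun z hz => ?_
    by_contra hne
    rw [hΦ] at hne
    have h1 : F (z 0) (z 1) ≠ 0 := left_ne_zero_of_mul hne
    have h2 : F (z 0) (z 2) ≠ 0 := fun h0 => (right_ne_zero_of_mul hne) (by rw [h0, map_zero])
    obtain ⟨a1, a2⟩ := hB _ _ h1
    obtain ⟨_, a3⟩ := hB _ _ h2
    have hall : ∀ i : Fin 3, |z i| ≤ B := by
      intro i
      fin_cases i
      · exact a1
      · exact a2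
      · exact a3
    exact hz ⟨fun i => (abs_le.1 (hall i)).1, fun i => (abs_le.1 (hall i)).2⟩
  have hΦi : Integrable Φ := hΦc.integrable_of_hasCompactSupport hΦs
  have hmp' := (volume_preserving_piFinSuccAbove (fun _ : Fin 3 => ℝ) 0).symm
    (MeasurableEquiv.piFinSuccAbove (fun _ : Fin 3 => ℝ) 0)
  have hint : Integrable (fun p : ℝ × (Fin 2 → ℝ) => Φ ((MeasurableEquiv.piFinSuccAbove (fun _ : Fin 3 => ℝ) 0).symm p))
      (volume.prod volume) :=
    (hmp'.integrable_comp_emb (MeasurableEquiv.measurableEmbedding _)).2 hΦi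
  have e1 : ∫ z, Φ z = ∫ a : ℝ, ∫ y : Fin 2 → ℝ, Φ ((MeasurableEquiv.piFinSuccAbove (fun _ : Fin 3 => ℝ) 0).symm (a, y)) := by
    rw [← hmp'.integral_comp' Φ]
    exact integral_prod _ hint
  have hin : ∀ a : ℝ, ∫ y : Fin 2 → ℝ, Φ ((MeasurableEquiv.piFinSuccAbove (fun _ : Fin 3 => ℝ) 0).symm (a, y))
      = ((‖∫ s, F a s‖ ^ 2 : ℝ) : ℂ) := by
    intro a
    have e2 := (volume_preserving_finTwoArrow ℝ).symm (MeasurableEquiv.finTwoArrow (α := ℝ))
    rw [← e2.integral_comp' (fun y : Fin 2 → ℝ => Φ ((MeasurableEquiv.piFinSuccAbove (fun _ : Fin 3 => ℝ) 0).symm (a, y)))]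
    have e3 : ∀ q : ℝ × ℝ, Φ ((MeasurableEquiv.piFinSuccAbove (fun _ : Fin 3 => ℝ) 0).symm
        (a, (MeasurableEquiv.finTwoArrow (α := ℝ)).symm q)) = F a q.1 * conj (F a q.2) := by
      intro q
      rw [hΦ]
      rfl
    simp only [e3]
    have e4 := integral_prod_mul (μ := (volume : Measure ℝ)) (ν := (volume : Measure ℝ)) (fun s => F a s) (fun s => conj (F a s))
    refine e4.trans ?_
    rw [integral_conj, Complex.mul_conj, Complex.normSq_eq_norm_sq]
  rw [← hΦ, e1]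
  simp only [hin]
  exact (integral_ofReal (𝕜 := ℂ) (f := fun a : ℝ => ‖∫ s, F a s‖ ^ 2)).symm

/-- pointwise identity of the integrands -/
theorem s5e_F_mul_conj (I : Cell) (w : ℝ × ℝ → ℂ) (l : Fin 4) (φ : Fin 4 → ℝ → ℂ) (y₀ : ℝ) (z : Fin 3 → ℝ) :
    s5e_F I w l φ y₀ (z 0) (z 1) * conj (s5e_F I w l φ y₀ (z 0) (z 2)) = s5e_th I w l y₀ z * s5e_Q6 l φ y₀ (I.len • z) := by
  unfold s5e_F s5e_th s5e_Q6
  rw [map_mul, map_prod]
  have e : ∀ x y x' y' : ℂ, x * y * (x' * y') = x * x' * (y * y') := fun x y x' y' => by ring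
  rw [e, ← Finset.prod_mul_distrib]
  congr 1
  refine Finset.prod_congr rfl fun m _ => ?_
  by_cases hm : m = l
  · simp [hm]
  · simp only [hm, if_false, Pi.smul_apply, smul_eq_mul]
    congr 3 <;> ring

/-- (T3) -/
theorem s5e_tau_sq {c0 C0 : ℝ} {I : Cell} {w : ℝ × ℝ → ℂ} (l : Fin 4) (φ : Fin 4 → ℝ → ℂ) (y₀ : ℝ) (hc0 : 0 < c0)
    (h : Admissible c0 C0 I w) (hc : ∀ m, m ≠ l → Continuous (φ m)) :
    ((∫ a : ℝ, ‖s5e_tau I w l φ y₀ a‖ ^ 2 : ℝ) : ℂ) = ∫ z : Fin 3 → ℝ, s5e_th I w l y₀ z * s5e_Q6 l φ y₀ (I.len • z) := by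
  have := s5e_sq_fubini (s5e_F I w l φ y₀) (s5e_F_continuous l φ y₀ h hc) (s5e_F_compact l φ y₀ hc0 h)
  unfold s5e_tau
  rw [this]
  exact integral_congr_ae (Filter.Eventually.of_forall fun z => s5e_F_mul_conj I w l φ y₀ z)

/-- **Transposition and squaring.** -/
theorem s5e_transpose {c0 C0 : ℝ} (hc0 : 0 < c0) {I : Cell} {w : ℝ × ℝ → ℂ} (h : Admissible c0 C0 I w) (l : Fin 4)
    (φ : Fin 4 → ℝ → ℂ) (hc : ∀ m, m ≠ l → Continuous (φ m)) (y₀ δ : ℝ) (hδ : 0 ≤ δ) (hlt : δ < tripNorm I w l φ) :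
    δ ^ 2 ≤ ‖∫ z : Fin 3 → ℝ, s5e_th I w l y₀ z * s5e_Q6 l φ y₀ (I.len • z)‖ := by
  -- a witness
  have hne : {x : ℝ | ∃ u : XV, n2 I u ≤ 1 ∧ x = ‖form I w (Function.update φ l (physFn u))‖}.Nonempty :=
    ⟨_, 0, by simp [n2], rfl⟩
  obtain ⟨x, ⟨u, hu, rfl⟩, hx⟩ := exists_lt_of_lt_csSup hne hlt
  obtain ⟨hg, hg2⟩ := s5e_phys_l2 I u
  rw [s5e_form_eq l φ y₀ hc0 h hc _ hg] at hx
  have hcs := s5e_cs l φ y₀ hc0 h hc _ hg
  have hT0 : 0 ≤ ∫ a : ℝ, ‖s5e_tau I w l φ y₀ a‖ ^ 2 := integral_nonneg fun a => by positivity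
  have hn : n2 I u ^ 2 ≤ 1 := by
    have := s5f_n2_nonneg I u
    nlinarith
  rw [← s5e_tau_sq l φ y₀ hc0 h hc, Complex.norm_real, Real.norm_of_nonneg hT0]
  calc δ ^ 2 ≤ ‖∫ a : ℝ, physFn u (y₀ + I.len * a) * s5e_tau I w l φ y₀ a‖ ^ 2 :=
        pow_le_pow_left₀ hδ hx.le 2
    _ ≤ (I.len⁻¹ * ∫ y in I.set, ‖physFn u y‖ ^ 2) * ∫ a : ℝ, ‖s5e_tau I w l φ y₀ a‖ ^ 2 := hcs
    _ ≤ 1 * ∫ a : ℝ, ‖s5e_tau I w l φ y₀ a‖ ^ 2 := mul_le_mul_of_nonneg_right (hg2.trans hn) hT0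
    _ = _ := one_mul _

end Claimed.Agent.R258
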