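/-
Row 258, block [S5e] (architect helper22).  FILE EMain: ASSEMBLY OF LEMMA 5.7 (GLUE, proved here) from
  `s5e_core` (ECore), `s5e_six`, `s5e_prod_*` (EChart), `s5e_th_amp`, `s5e_th_marg` (EKer), `s5e_transpose` (ETrans), `s5e_final_num`, `s5e_bands` (ENum), `s4b_eval_continuous` (S4b/Atomize).
-/
import Claimed.Agent.R258.S5.ECore
import Claimed.Agent.R258.S5.EChart
import Claimed.Agent.R258.S5.EKer
import Claimed.Agent.R258.S5.ETrans

set_option autoImplicit false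
open MeasureTheory Matrix

namespace Claimed.Agent.R258

theorem s5e_plog_nonneg (C x : ℝ) (hC : 0 ≤ C) (hx : 0 ≤ x) : 0 ≤ plog C x := by
  unfold plog
  exact Real.rpow_nonneg (by positivity) _

/-- first assertion of Lemma 5.7 -/
theorem s5e_active_of (hW : s5e_WeylHyp) (hE : s5e_ExpHyp) (c0 C0 : ℝ) (hc0 : 0 < c0) (hC0 : 1 ≤ C0) :
    ∃ C : ℝ, 1 ≤ C ∧ ∀ (l : Fin 4) (φ : Fin 4 → Chart) (D δ : ℝ),
      (∀ m, m ≠ l → (φ m).Cplx D ∧ (φ m).Bdd) → 0 < δ → δ ≤ 1 →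
      ∀ (A : Finset Cell) (w : Cell → ℝ × ℝ → ℂ), (∀ I ∈ A, Admissible c0 C0 I (w I)) →
        (∀ I ∈ A, ∀ I' ∈ A, I ≤ I' ∨ I' ≤ I) →
        (∀ I ∈ A, δ < tripNorm I (w I) l fun m => (φ m).eval) →
        (A.card : ℝ) ≤ plog C (Real.log D + Real.log (1 / δ)) := by
  obtain ⟨c, hcore⟩ := s5e_core hW hE
  obtain ⟨c₆, h6⟩ := s5e_six
  obtain ⟨K, hK1, hK⟩ := s5e_th_amp c0 C0 hc0 hC0
  obtain ⟨Cf, hCf1, hCf⟩ := s5e_final_num c c₆ K hK1
  refine ⟨Cf, hCf1, ?_⟩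
  intro l φ D δ hφ hδ0 hδ1 A w hadm hchain hact
  obtain ⟨m₀, hm₀⟩ : ∃ m : Fin 4, m ≠ l := exists_ne l
  have hD : Real.exp 2 ≤ D := (hφ m₀ hm₀).1.H_ge
  have hD1 : 1 ≤ D := le_trans (Real.one_le_exp (by norm_num)) hD
  rcases A.eq_empty_or_nonempty with rfl | hne
  · simp only [Finset.card_empty, Nat.cast_zero]
    refine s5e_plog_nonneg _ _ (by linarith) (add_nonneg (Real.log_nonneg hD1) (Real.log_nonneg ?_))
    rw [le_div_iff₀ hδ0]; linarith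
  -- the smallest cell and the path point
  obtain ⟨I₀, hI₀, hmax⟩ := Finset.exists_max_image A Cell.depth hne
  have hle : ∀ I ∈ A, I₀ ≤ I := by
    intro I hI
    rcases hchain I₀ hI₀ I hI with h | h
    · exact h
    · exact (cell_eq_of_le_of_depth h (hmax I hI)).ge
  obtain ⟨y₀, hy₀⟩ : ∃ y₀ : ℝ, y₀ = I₀.left := ⟨_, rfl⟩
  have hy : ∀ I ∈ A, y₀ ∈ I.set := fun I hI => cell_set_subset (hle I hI) (hy₀ ▸ cell_left_mem I₀)
  have hinj : Set.InjOn Cell.depth (A : Set Cell) := by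
    intro I hI I' hI' hd
    rcases hchain I hI I' hI' with h | h
    · exact cell_eq_of_le_of_depth h hd.le
    · exact (cell_eq_of_le_of_depth h hd.ge).symm
  -- the chart
  obtain ⟨a, ha, hQ⟩ := h6 l φ D y₀ (fun m hm => (hφ m hm).1) hD
  obtain ⟨H, hH⟩ : ∃ H : ℝ, H = wy_qp c₆ D := ⟨_, rfl⟩
  rw [← hH] at ha
  have hH1 : 1 ≤ H := by rw [hH]; exact wy_one_le_qp _ hD1
  obtain ⟨X, hX⟩ : ∃ X : ℝ, X = s5e_X K H δ := ⟨_, rfl⟩
  have hδ2 : 0 < 1 / δ ^ 2 := by positivity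
  have hH80 : 0 < 8 * H ^ 80 := by positivity
  have he2 : 0 < Real.exp 2 := Real.exp_pos _
  have hXK : K ≤ X := by rw [hX]; unfold s5e_X; linarith
  have hXδ : 1 / δ ^ 2 ≤ X := by rw [hX]; unfold s5e_X; linarith
  have hXH : 8 * H ^ 80 ≤ X := by rw [hX]; unfold s5e_X; linarith
  have hXe : Real.exp 2 ≤ X := by rw [hX]; unfold s5e_X; linarith
  have hX0 : 0 < X := lt_of_lt_of_le he2 hXe
  have hpow : ∀ n : ℕ, n ≤ 80 → H ^ n ≤ X := by
    intro n hn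
    have : H ^ n ≤ H ^ 80 := pow_le_pow_right₀ hH1 hn
    have h0 : 0 ≤ H ^ 80 := by positivity
    linarith
  have hlogX : (2 : ℝ) ≤ Real.log X := by
    rw [Real.le_log_iff_exp_le hX0]; exact hXe
  have hStd : wy_Std X (s5e_pC a) (Fin 3) := by
    refine s5e_prod_std a H X ha hH1 ?_ (by simpa using hpow 1 (by norm_num)) ?_
    · simpa using hpow 8 (by norm_num)
    · simp only [Fintype.card_fin]
      push_cast
      linarith
  have hAmp : s4a_Amp X X X (s5e_pchi a) := by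
    refine (s5e_prod_amp a H ha).mono (by positivity) (by positivity) (by simpa using hpow 1 (by norm_num)) ?_ ?_
    · simp only [Fintype.card_prod, Fintype.card_fin, Fintype.card_bool]
      have : H ^ 10 ≤ H ^ 80 := pow_le_pow_right₀ hH1 (by norm_num)
      push_cast
      linarith
    · simpa using hpow 80 le_rfl
  have hcont : ∀ m, m ≠ l → Continuous ((fun m => (φ m).eval) m) := fun m hm => s4b_eval_continuous (hφ m hm).1
  have hunit := s5e_prod_unit a H ha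
  have hmain := hcore (s5e_pI a) X (s5e_pC a) (s5e_pV a (s5e_L6 l)) (s5e_pLam a (s5e_L6 l)) (s5e_pb a (s5e_L6 l))
    (s5e_pchi a) 1 hStd (s5e_pLam_symm a _) hAmp Cell A Cell.depth (fun I => s5e_th I (w I) l y₀) hinj
    (fun I hI => s5e_amp_mono (hK I (w I) (hadm I hI) l y₀ (hy I hI)) hXK)
    (fun I hI z => s5e_th_marg (hadm I hI) l y₀ z)
    (by
      intro I hI
      have h1 := s5e_transpose hc0 (hadm I hI) l (fun m => (φ m).eval) hcont y₀ δ hδ0.le (hact I hI)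
      have h2 : ∫ z : Fin 3 → ℝ, s5e_th I (w I) l y₀ z * s5e_Q6 l (fun m => (φ m).eval) y₀ (I.len • z)
          = (∏ p, (a p).unit) * ∫ z : Fin 3 → ℝ, s5e_th I (w I) l y₀ z *
              wy_Q (s5e_pC a) ((2 : ℝ) ^ (-I.depth) • s5e_pV a (s5e_L6 l)) (((2 : ℝ) ^ (-I.depth)) ^ 2 • s5e_pLam a (s5e_L6 l))
                ((2 : ℝ) ^ (-I.depth) • s5e_pb a (s5e_L6 l)) (s5e_pchi a) z := by
        rw [← integral_const_mul]
        refine integral_congr_ae (Filter.Eventually.of_forall fun z => ?_)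
        simp only
        rw [hQ, s5e_prod_eval a _ H ha, s5e_wyQ_scale]
        unfold Cell.len
        ring
      rw [h2, norm_mul, hunit, one_mul] at h1
      refine le_trans ?_ h1
      rw [div_le_iff₀ hX0]
      have : 1 / δ ^ 2 * δ ^ 2 = 1 := by field_simp
      nlinarith [sq_nonneg δ])
  refine hmain.trans ?_
  rw [hX, hH]
  exact hCf D δ hD hδ0 hδ1

/-- second assertion of Lemma 5.7 -/
theorem s5e_small_of (c0 C0 : ℝ)
    (hact : ∃ C : ℝ, 1 ≤ C ∧ ∀ (l : Fin 4) (φ : Fin 4 → Chart) (D δ : ℝ),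
      (∀ m, m ≠ l → (φ m).Cplx D ∧ (φ m).Bdd) → 0 < δ → δ ≤ 1 →
      ∀ (A : Finset Cell) (w : Cell → ℝ × ℝ → ℂ), (∀ I ∈ A, Admissible c0 C0 I (w I)) →
        (∀ I ∈ A, ∀ I' ∈ A, I ≤ I' ∨ I' ≤ I) →
        (∀ I ∈ A, δ < tripNorm I (w I) l fun m => (φ m).eval) →
        (A.card : ℝ) ≤ plog C (Real.log D + Real.log (1 / δ))) :
    ∃ C : ℝ, 1 ≤ C ∧ ∀ (l : Fin 4) (φ : Fin 4 → Chart) (D δ : ℝ),
      (∀ m, m ≠ l → (φ m).Cplx D ∧ (φ m).Bdd) → 0 < δ → δ ≤ 1 →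
      ∀ (A : Finset Cell) (w : Cell → ℝ × ℝ → ℂ), (∀ I ∈ A, Admissible c0 C0 I (w I)) →
        (∀ I ∈ A, ∀ I' ∈ A, I ≤ I' ∨ I' ≤ I) →
        (∀ I ∈ A, tripNorm I (w I) l (fun m => (φ m).eval) ≤ δ) →
        ∑ I ∈ A, tripNorm I (w I) l (fun m => (φ m).eval) ≤ δ * plog C (Real.log D + Real.log (1 / δ)) := by
  obtain ⟨C, hC1, hC⟩ := hact
  obtain ⟨C', hC'1, hC'⟩ := s5e_bands C hC1
  refine ⟨C', hC'1, ?_⟩
  intro l φ D δ hφ hδ0 hδ1 A w hadm hchain hsmall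
  obtain ⟨m₀, hm₀⟩ : ∃ m : Fin 4, m ≠ l := exists_ne l
  have hD : Real.exp 2 ≤ D := (hφ m₀ hm₀).1.H_ge
  have hD1 : 1 ≤ D := le_trans (Real.one_le_exp (by norm_num)) hD
  have hx : 0 ≤ Real.log D + Real.log (1 / δ) := by
    refine add_nonneg (Real.log_nonneg hD1) (Real.log_nonneg ?_)
    rw [le_div_iff₀ hδ0]; linarith
  refine hC' _ δ hx hδ0 Cell A (fun I => tripNorm I (w I) l fun m => (φ m).eval)
    (fun I hI => ⟨s5f_tripNorm_nonneg _ _ _ _, hsmall I hI⟩) ?_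
  intro n
  have h2 : (0 : ℝ) < 2 ^ (n + 1) := by positivity
  have h21 : (1 : ℝ) ≤ 2 ^ (n + 1) := one_le_pow₀ (by norm_num)
  have hδn0 : 0 < δ / 2 ^ (n + 1) := by positivity
  have hδn1 : δ / 2 ^ (n + 1) ≤ 1 := by
    rw [div_le_one h2]; linarith
  have := hC l φ D (δ / 2 ^ (n + 1)) hφ hδn0 hδn1
    (A.filter fun I => δ / 2 ^ (n + 1) < tripNorm I (w I) l fun m => (φ m).eval) w
    (fun I hI => hadm I (Finset.mem_filter.1 hI).1)
    (fun I hI I' hI' => hchain I (Finset.mem_filter.1 hI).1 I' (Finset.mem_filter.1 hI').1)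
    (fun I hI => (Finset.mem_filter.1 hI).2)
  refine this.trans (le_of_eq ?_)
  congr 1
  have e1 : 1 / (δ / 2 ^ (n + 1)) = 1 / δ * 2 ^ (n + 1) := by field_simp
  rw [e1, Real.log_mul (by positivity) (by positivity), Real.log_pow]
  push_cast
  ring

end Claimed.Agent.R258
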