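/-
Row 258, Sec. 5.5 (base.tex, `lem:active-triple`), BLOCK [S5e].   EXPORT consumed by the assembly of Prop. 5.8 (consumer: helper182).

Three bounded chart atoms of complexity `≤ D` in the three slots `≠ l`; `tripNorm I w l φ = 𝒜_I` is the norm of their form against a normalized
`L²(I)` input in the slot `l`.  Along every chain of cells (a spatial path) the number of cells with `𝒜_I > δ` is polylogarithmic in `D, 1/δ`,
uniformly in the unrestricted parameters `λ, β, θ`, in the location of the path and in the admissible kernels (which may vary with `I`).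

PROOF (paper): square the transpose (variables `(h,t,t')/r`, six atoms = one multivariable chart, recentred at a path point), Lemma 4.3 (weyl, k = 3) at
frequency `0`, Lemma 4.4 (chart expansion, truncated), Lemma 3.5 (height bins) for the intermediate scales, and the exact marginal
`∫ w_I(y+h-lt,t) dt = 0` for tiny `t`-frequencies / smoothness for large ones.
The second assertion of the lemma (`s5e_small_sum`) follows from the first by dyadic bands (do it here too).
Files S5/E*.lean, prefix `s5e_`.   ASSEMBLED (helper22): EMain (glue) + EHyp (adapters to `wy_weyl`, `s4a_expand`); the open leaves are the sorries of S5/E*.lean.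
-/
import Claimed.Agent.R258.S5.EMain
import Claimed.Agent.R258.S5.EHyp

set_option autoImplicit false
open MeasureTheory

namespace Claimed.Agent.R258

theorem s5e_active_count (c0 C0 : ℝ) (hc0 : 0 < c0) (hC0 : 1 ≤ C0) :
    ∃ C : ℝ, 1 ≤ C ∧ ∀ (l : Fin 4) (φ : Fin 4 → Chart) (D δ : ℝ),
      (∀ m, m ≠ l → (φ m).Cplx D ∧ (φ m).Bdd) → 0 < δ → δ ≤ 1 →
      ∀ (A : Finset Cell) (w : Cell → ℝ × ℝ → ℂ), (∀ I ∈ A, Admissible c0 C0 I (w I)) →
        (∀ I ∈ A, ∀ I' ∈ A, I ≤ I' ∨ I' ≤ I) →
        (∀ I ∈ A, δ < tripNorm I (w I) l fun m => (φ m).eval) →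
        (A.card : ℝ) ≤ plog C (Real.log D + Real.log (1 / δ)) :=
  s5e_active_of s5e_weylHyp s5e_expHyp c0 C0 hc0 hC0

theorem s5e_small_sum (c0 C0 : ℝ) (hc0 : 0 < c0) (hC0 : 1 ≤ C0) :
    ∃ C : ℝ, 1 ≤ C ∧ ∀ (l : Fin 4) (φ : Fin 4 → Chart) (D δ : ℝ),
      (∀ m, m ≠ l → (φ m).Cplx D ∧ (φ m).Bdd) → 0 < δ → δ ≤ 1 →
      ∀ (A : Finset Cell) (w : Cell → ℝ × ℝ → ℂ), (∀ I ∈ A, Admissible c0 C0 I (w I)) →
        (∀ I ∈ A, ∀ I' ∈ A, I ≤ I' ∨ I' ≤ I) →
        (∀ I ∈ A, tripNorm I (w I) l (fun m => (φ m).eval) ≤ δ) →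
        ∑ I ∈ A, tripNorm I (w I) l (fun m => (φ m).eval) ≤ δ * plog C (Real.log D + Real.log (1 / δ)) :=
  s5e_small_of c0 C0 (s5e_active_count c0 C0 hc0 hC0)

end Claimed.Agent.R258
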