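/-
Row 258, Sec. 5.5, LEAF P-S5-ACTIVE (architect helper182).   ACTIVE AND INACTIVE CELLS (first two paragraphs of the proof of Prop. 5.8), from `s5e_active_count`, `s5e_small_sum`.

`mm l` = the inherited family of ALL basic columns of the slot `l` (budget `D`).  A cell is ACTIVE (`ActiveAt`) if some triple of available columns in three slots has transpose norm `> δ₀`.
(i)  `s5v_mult`: a chain of active cells has at most `4 D³ plog` members      [all witnesses are available at the bottom cell of the chain: `≤ 4 D³` witnesses; `s5e_active_count` for each];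
(ii) `s5v_inactive`: three arguments expanded into their columns (coefficients bounded by `Γ`), the fourth of local size `≤ s`:
      `∑_{I inactive} |I| |H_I| ≤ Γ³ s D³ δ₀ plog |R|`
      [at one cell: multilinearity + `s5f_tripNorm`: `|H_I| ≤ Γ³ s ∑_{triples available at I} 𝒜_I(triple)`; along a chain: the triples are available at the bottom cell, `s5e_small_sum` for each;
       chains → length-weighted sums: `cell_chain_bound` (CellApi/Pack.lean)].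
Cardinalities: `#(mm l I) ≤ D` by `Bud.count` (with `A = mm l I`, `Inh.birth`).
Fill the sorries IN PLACE; auxiliary lemmas with prefix `s5v_`.
-/
import Claimed.Agent.R258.S5.Roll
import Claimed.Agent.R258.S5.ActiveCount
import Claimed.Agent.R258.CellApi.Pack

set_option autoImplicit false
open MeasureTheory

namespace Claimed.Agent.R258

/-- some triple of available columns in the three slots `≠ l` has transpose norm `> δ₀` -/
def ActiveAt (w : Cell → ℝ × ℝ → ℂ) (mm : Fin 4 → Cell → Finset Col) (δ₀ : ℝ) (I : Cell) : Prop :=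
  ∃ (l : Fin 4) (Φ : Fin 4 → Col), (∀ m, m ≠ l → Φ m ∈ mm m I) ∧ δ₀ < tripNorm I (w I) l fun m => (Φ m).phi

/-! ### auxiliary lemmas -/

/-- `plog` with an even natural constant is nonnegative for ALL arguments -/
theorem s5v_plog_even_nonneg (n : ℕ) (x : ℝ) : 0 ≤ plog ((2 * n : ℕ) : ℝ) x := by
  unfold plog
  rw [Real.rpow_natCast]
  exact (even_two_mul n).pow_nonneg _

theorem s5v_plog_mono_C {C C' x : ℝ} (hC : 1 ≤ C) (hCC : C ≤ C') (hx : 0 ≤ x) : plog C x ≤ plog C' x := by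
  unfold plog
  have h1 : 1 ≤ C' * (1 + x) := by nlinarith
  have h2 : 0 ≤ C * (1 + x) := by nlinarith
  calc (C * (1 + x)) ^ C ≤ (C' * (1 + x)) ^ C :=
        Real.rpow_le_rpow h2 (mul_le_mul_of_nonneg_right hCC (by linarith)) (by linarith)
    _ ≤ (C' * (1 + x)) ^ C' := Real.rpow_le_rpow_of_exponent_le h1 hCC

theorem s5v_ceil_ge {C : ℝ} (hC : 1 ≤ C) : 1 ≤ ((2 * ⌈C⌉₊ : ℕ) : ℝ) ∧ C ≤ ((2 * ⌈C⌉₊ : ℕ) : ℝ) := by
  have h := Nat.le_ceil C
  push_cast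
  constructor <;> linarith

/-- `𝒜_I` does not depend on the function in the slot `l` -/
theorem s5v_tripNorm_congr (I : Cell) (w : ℝ × ℝ → ℂ) (l : Fin 4) (φ φ' : Fin 4 → ℝ → ℂ)
    (h : ∀ m, m ≠ l → φ m = φ' m) : tripNorm I w l φ = tripNorm I w l φ' := by
  unfold tripNorm
  have hu : ∀ u : ℝ → ℂ, Function.update φ l u = Function.update φ' l u := by
    intro u
    funext m
    by_cases hm : m = l
    · subst hm; simp
    · rw [Function.update_of_ne hm, Function.update_of_ne hm, h m hm]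
  simp only [hu]

open Classical in
/-- the triples of columns available in the slots `≠ l` (the slot `l` carries the dummy `Φ₀`) -/
noncomputable def s5vW (mI : Fin 4 → Finset Col) (l : Fin 4) (Φ₀ : Col) : Finset (Fin 4 → Col) :=
  Fintype.piFinset fun m => if m = l then {Φ₀} else mI m

theorem s5v_mem_W {mI : Fin 4 → Finset Col} {l : Fin 4} {Φ₀ : Col} {Φ : Fin 4 → Col} :
    Φ ∈ s5vW mI l Φ₀ ↔ Φ l = Φ₀ ∧ ∀ m, m ≠ l → Φ m ∈ mI m := by
  unfold s5vW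
  rw [Fintype.mem_piFinset]
  constructor
  · intro h
    refine ⟨by simpa using h l, fun m hm => by simpa [hm] using h m⟩
  · rintro ⟨h1, h2⟩ m
    by_cases hm : m = l
    · subst hm; simp [h1]
    · simpa [hm] using h2 m hm

/-- a product over the four slots with a trivial factor in the slot `l` -/
theorem s5v_prod_le (l : Fin 4) (x : Fin 4 → ℝ) (D : ℝ) (hl : x l = 1) (h0 : ∀ m, 0 ≤ x m) (h : ∀ m, m ≠ l → x m ≤ D) :
    ∏ m, x m ≤ D ^ 3 := by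
  rw [← Finset.mul_prod_erase Finset.univ x (Finset.mem_univ l), hl, one_mul]
  calc ∏ m ∈ Finset.univ.erase l, x m ≤ ∏ _m ∈ Finset.univ.erase l, D :=
        Finset.prod_le_prod (fun m _ => h0 m) fun m hm => h m (Finset.ne_of_mem_erase hm)
    _ = D ^ 3 := by
        rw [Finset.prod_const, Finset.card_erase_of_mem (Finset.mem_univ l), Finset.card_univ, Fintype.card_fin]

theorem s5v_card_W (mI : Fin 4 → Finset Col) (l : Fin 4) (Φ₀ : Col) (D : ℝ) (h : ∀ m, ((mI m).card : ℝ) ≤ D) :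
    ((s5vW mI l Φ₀).card : ℝ) ≤ D ^ 3 := by
  classical
  unfold s5vW
  rw [Fintype.card_piFinset, Nat.cast_prod]
  refine s5v_prod_le l _ D (by simp) (fun m => Nat.cast_nonneg _) fun m hm => ?_
  simpa [hm] using h m

theorem s5v_W_mono {mI mI' : Fin 4 → Finset Col} (h : ∀ m, mI m ⊆ mI' m) (l : Fin 4) (Φ₀ : Col) :
    s5vW mI l Φ₀ ⊆ s5vW mI' l Φ₀ := by
  intro Φ hΦ
  rw [s5v_mem_W] at hΦ ⊢
  exact ⟨hΦ.1, fun m hm => h m (hΦ.2 m hm)⟩

theorem s5v_exists_ne (l : Fin 4) : ∃ m : Fin 4, m ≠ l := by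
  by_cases h : l = 0
  · exact ⟨1, by rw [h]; decide⟩
  · exact ⟨0, fun h' => h h'.symm⟩

theorem s5v_card_le {R : Cell} {m : Cell → Finset Col} {ch : ℕ → Chart} {D : ℝ} (hi : Inh R m) (h : Bud R m ch D)
    {I : Cell} (hI : I ≤ R) : ((m I).card : ℝ) ≤ D :=
  h.count I hI (m I) fun Φ hΦ => ⟨⟨I, hI, hΦ⟩, hi.birth I Φ hΦ⟩

theorem s5v_D_nonneg {R : Cell} {m : Cell → Finset Col} {ch : ℕ → Chart} {D : ℝ} (h : Bud R m ch D) : 0 ≤ D := by
  simpa using h.count R le_rfl ∅ (by simp)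

/-- the argument of `plog` is nonnegative as soon as one column exists -/
theorem s5v_arg_nonneg {a : Chart} {D δ₀ : ℝ} (h : a.Cplx D) (hδ : 0 < δ₀) (hδ1 : δ₀ ≤ 1) :
    0 ≤ Real.log D + Real.log (1 / δ₀) := by
  have h1 : 1 ≤ D := le_trans (Real.one_le_exp (by norm_num : (0:ℝ) ≤ 2)) h.H_ge
  have h2 : 1 ≤ 1 / δ₀ := by rw [le_div_iff₀ hδ]; simpa using hδ1
  exact add_nonneg (Real.log_nonneg h1) (Real.log_nonneg h2)

/-- a finite nonempty chain of cells has a bottom cell -/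
theorem s5v_exists_bot {A : Finset Cell} (hne : A.Nonempty) (hch : ∀ I ∈ A, ∀ I' ∈ A, I ≤ I' ∨ I' ≤ I) :
    ∃ I₀ ∈ A, ∀ I ∈ A, I₀ ≤ I := by
  obtain ⟨I₀, hI₀⟩ := A.exists_minimal hne
  refine ⟨I₀, hI₀.1, fun I hI => ?_⟩
  rcases hch I₀ hI₀.1 I hI with h | h
  · exact h
  · exact hI₀.2 hI h

theorem s5v_mult (c0 C0 : ℝ) (hc0 : 0 < c0) (hC0 : 1 ≤ C0) :
    ∃ C : ℝ, 1 ≤ C ∧ ∀ (R : Cell) (mm : Fin 4 → Cell → Finset Col) (ch : ℕ → Chart) (D δ₀ : ℝ),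
      (∀ l, Inh R (mm l)) → (∀ l, Bud R (mm l) ch D) → 0 < δ₀ → δ₀ ≤ 1 →
      ∀ (A : Finset Cell) (w : Cell → ℝ × ℝ → ℂ), (∀ I ∈ A, I ≤ R ∧ Admissible c0 C0 I (w I)) →
        (∀ I ∈ A, ∀ I' ∈ A, I ≤ I' ∨ I' ≤ I) → (∀ I ∈ A, ActiveAt w mm δ₀ I) →
        (A.card : ℝ) ≤ 4 * D ^ 3 * plog C (Real.log D + Real.log (1 / δ₀)) := by
  classical
  obtain ⟨C₁, hC₁, H⟩ := s5e_active_count c0 C0 hc0 hC0
  refine ⟨((2 * ⌈C₁⌉₊ : ℕ) : ℝ), (s5v_ceil_ge hC₁).1, ?_⟩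
  intro R mm ch D δ₀ hInh hBud hδ hδ1 A w hA hchain hact
  have hD0 : 0 ≤ D := s5v_D_nonneg (hBud 0)
  have hP0 := s5v_plog_even_nonneg ⌈C₁⌉₊ (Real.log D + Real.log (1 / δ₀))
  rcases A.eq_empty_or_nonempty with rfl | hne
  · simp only [Finset.card_empty, Nat.cast_zero]
    positivity
  obtain ⟨I₀, hI₀, hmin⟩ := s5v_exists_bot hne hchain
  set Φ₀ : Col := ⟨0, R, fun _ => 0, 0⟩ with hΦ₀
  set P : ℝ := plog ((2 * ⌈C₁⌉₊ : ℕ) : ℝ) (Real.log D + Real.log (1 / δ₀)) with hP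
  set W : Fin 4 → Finset (Fin 4 → Col) := fun l => s5vW (fun m => mm m I₀) l Φ₀ with hW
  set AA : Fin 4 → (Fin 4 → Col) → Finset Cell :=
    fun l Φ => A.filter fun I => δ₀ < tripNorm I (w I) l fun m => (Φ m).phi with hAA
  have hcard : ∀ l, ∀ Φ ∈ W l, ((AA l Φ).card : ℝ) ≤ P := by
    intro l Φ hΦ
    rw [hW, s5v_mem_W] at hΦ
    obtain ⟨m₀, hm₀⟩ := s5v_exists_ne l
    have hx := s5v_arg_nonneg ((hBud m₀).cplx I₀ (Φ m₀) (hΦ.2 m₀ hm₀)) hδ hδ1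
    refine le_trans ?_ (s5v_plog_mono_C hC₁ (s5v_ceil_ge hC₁).2 hx)
    refine H l (fun m => ch (Φ m).lab) D δ₀
      (fun m hm => ⟨(hBud m).cplx I₀ (Φ m) (hΦ.2 m hm), (hBud m).bdd I₀ (Φ m) (hΦ.2 m hm)⟩) hδ hδ1 (AA l Φ) w
      (fun I hI => (hA I (Finset.mem_filter.1 hI).1).2)
      (fun I hI I' hI' => hchain I (Finset.mem_filter.1 hI).1 I' (Finset.mem_filter.1 hI').1) ?_
    intro I hI
    rw [s5v_tripNorm_congr I (w I) l (fun m => (ch (Φ m).lab).eval) (fun m => (Φ m).phi)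
      (fun m hm => ((hBud m).chart I₀ (Φ m) (hΦ.2 m hm)).symm)]
    exact (Finset.mem_filter.1 hI).2
  have hsub : A ⊆ Finset.univ.biUnion fun l => (W l).biUnion fun Φ => AA l Φ := by
    intro I hI
    obtain ⟨l, Φ, hΦ, hlt⟩ := hact I hI
    rw [Finset.mem_biUnion]
    refine ⟨l, Finset.mem_univ l, ?_⟩
    rw [Finset.mem_biUnion]
    refine ⟨Function.update Φ l Φ₀, ?_, ?_⟩
    · rw [hW, s5v_mem_W]
      refine ⟨by simp, fun m hm => ?_⟩
      rw [Function.update_of_ne hm]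
      exact (hInh m).mono I I₀ (hA I hI).1 (hmin I hI) (hΦ m hm)
    · rw [hAA, Finset.mem_filter]
      refine ⟨hI, ?_⟩
      rw [s5v_tripNorm_congr I (w I) l (fun m => (Function.update Φ l Φ₀ m).phi) (fun m => (Φ m).phi)
        (fun m hm => by rw [Function.update_of_ne hm])]
      exact hlt
  have h1 : A.card ≤ ∑ l, ∑ Φ ∈ W l, (AA l Φ).card :=
    (Finset.card_le_card hsub).trans (Finset.card_biUnion_le.trans
      (Finset.sum_le_sum fun l _ => Finset.card_biUnion_le))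
  have h2 : (A.card : ℝ) ≤ ∑ l, ∑ Φ ∈ W l, ((AA l Φ).card : ℝ) := by exact_mod_cast h1
  have h3 : ∀ l : Fin 4, ∑ Φ ∈ W l, ((AA l Φ).card : ℝ) ≤ D ^ 3 * P := by
    intro l
    calc ∑ Φ ∈ W l, ((AA l Φ).card : ℝ) ≤ ∑ _Φ ∈ W l, P := Finset.sum_le_sum (hcard l)
      _ = ((W l).card : ℝ) * P := by rw [Finset.sum_const, nsmul_eq_mul]
      _ ≤ D ^ 3 * P := mul_le_mul_of_nonneg_right
          (s5v_card_W _ l Φ₀ D fun m => s5v_card_le (hInh m) (hBud m) (hA I₀ hI₀).1) hP0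
  calc (A.card : ℝ) ≤ ∑ l : Fin 4, ∑ Φ ∈ W l, ((AA l Φ).card : ℝ) := h2
    _ ≤ ∑ _l : Fin 4, D ^ 3 * P := Finset.sum_le_sum fun l _ => h3 l
    _ = 4 * D ^ 3 * P := by
        rw [Finset.sum_const, Finset.card_univ, Fintype.card_fin, nsmul_eq_mul]; push_cast; ring

/-- one cell: multilinear expansion into triples of columns -/
theorem s5v_cell_bound (c0 C0 : ℝ) (hc0 : 0 < c0) (hC0 : 1 ≤ C0) (I : Cell) (w : ℝ × ℝ → ℂ) (h : Admissible c0 C0 I w)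
    (l : Fin 4) (mI : Fin 4 → Finset Col) (hmeas : ∀ m, ∀ Φ ∈ mI m, Measurable Φ.phi)
    (hbdd : ∀ m, ∀ Φ ∈ mI m, ∀ y, ‖Φ.phi y‖ ≤ 1) (c : Fin 4 → Col → ℂ) (Γ s : ℝ) (hΓ : 0 ≤ Γ)
    (hc : ∀ m Φ, ‖c m Φ‖ ≤ Γ) (zl : XV) (hz : n2 I zl ≤ s) (Φ₀ : Col) :
    ‖formV I w (fun m => if m = l then zl else ∑ Φ ∈ mI m, c m Φ • Φ.vec I)‖
      ≤ Γ ^ 3 * s * ∑ Φ ∈ s5vW mI l Φ₀, tripNorm I w l (fun m => (Φ m).phi) := by
  classical
  obtain ⟨M, hM⟩ := s5f_multilinear c0 C0 hc0 I w h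
  have e1 : (fun m => if m = l then zl else ∑ Φ ∈ mI m, c m Φ • Φ.vec I)
      = fun m => ∑ Φ ∈ (if m = l then {Φ₀} else mI m),
          (if m = l then (1 : ℂ) else c m Φ) • (if m = l then zl else Φ.vec I) := by
    funext m
    by_cases hm : m = l
    · simp [hm]
    · simp [hm]
  rw [← hM, e1, MultilinearMap.map_sum_finset]
  refine (norm_sum_le _ _).trans ?_
  rw [Finset.mul_sum]
  refine Finset.sum_le_sum fun Φ hΦ => ?_
  have hΦ' := s5v_mem_W.1 hΦ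
  rw [MultilinearMap.map_smul_univ, norm_smul, norm_prod]
  have hp : ∏ m, ‖(if m = l then (1 : ℂ) else c m (Φ m))‖ ≤ Γ ^ 3 :=
    s5v_prod_le l _ Γ (by simp) (fun m => norm_nonneg _) (fun m hm => by simpa [hm] using hc m (Φ m))
  have hf : ‖M (fun m => if m = l then zl else (Φ m).vec I)‖ ≤ tripNorm I w l (fun m => (Φ m).phi) * s := by
    rw [hM]
    unfold formV
    rw [s5f_form_congr c0 C0 hc0 I w h _ (Function.update (fun m => (Φ m).phi) l (physFn zl)) ?_]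
    · refine (s5f_tripNorm c0 C0 hc0 hC0 I w h l _ (fun m hm => hmeas m _ (hΦ'.2 m hm))
        (fun m hm => hbdd m _ (hΦ'.2 m hm)) zl).trans ?_
      exact mul_le_mul_of_nonneg_left hz (s5f_tripNorm_nonneg _ _ _ _)
    · intro m
      by_cases hm : m = l
      · subst hm; simp
      · simp only [hm, if_false]
        rw [Function.update_of_ne hm]
        have h1 := s5f_phys_vec (Φ m) I (hmeas m _ (hΦ'.2 m hm)) (hbdd m _ (hΦ'.2 m hm))
        have h2 : I.set.indicator (Φ m).phi =ᵐ[volume.restrict I.set] (Φ m).phi :=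
          indicator_ae_eq_restrict (cell_measurableSet I)
        exact Filter.EventuallyEq.trans (ae_restrict_of_ae h1) h2
  calc (∏ m, ‖(if m = l then (1 : ℂ) else c m (Φ m))‖) * ‖M (fun m => if m = l then zl else (Φ m).vec I)‖
      ≤ Γ ^ 3 * (tripNorm I w l (fun m => (Φ m).phi) * s) := mul_le_mul hp hf (norm_nonneg _) (by positivity)
    _ = Γ ^ 3 * s * tripNorm I w l (fun m => (Φ m).phi) := by ring

theorem s5v_inactive (c0 C0 : ℝ) (hc0 : 0 < c0) (hC0 : 1 ≤ C0) :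
    ∃ C : ℝ, 1 ≤ C ∧ ∀ (R : Cell) (mm : Fin 4 → Cell → Finset Col) (ch : ℕ → Chart) (D δ₀ Γ s : ℝ),
      (∀ l, Inh R (mm l)) → (∀ l, Bud R (mm l) ch D) → 0 < δ₀ → δ₀ ≤ 1 → 0 ≤ Γ → 0 ≤ s →
      ∀ (A : Finset Cell) (w : Cell → ℝ × ℝ → ℂ), (∀ I ∈ A, I ≤ R ∧ Admissible c0 C0 I (w I)) →
        (∀ I ∈ A, ¬ ActiveAt w mm δ₀ I) →
      ∀ (l : Fin 4) (c : Fin 4 → Cell → Col → ℂ) (zl : Cell → XV), (∀ m I Φ, ‖c m I Φ‖ ≤ Γ) → (∀ I ∈ A, n2 I (zl I) ≤ s) →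
        ∑ I ∈ A, I.len * ‖formV I (w I) (fun m => if m = l then zl I else ∑ Φ ∈ mm m I, c m I Φ • Φ.vec I)‖
          ≤ Γ ^ 3 * s * D ^ 3 * δ₀ * plog C (Real.log D + Real.log (1 / δ₀)) * R.len := by
  classical
  obtain ⟨C₁, hC₁, H⟩ := s5e_small_sum c0 C0 hc0 hC0
  refine ⟨((2 * ⌈C₁⌉₊ : ℕ) : ℝ), (s5v_ceil_ge hC₁).1, ?_⟩
  intro R mm ch D δ₀ Γ s hInh hBud hδ hδ1 hΓ hs A w hA hina l c zl hc hz
  have hD0 : 0 ≤ D := s5v_D_nonneg (hBud 0)
  have hP0 := s5v_plog_even_nonneg ⌈C₁⌉₊ (Real.log D + Real.log (1 / δ₀))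
  set P : ℝ := plog ((2 * ⌈C₁⌉₊ : ℕ) : ℝ) (Real.log D + Real.log (1 / δ₀)) with hP
  set Φ₀ : Col := ⟨0, R, fun _ => 0, 0⟩ with hΦ₀
  set W : Cell → Finset (Fin 4 → Col) := fun I => s5vW (fun m => mm m I) l Φ₀ with hW
  set t : Cell → (Fin 4 → Col) → ℝ := fun I Φ => tripNorm I (w I) l fun m => (Φ m).phi with ht
  have h1 : ∀ I ∈ A, ‖formV I (w I) (fun m => if m = l then zl I else ∑ Φ ∈ mm m I, c m I Φ • Φ.vec I)‖
      ≤ Γ ^ 3 * s * ∑ Φ ∈ W I, t I Φ := by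
    intro I hI
    refine s5v_cell_bound c0 C0 hc0 hC0 I (w I) (hA I hI).2 l (fun m => mm m I) (fun m Φ hΦ => ?_) (fun m Φ hΦ y => ?_)
      (fun m => c m I) Γ s hΓ (fun m Φ => hc m I Φ) (zl I) (hz I hI) Φ₀
    · rw [(hBud m).chart I Φ hΦ]
      exact xv_chart_measurable _ ((hBud m).cplx I Φ hΦ)
    · rw [(hBud m).chart I Φ hΦ]
      exact (hBud m).bdd I Φ hΦ y
  have h2 : ∑ I ∈ A, I.len * (Γ ^ 3 * s * ∑ Φ ∈ W I, t I Φ) ≤ (Γ ^ 3 * s * (D ^ 3 * (δ₀ * P))) * R.len := by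
    refine cell_chain_bound (fun I hI => (hA I hI).1) _ (by positivity) fun L hL => ?_
    rw [← Finset.mul_sum]
    refine mul_le_mul_of_nonneg_left ?_ (by positivity)
    rw [Finset.sum_comm' (s' := fun Φ => (A.filter (fun I => L ≤ I)).filter fun I => Φ ∈ W I) (t' := W L) ?_]
    · calc ∑ Φ ∈ W L, ∑ I ∈ (A.filter (fun I => L ≤ I)).filter (fun I => Φ ∈ W I), t I Φ
          ≤ ∑ _Φ ∈ W L, δ₀ * P := Finset.sum_le_sum fun Φ hΦ => ?_
        _ = ((W L).card : ℝ) * (δ₀ * P) := by rw [Finset.sum_const, nsmul_eq_mul]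
        _ ≤ D ^ 3 * (δ₀ * P) := mul_le_mul_of_nonneg_right
            (s5v_card_W _ l Φ₀ D fun m => s5v_card_le (hInh m) (hBud m) (hA L hL).1) (by positivity)
      have hΦ' := s5v_mem_W.1 hΦ
      obtain ⟨m₀, hm₀⟩ := s5v_exists_ne l
      have hx := s5v_arg_nonneg ((hBud m₀).cplx L (Φ m₀) (hΦ'.2 m₀ hm₀)) hδ hδ1
      refine le_trans ?_ (mul_le_mul_of_nonneg_left (s5v_plog_mono_C hC₁ (s5v_ceil_ge hC₁).2 hx) hδ.le)
      have hcg : ∀ I, tripNorm I (w I) l (fun m => (ch (Φ m).lab).eval) = t I Φ := fun I =>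
        s5v_tripNorm_congr I (w I) l (fun m => (ch (Φ m).lab).eval) (fun m => (Φ m).phi)
          (fun m hm => ((hBud m).chart L (Φ m) (hΦ'.2 m hm)).symm)
      have := H l (fun m => ch (Φ m).lab) D δ₀
        (fun m hm => ⟨(hBud m).cplx L (Φ m) (hΦ'.2 m hm), (hBud m).bdd L (Φ m) (hΦ'.2 m hm)⟩) hδ hδ1
        ((A.filter (fun I => L ≤ I)).filter (fun I => Φ ∈ W I)) w
        (fun I hI => (hA I (Finset.mem_filter.1 (Finset.mem_filter.1 hI).1).1).2)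
        (fun I hI I' hI' => cell_chain (Finset.mem_filter.1 (Finset.mem_filter.1 hI).1).2
          (Finset.mem_filter.1 (Finset.mem_filter.1 hI').1).2)
        (fun I hI => by
          rw [hcg]
          have hIA := (Finset.mem_filter.1 (Finset.mem_filter.1 hI).1).1
          have hIW := s5v_mem_W.1 (Finset.mem_filter.1 hI).2
          by_contra hlt
          exact hina I hIA ⟨l, Φ, hIW.2, not_le.1 hlt⟩)
      simpa only [hcg] using this
    · intro I Φ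
      constructor
      · rintro ⟨hI, hΦ⟩
        have hI' := Finset.mem_filter.1 hI
        exact ⟨Finset.mem_filter.2 ⟨hI, hΦ⟩,
          s5v_W_mono (fun m => (hInh m).mono I L (hA I hI'.1).1 hI'.2) l Φ₀ hΦ⟩
      · rintro ⟨hI, _⟩
        exact ⟨(Finset.mem_filter.1 hI).1, (Finset.mem_filter.1 hI).2⟩
  calc ∑ I ∈ A, I.len * ‖formV I (w I) (fun m => if m = l then zl I else ∑ Φ ∈ mm m I, c m I Φ • Φ.vec I)‖
      ≤ ∑ I ∈ A, I.len * (Γ ^ 3 * s * ∑ Φ ∈ W I, t I Φ) :=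
        Finset.sum_le_sum fun I hI => mul_le_mul_of_nonneg_left (h1 I hI) (cell_len_nonneg I)
    _ ≤ (Γ ^ 3 * s * (D ^ 3 * (δ₀ * P))) * R.len := h2
    _ = Γ ^ 3 * s * D ^ 3 * δ₀ * P * R.len := by ring

end Claimed.Agent.R258
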