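/-
Row 258, Secs. 5.5 + 10.4, LEAVES P-S5-TLATE, P-S5-TEARLY (architect helper182).   THE ESTIMATE ON ONE FINAL SEGMENT OF ONE TUPLE (Prop. 5.8 and the paragraph before Lemma 5.7).

A `TSeg` is the data of one tuple `(u,t)` on one final segment root `R`: for every slot two inherited catalogs `cat l 0`, `cat l 1`; two HIGH slots (`hi l = true`), delay `K0`.
   `cur l c I = P_{cat l c, I} F_l`,     `Bv = cur 0 - cur 1`,     `Uv = P_{cat l 0, s+K0} F_l - cur 0` (high slots; `0` in the low slots),      `Yv = Bv + Uv`  (9),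
   `Xv = F_l - cur 1` (high slots), `= Bv` (low slots)   (8).
Hypotheses of the two theorems (all produced by S5/Build.lean): validity with catalog budget `D₁`; `repl`: the replacement error `∑ |I| |H_I(X) - H_I(Y)| ≤ E₁ |R|`;
(late levels) `pair`: all pairs of full `Y` arguments have form norm `≤ η/9`, `η = exp(-k^θ)`.

PROOF of `s5t_late`.   `|H_I(X)| ≤ |H_I(X) - H_I(Y)| + |H_I(Y)|`.   Sizes: `n2 I (F_l) ≤ 1` on `T` (`s5f_n2_le_nnorm`), so `n2 (cur) ≤ 1`, `n2 Bv ≤ 2`, `n2 Uv ≤ 1` (`s5r_n2_roll`), `n2 Yv ≤ 3`.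
`pair` gives `|H_I(Y)| ≤ (η/9)·3·3 = η`, hence `|H_I(Y)| = min(η, |H_I(Y)|) ≤ ∑_{4 patterns} min(η, |H_I(pattern)|)` (multilinearity in the two high slots, `min(η, ∑ a_j) ≤ ∑ min(η, a_j)`).
 * pattern `(U,U)`: `= H_I(Y_i, Y_j, U_a, U_b)`, `≤ (η/9) n2(U_a) n2(U_b)`; Cauchy-Schwarz + `s5r_rolling` + `‖1_R F‖² ≤ |R|`: total `≤ η K0² |R|`;
 * the other three patterns: split `S` into inactive and active cells (`ActiveAt w mm δ₀`, `mm l I = cat l 0 I ∪ cat l 1 I`, budget `2 D₁`):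
     inactive: `s5v_inactive` with `Γ = D₁` (`s5r_coef`: `ε |a|² ≤ 1`, `ε ≥ D₁^{-2}`), `s = 2`;     active: `CoreEstimate` for the base segment `X.toBase (active cells)`, whose validity
     (`BaseSeg.Ok`: `D`, `M = 4 (2D₁)³ plog`, `LU = K0²`) is checked field by field (`s5v_mult`, `s5r_*`; joint birth count `≤ 8 D₁`; coefficient sums `≤ √D₁ · D₁ ≤ D/2`).
PROOF of `s5t_early`: the same without `pair` and `CoreEstimate`: `(U,U)`: `|H_I| ≤ Cw·2·2·n2(U_a) n2(U_b)`; active cells: `|H_I(pattern)| ≤ 16 Cw` and `∑_{active} |I| ≤ M |R|` (`cell_chain_bound`).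
`TSeg` and its basic API (PROVED: `s5t_Yv_hi/lo`, `s5t_Xv_hi/lo`, `s5t_X_sub_Y`, sizes `s5t_n2_F/cur/Bv/Uv/Yv/Xv`, `s5t_norm_F`, `X.mm`, `s5t_mm_inh`, `s5t_mm_bud`, `s5t_coef`, `s5t_card_le`) are in S5/TDefs.lean.
Fill the sorries IN PLACE; auxiliary lemmas with prefix `s5t_`.
-/
import Claimed.Agent.R258.S5.Active
import Claimed.Agent.R258.S5.TDefs

set_option autoImplicit false
open MeasureTheory

namespace Claimed.Agent.R258

/-- the multiplicity bound of the active collection -/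
noncomputable def actM (Cv D₁ δ₀ : ℝ) : ℝ := 4 * (2 * D₁) ^ 3 * plog Cv (Real.log (2 * D₁) + Real.log (1 / δ₀))

/-- the error of the inactive cells (one pattern) -/
noncomputable def inactE (Cv D₁ δ₀ : ℝ) : ℝ :=
  D₁ ^ 3 * 2 * (2 * D₁) ^ 3 * δ₀ * plog Cv (Real.log (2 * D₁) + Real.log (1 / δ₀))

/-! ### slots -/

theorem s5t_erase : ∀ i j a b : Fin 4, i ≠ j → i ≠ a → i ≠ b → j ≠ a → j ≠ b → a ≠ b →
    (Finset.univ.erase i).erase j = ({a, b} : Finset (Fin 4)) := by decide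

theorem s5t_exists_lo : ∀ a b : Fin 4, a ≠ b → ∃ i j : Fin 4, i ≠ j ∧ i ≠ a ∧ i ≠ b ∧ j ≠ a ∧ j ≠ b := by decide

theorem s5t_slots (hi : Fin 4 → Bool) (h : (Finset.univ.filter fun l => hi l = true).card = 2) :
    ∃ i j a b : Fin 4, slot4 i j a b ∧ ∀ l, hi l = true ↔ l = a ∨ l = b := by
  obtain ⟨a, b, hab, hf⟩ := Finset.card_eq_two.1 h
  obtain ⟨i, j, h1, h2, h3, h4, h5⟩ := s5t_exists_lo a b hab
  refine ⟨i, j, a, b, ⟨h1, h2, h3, h4, h5, hab⟩, fun l => ?_⟩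
  have : l ∈ (Finset.univ.filter fun l => hi l = true) ↔ l ∈ ({a, b} : Finset (Fin 4)) := by rw [hf]
  simpa using this

theorem s5t_prod4 {i j a b : Fin 4} (hs : slot4 i j a b) (x : Fin 4 → ℝ) : ∏ l, x l = x i * x j * (x a * x b) := by
  obtain ⟨h1, h2, h3, h4, h5, h6⟩ := hs
  rw [← Finset.mul_prod_erase Finset.univ x (Finset.mem_univ i),
    ← Finset.mul_prod_erase (Finset.univ.erase i) x (Finset.mem_erase.2 ⟨h1.symm, Finset.mem_univ j⟩),
    s5t_erase i j a b h1 h2 h3 h4 h5 h6, Finset.prod_pair h6]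
  ring

/-! ### patterns -/

/-- the arguments of a pattern (`pat l = true`: the basic side `U_l`) -/
noncomputable def TSeg.argv (X : TSeg) (pat : Fin 4 → Bool) (I : Cell) : Fin 4 → XV :=
  fun l => if pat l then X.Uv l I else X.Bv l I

/-- the pattern with basic sides in the slots of `s` -/
def s5tPat (s : Finset (Fin 4)) : Fin 4 → Bool := fun l => decide (l ∈ s)

theorem s5t_toBase_U (X : TSeg) (S' : Finset Cell) (l : Fin 4) {I : Cell} (hI : I ∈ X.T) :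
    (X.toBase S').U l I = X.Uv l I := by
  show (if I ∈ X.T then X.Uv l I else 0) = X.Uv l I
  rw [if_pos hI]

theorem s5t_toBase_B (X : TSeg) (ht : RootedTree X.root X.T) (S' : Finset Cell) (l : Fin 4) {I : Cell} (hI : I ∈ X.T) :
    (X.toBase S').B l I = X.Bv l I := by
  show cproj (truncCat X.root X.T (X.cat l 0) I) I (ofScalar (X.f l)) - cproj (truncCat X.root X.T (X.cat l 1) I) I (ofScalar (X.f l))
    = X.Bv l I
  rw [s5t_trunc_self ht _ hI, s5t_trunc_self ht _ hI]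
  rfl

theorem s5t_toBase_Y (X : TSeg) (ht : RootedTree X.root X.T) (S' : Finset Cell) (l : Fin 4) {I : Cell} (hI : I ∈ X.T) :
    (X.toBase S').Y l I = X.Yv l I := by
  unfold BaseSeg.Y TSeg.Yv
  rw [s5t_toBase_B X ht S' l hI, s5t_toBase_U X S' l hI]

theorem s5t_toBase_arg (X : TSeg) (ht : RootedTree X.root X.T) (S' : Finset Cell) (pat : Fin 4 → Bool) {I : Cell}
    (hI : I ∈ X.T) : (X.toBase S').arg pat I = X.argv pat I := by
  funext l
  unfold BaseSeg.arg TSeg.argv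
  rw [s5t_toBase_B X ht S' l hI, s5t_toBase_U X S' l hI]

theorem s5t_patOk {s : Finset (Fin 4)} (h : s.card ≤ 1) : PatOk (s5tPat s) := by
  unfold PatOk s5tPat
  have : (Finset.univ.filter fun l => decide (l ∈ s) = true) = s := by ext l; simp
  rw [this]; exact h

theorem s5t_expand (M : MultilinearMap ℂ (fun _ : Fin 4 => XV) ℂ) (B U : Fin 4 → XV) (a b : Fin 4) (hab : a ≠ b)
    (hU : ∀ l, l ≠ a → l ≠ b → U l = 0) :
    M (fun l => B l + U l) = M (fun l => if s5tPat ∅ l then U l else B l) + M (fun l => if s5tPat {a} l then U l else B l)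
      + M (fun l => if s5tPat {b} l then U l else B l) + M (fun l => if s5tPat {a, b} l then U l else B l) := by
  have key : ∀ x y : XV, Function.update (Function.update B b y) a x
      = fun l => if l = a then x else if l = b then y else B l := by
    intro x y
    funext l
    by_cases ha : l = a
    · subst ha; simp
    · by_cases hb : l = b
      · subst hb; simp [ha]
      · simp [ha, hb]
  have e0 : (fun l => B l + U l) = Function.update (Function.update B a (B a + U a)) b (B b + U b) := by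
    rw [Function.update_comm hab, key]
    funext l
    by_cases ha : l = a
    · subst ha; simp
    · by_cases hb : l = b
      · subst hb; simp [ha]
      · simp [ha, hb, hU l ha hb]
  have p0 : (fun l => if s5tPat ∅ l then U l else B l) = fun l => if l = a then B a else if l = b then B b else B l := by
    funext l
    by_cases ha : l = a
    · subst ha; simp [s5tPat]
    · by_cases hb : l = b
      · subst hb; simp [s5tPat, ha]
      · simp [s5tPat, ha, hb]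
  have pa : (fun l => if s5tPat {a} l then U l else B l) = fun l => if l = a then U a else if l = b then B b else B l := by
    funext l
    by_cases ha : l = a
    · subst ha; simp [s5tPat]
    · by_cases hb : l = b
      · subst hb; simp [s5tPat, ha]
      · simp [s5tPat, ha, hb]
  have pb : (fun l => if s5tPat {b} l then U l else B l) = fun l => if l = a then B a else if l = b then U b else B l := by
    funext l
    by_cases ha : l = a
    · subst ha; simp [s5tPat, hab]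
    · by_cases hb : l = b
      · subst hb; simp [s5tPat, ha]
      · simp [s5tPat, ha, hb]
  have pab : (fun l => if s5tPat {a, b} l then U l else B l)
      = fun l => if l = a then U a else if l = b then U b else B l := by
    funext l
    by_cases ha : l = a
    · subst ha; simp [s5tPat]
    · by_cases hb : l = b
      · subst hb; simp [s5tPat, ha]
      · simp [s5tPat, ha, hb]
  rw [e0, M.map_update_add, Function.update_comm hab, Function.update_comm hab, M.map_update_add, M.map_update_add,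
    key, key, key, key, p0, pa, pb, pab]
  ring

section tuple
variable {X : TSeg} {c0 C0 q D₁ : ℝ}

theorem s5t_Uv_lo (X : TSeg) {l : Fin 4} (h : X.hi l = false) (I : Cell) : X.Uv l I = 0 := by
  simp [TSeg.Uv, h]

/-- expansion of the form of the full arguments into the four patterns -/
theorem s5t_form_Y (hc0 : 0 < c0) (hv : X.Valid c0 C0 q D₁) {I : Cell} (hI : I ∈ X.S) {a b : Fin 4} (hab : a ≠ b)
    (hlo : ∀ l, X.hi l = true ↔ l = a ∨ l = b) :
    formV I (X.w I) (fun l => X.Yv l I) = formV I (X.w I) (X.argv (s5tPat ∅) I) + formV I (X.w I) (X.argv (s5tPat {a}) I)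
      + formV I (X.w I) (X.argv (s5tPat {b}) I) + formV I (X.w I) (X.argv (s5tPat {a, b}) I) := by
  obtain ⟨M, hM⟩ := s5f_multilinear c0 C0 hc0 I (X.w I) (hv.adm I hI)
  simp only [← hM]
  refine s5t_expand M (fun l => X.Bv l I) (fun l => X.Uv l I) a b hab fun l ha hb => ?_
  apply s5t_Uv_lo
  by_contra h
  rcases (hlo l).1 (by simpa using h) with h | h
  · exact ha h
  · exact hb h

theorem s5t_n2_argv (hq : 2 < q) (hv : X.Valid c0 C0 q D₁) (pat : Fin 4 → Bool) (l : Fin 4) {I : Cell} (hI : I ∈ X.T) :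
    n2 I (X.argv pat I l) ≤ 2 := by
  unfold TSeg.argv
  split_ifs
  · exact (s5t_n2_Uv hq hv l hI).trans (by norm_num)
  · exact s5t_n2_Bv hq hv l hI

theorem s5t_restr_Uv (X : TSeg) (l : Fin 4) (I : Cell) : restr I.set (X.Uv l I) = X.Uv l I := by
  unfold TSeg.Uv TSeg.cur
  split_ifs
  · exact s5r_restr_roll _ I X.K0 _
  · simp

/-- the square budget of the basic sides -/
theorem s5t_U_sq (hq : 2 < q) (hv : X.Valid c0 C0 q D₁) (l : Fin 4) {R' : Cell} (hR' : R' ∈ X.T) (A : Finset Cell)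
    (hA : ∀ I ∈ A, I ≤ R') : ∑ I ∈ A, ‖X.Uv l I‖ ^ 2 ≤ (X.K0 : ℝ) ^ 2 * R'.len := by
  by_cases h : X.hi l = true
  · have h1 := s5r_rolling R' (X.cat l 0) (s5r_inh_sub' (hv.tree.le_root R' hR') (hv.inh l 0)) X.K0 (X.F l) A hA
    have h2 := s5t_norm_F hq hv l hR'
    have e : ∀ I, X.Uv l I = dproj (X.cat l 0) I X.K0 (X.F l) - cproj (X.cat l 0 I) I (X.F l) := by
      intro I; simp [TSeg.Uv, TSeg.cur, h]
    simp only [e]
    exact h1.trans (mul_le_mul_of_nonneg_left h2 (sq_nonneg _))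
  · have e : ∀ I, X.Uv l I = 0 := fun I => s5t_Uv_lo X (by simpa using h) I
    simp only [e, norm_zero]
    have := cell_len_nonneg R'
    simp only [ne_eq, OfNat.ofNat_ne_zero, not_false_eq_true, zero_pow, Finset.sum_const_zero]
    positivity

theorem s5t_len_n2_mul (I : Cell) (x y : XV) : I.len * (n2 I x * n2 I y) = ‖restr I.set x‖ * ‖restr I.set y‖ := by
  unfold n2
  have h := cell_len_pos I
  have h2 : Real.sqrt I.len * Real.sqrt I.len = I.len := Real.mul_self_sqrt h.le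
  have h3 : Real.sqrt I.len ≠ 0 := (Real.sqrt_pos.2 h).ne'
  rw [div_mul_div_comm, h2]
  field_simp

/-- the pattern `(U,U)`: Cauchy-Schwarz and the rolling budget -/
theorem s5t_UU_sum (hq : 2 < q) (hv : X.Valid c0 C0 q D₁) (a b : Fin 4) :
    ∑ I ∈ X.S, I.len * (n2 I (X.Uv a I) * n2 I (X.Uv b I)) ≤ (X.K0 : ℝ) ^ 2 * X.root.len := by
  have hA : ∀ I ∈ X.S, I ≤ X.root := fun I hI => hv.tree.le_root I (hv.S_sub hI)
  have h1 := s5t_U_sq hq hv a hv.tree.root_mem X.S hA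
  have h2 := s5t_U_sq hq hv b hv.tree.root_mem X.S hA
  have h3 : ∀ I ∈ X.S, I.len * (n2 I (X.Uv a I) * n2 I (X.Uv b I)) ≤ (‖X.Uv a I‖ ^ 2 + ‖X.Uv b I‖ ^ 2) / 2 := by
    intro I _
    rw [s5t_len_n2_mul, s5t_restr_Uv, s5t_restr_Uv]
    nlinarith [sq_nonneg (‖X.Uv a I‖ - ‖X.Uv b I‖)]
  calc ∑ I ∈ X.S, I.len * (n2 I (X.Uv a I) * n2 I (X.Uv b I))
      ≤ ∑ I ∈ X.S, (‖X.Uv a I‖ ^ 2 + ‖X.Uv b I‖ ^ 2) / 2 := Finset.sum_le_sum h3
    _ = (∑ I ∈ X.S, ‖X.Uv a I‖ ^ 2 + ∑ I ∈ X.S, ‖X.Uv b I‖ ^ 2) / 2 := by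
        rw [← Finset.sum_div, Finset.sum_add_distrib]
    _ ≤ (X.K0 : ℝ) ^ 2 * X.root.len := by linarith

/-- all coefficients of the basic coarse arguments -/
theorem s5t_coef_all (hq : 2 < q) (hv : X.Valid c0 C0 q D₁) (hD : 0 < D₁) :
    ∃ c : Fin 4 → Cell → Col → ℂ, (∀ m I Φ, ‖c m I Φ‖ ≤ D₁) ∧
      ∀ m, ∀ I ∈ X.T, X.Bv m I = ∑ Φ ∈ X.mm m I, c m I Φ • Φ.vec I := by
  classical
  have h : ∀ (m : Fin 4) (I : Cell), ∃ a : Col → ℂ, (∀ Φ, ‖a Φ‖ ≤ D₁) ∧
      (I ∈ X.T → X.Bv m I = ∑ Φ ∈ X.mm m I, a Φ • Φ.vec I) := by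
    intro m I
    by_cases hI : I ∈ X.T
    · obtain ⟨a, h1, h2⟩ := s5t_coef hq hv m hD (hv.bud m) hI
      exact ⟨a, h2, fun _ => h1⟩
    · exact ⟨fun _ => 0, fun _ => by simpa using hD.le, fun h => absurd h hI⟩
  choose c hc1 hc2 using h
  exact ⟨c, hc1, fun m I hI => hc2 m I hI⟩

end tuple

/-! ### the constants of `s5v_mult`, `s5v_inactive`, applied to a tuple -/

theorem s5t_arg_nonneg {D₁ δ₀ : ℝ} (hD₁ : 1 ≤ D₁) (hδ : 0 < δ₀) (hδ1 : δ₀ ≤ 1) :
    0 ≤ Real.log (2 * D₁) + Real.log (1 / δ₀) := by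
  have h2 : 1 ≤ 1 / δ₀ := by rw [le_div_iff₀ hδ]; simpa using hδ1
  exact add_nonneg (Real.log_nonneg (by linarith)) (Real.log_nonneg h2)

theorem s5t_consts (c0 C0 : ℝ) (hc0 : 0 < c0) (hC0 : 1 ≤ C0) :
    ∃ Cv : ℝ, 1 ≤ Cv ∧ ∀ (q : ℝ) (X : TSeg) (D₁ δ₀ : ℝ), 2 < q → X.Valid c0 C0 q D₁ → 1 ≤ D₁ → 0 < δ₀ → δ₀ ≤ 1 →
      (∀ A : Finset Cell, A ⊆ X.S → (∀ I ∈ A, ∀ I' ∈ A, I ≤ I' ∨ I' ≤ I) → (∀ I ∈ A, ActiveAt X.w X.mm δ₀ I) →
        (A.card : ℝ) ≤ actM Cv D₁ δ₀) ∧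
      (∀ A : Finset Cell, A ⊆ X.S → (∀ I ∈ A, ¬ ActiveAt X.w X.mm δ₀ I) →
        ∀ (l : Fin 4) (pat : Fin 4 → Bool), (∀ m, m ≠ l → pat m = false) →
        ∑ I ∈ A, I.len * ‖formV I (X.w I) (X.argv pat I)‖ ≤ inactE Cv D₁ δ₀ * X.root.len) := by
  obtain ⟨Cm, hCm, Hm⟩ := s5v_mult c0 C0 hc0 hC0
  obtain ⟨Ci, hCi, Hi⟩ := s5v_inactive c0 C0 hc0 hC0
  refine ⟨max Cm Ci, hCm.trans (le_max_left _ _), ?_⟩
  intro q X D₁ δ₀ hq hv hD₁ hδ hδ1
  have hD0 : 0 < D₁ := by linarith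
  have hx := s5t_arg_nonneg hD₁ hδ hδ1
  have hadm : ∀ A : Finset Cell, A ⊆ X.S → ∀ I ∈ A, I ≤ X.root ∧ Admissible c0 C0 I (X.w I) :=
    fun A hA I hI => ⟨hv.tree.le_root I (hv.S_sub (hA hI)), hv.adm I (hA hI)⟩
  constructor
  · intro A hA hch hact
    have h1 := Hm X.root X.mm X.chart (2 * D₁) δ₀ (s5t_mm_inh hv) (s5t_mm_bud hv hD0) hδ hδ1 A X.w (hadm A hA) hch hact
    refine h1.trans ?_
    unfold actM
    exact mul_le_mul_of_nonneg_left (s5v_plog_mono_C hCm (le_max_left _ _) hx) (by positivity)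
  · intro A hA hina l pat hpat
    obtain ⟨c, hc1, hc2⟩ := s5t_coef_all hq hv hD0
    have h1 := Hi X.root X.mm X.chart (2 * D₁) δ₀ D₁ 2 (s5t_mm_inh hv) (s5t_mm_bud hv hD0) hδ hδ1 hD0.le (by norm_num)
      A X.w (hadm A hA) hina l c (fun I => X.argv pat I l) hc1
      (fun I hI => s5t_n2_argv hq hv pat l (hv.S_sub (hA hI)))
    have e : ∀ I ∈ A, X.argv pat I
        = fun m => if m = l then X.argv pat I l else ∑ Φ ∈ X.mm m I, c m I Φ • Φ.vec I := by
      intro I hI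
      funext m
      by_cases hm : m = l
      · subst hm; simp
      · simp only [hm, if_false]
        rw [← hc2 m I (hv.S_sub (hA hI))]
        simp [TSeg.argv, hpat m hm]
    have e2 : ∑ I ∈ A, I.len * ‖formV I (X.w I) (X.argv pat I)‖ = ∑ I ∈ A, I.len *
        ‖formV I (X.w I) (fun m => if m = l then X.argv pat I l else ∑ Φ ∈ X.mm m I, c m I Φ • Φ.vec I)‖ :=
      Finset.sum_congr rfl fun I hI => by rw [← e I hI]
    rw [e2]
    refine h1.trans ?_
    unfold inactE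
    refine mul_le_mul_of_nonneg_right ?_ (cell_len_nonneg _)
    exact mul_le_mul_of_nonneg_left (s5v_plog_mono_C hCi (le_max_right _ _) hx) (by positivity)

/-! ### the base segment of the active cells -/

theorem s5t_pairSmall_mono {I : Cell} {w : ℝ × ℝ → ℂ} {l l' : Fin 4} {Y Y' : XV} {η η' : ℝ}
    (h : PairSmall I w l l' Y Y' η) (hη : η ≤ η') : PairSmall I w l l' Y Y' η' := by
  intro z h1 h2
  exact (h z h1 h2).trans (mul_le_mul_of_nonneg_right hη (Finset.prod_nonneg fun j _ => s5f_n2_nonneg I (z j)))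

theorem s5t_toBase_valid {X : TSeg} {c0 C0 q D₁ D η M : ℝ} (hq : 2 < q) (hv : X.Valid c0 C0 q D₁) (hD₁ : 1 ≤ D₁)
    (hD : 8 * D₁ ^ 2 ≤ D) (S' : Finset Cell) (hS' : S' ⊆ X.S)
    (hpair : ∀ I ∈ S', ∀ l l' : Fin 4, l ≠ l' → PairSmall I (X.w I) l l' (X.Yv l I) (X.Yv l' I) η)
    (hmult : ∀ A : Finset Cell, A ⊆ S' → (∀ I ∈ A, ∀ I' ∈ A, I ≤ I' ∨ I' ≤ I) → (A.card : ℝ) ≤ M) :
    (X.toBase S').Valid c0 C0 q η D M ((X.K0 : ℝ) ^ 2) := by
  classical
  have hD0 : 0 < D₁ := by linarith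
  have hDD : D₁ ≤ D := by nlinarith
  have ht := hv.tree
  have hinh : ∀ l c, Inh X.root (truncCat X.root X.T (X.cat l c)) := fun l c => s5t_trunc_inh ht (hv.inh l c)
  have hbud : ∀ l c, Bud X.root (truncCat X.root X.T (X.cat l c)) X.chart D₁ := fun l c => s5t_trunc_bud ht (hv.bud l c)
  refine
    { tree := hv.tree
      S_sub := hS'.trans hv.S_sub
      adm := fun I hI => hv.adm I (hS' hI)
      f_cs := hv.f_cs
      f_norm := hv.f_norm
      cat_birth := fun l c => (hinh l c).birth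
      cat_mono := fun l c => (hinh l c).mono
      lab_inj := fun l c I l' c' I' Φ hΦ Φ' hΦ' hl => by
        obtain ⟨_, J, _, _, h3, _⟩ := s5t_trunc_mem ht hΦ
        obtain ⟨_, J', _, _, h3', _⟩ := s5t_trunc_mem ht hΦ'
        exact hv.lab_inj l c J l' c' J' Φ h3 Φ' h3' hl
      col_chart := fun l c => (hbud l c).chart
      col_cplx := fun l c I Φ hΦ => s5r_cplx_mono _ D₁ D ((hbud l c).cplx I Φ hΦ) hDD
      col_bdd := fun l c => (hbud l c).bdd
      col_eps := fun l c I Φ hΦ => ⟨(inv_anti₀ hD0 hDD).trans ((hbud l c).eps I Φ hΦ).1, ((hbud l c).eps I Φ hΦ).2⟩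
      count := ?_
      coef := ?_
      U_supp := fun l I => by
        show restr I.set (if I ∈ X.T then X.Uv l I else 0) = if I ∈ X.T then X.Uv l I else 0
        split_ifs
        · exact s5t_restr_Uv X l I
        · simp
      U_size := fun l I hI => by rw [s5t_toBase_U X S' l hI]; exact s5t_n2_Uv hq hv l hI
      U_sq := fun l R' hR' A hA => by
        refine le_trans (Finset.sum_le_sum fun I _ => ?_) (s5t_U_sq hq hv l hR' A hA)
        show ‖(if I ∈ X.T then X.Uv l I else 0)‖ ^ 2 ≤ ‖X.Uv l I‖ ^ 2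
        split_ifs
        · exact le_rfl
        · simp
      pair := fun I hI l l' hll => by
        have hIT : I ∈ X.T := hv.S_sub (hS' hI)
        rw [s5t_toBase_Y X ht S' l hIT, s5t_toBase_Y X ht S' l' hIT]
        exact hpair I hI l l' hll
      mult := fun J _ A hA hJ => hmult A hA fun I hI I' hI' => cell_chain (hJ I hI) (hJ I' hI')
      cat_tree := fun l c I _ Φ hΦ => by
        obtain ⟨_, J, h1, h2, _, h4⟩ := s5t_trunc_mem ht hΦ
        exact ⟨J, h1, h2, h4⟩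
      U_lab := s5t_U_lab X S' }
  · intro I hI A hA
    have hI' : I ≤ X.root := hI
    set AA : Fin 4 → Fin 2 → Finset Col := fun l c => A.filter fun Φ => ∃ I', I' ≤ X.root ∧ Φ ∈ truncCat X.root X.T (X.cat l c) I'
      with hAA
    have hsub : A ⊆ Finset.univ.biUnion fun l => Finset.univ.biUnion fun c => AA l c := by
      intro Φ hΦ
      obtain ⟨⟨l, c, I', hI'', hm⟩, _⟩ := hA Φ hΦ
      simp only [Finset.mem_biUnion, Finset.mem_univ, true_and]
      exact ⟨l, c, Finset.mem_filter.2 ⟨hΦ, I', hI'', hm⟩⟩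
    have hc : ∀ l c, ((AA l c).card : ℝ) ≤ D₁ := fun l c =>
      (hbud l c).count I hI' (AA l c) fun Φ hΦ => ⟨(Finset.mem_filter.1 hΦ).2, (hA Φ (Finset.mem_filter.1 hΦ).1).2⟩
    have h1 : A.card ≤ ∑ l : Fin 4, ∑ c : Fin 2, (AA l c).card :=
      (Finset.card_le_card hsub).trans (Finset.card_biUnion_le.trans
        (Finset.sum_le_sum fun l _ => Finset.card_biUnion_le))
    have h2 : (A.card : ℝ) ≤ ∑ l : Fin 4, ∑ c : Fin 2, ((AA l c).card : ℝ) := by exact_mod_cast h1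
    have h3 : ∑ l : Fin 4, ∑ c : Fin 2, ((AA l c).card : ℝ) ≤ ∑ _l : Fin 4, ∑ _c : Fin 2, D₁ :=
      Finset.sum_le_sum fun l _ => Finset.sum_le_sum fun c _ => hc l c
    have h4 : ∑ _l : Fin 4, ∑ _c : Fin 2, D₁ = 8 * D₁ := by
      simp only [Finset.sum_const, Finset.card_univ, Fintype.card_fin, nsmul_eq_mul]; push_cast; ring
    nlinarith
  · intro l c I hI
    have hI' : I ∈ X.T := hI
    show ∃ a : Col → ℂ, cproj (truncCat X.root X.T (X.cat l c) I) I (ofScalar (X.f l))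
        = ∑ Φ ∈ truncCat X.root X.T (X.cat l c) I, a Φ • Φ.vec I ∧ ∑ Φ ∈ truncCat X.root X.T (X.cat l c) I, ‖a Φ‖ ≤ D / 2
    rw [s5t_trunc_self ht _ hI']
    obtain ⟨a, ha, hb⟩ := s5t_coef_cur hq hv l c hD0 (hv.bud l c) hI'
    refine ⟨a, ha, ?_⟩
    have hcard : ((X.cat l c I).card : ℝ) ≤ D₁ := s5t_card_le (hv.inh l c) (hv.bud l c) (hv.tree.le_root I hI')
    calc ∑ Φ ∈ X.cat l c I, ‖a Φ‖ ≤ ∑ _Φ ∈ X.cat l c I, D₁ := Finset.sum_le_sum hb
      _ = ((X.cat l c I).card : ℝ) * D₁ := by rw [Finset.sum_const, nsmul_eq_mul]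
      _ ≤ D₁ * D₁ := mul_le_mul_of_nonneg_right hcard hD0.le
      _ ≤ D / 2 := by nlinarith

/-- elementary: a quantity `≤ η` bounded by a sum of four terms -/
theorem s5t_min4 {η y a0 a1 a2 a3 : ℝ} (hη : 0 ≤ η) (h0 : 0 ≤ a0) (h1 : 0 ≤ a1) (h2 : 0 ≤ a2) (h3 : 0 ≤ a3)
    (hy : y ≤ η) (hs : y ≤ a0 + a1 + a2 + a3) : y ≤ min η a0 + min η a1 + min η a2 + a3 := by
  simp only [min_def]
  split_ifs <;> linarith

theorem s5t_late (c0 C0 : ℝ) (hc0 : 0 < c0) (hC0 : 1 ≤ C0) :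
    ∃ Cv : ℝ, 1 ≤ Cv ∧ ∀ q θ Cb cs Cq kmin : ℝ, 2 < q → q < 3 → CoreEstimate c0 C0 q θ Cb cs Cq kmin →
      ∀ (X : TSeg) (k D₁ D δ₀ E₁ : ℝ), kmin ≤ k → X.Valid c0 C0 q D₁ → 1 ≤ D₁ →
        Real.exp k ≤ D → D ≤ Real.exp (k ^ Cb) → 8 * D₁ ^ 2 ≤ D → 0 < δ₀ → δ₀ ≤ 1 →
        actM Cv D₁ δ₀ ≤ D ^ Cb → (X.K0 : ℝ) ^ 2 ≤ k ^ Cb → X.Repl E₁ →
        (∀ I ∈ X.S, ∀ l l' : Fin 4, l ≠ l' →
          PairSmall I (X.w I) l l' (X.Yv l I) (X.Yv l' I) (Real.exp (-(k ^ θ)) / 9)) →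
        ∀ (N : ℕ) (CN : ℝ) (s0 : ℤ), 0 ≤ CN → LocalBound c0 C0 q N CN →
          (∀ I ∈ X.S, s0 ≤ I.depth ∧ I.depth < s0 + N) →
          ∑ I ∈ X.S, I.len * ‖formV I (X.w I) (fun l => X.Xv l I)‖
            ≤ (E₁ + Real.exp (-(k ^ θ)) * (X.K0 : ℝ) ^ 2 + 3 * inactE Cv D₁ δ₀
                + 3 * (Cq * Real.exp (-(k ^ θ)) ^ cs * (1 + CN))) * X.root.len := by
  classical
  obtain ⟨Cv, hCv, HC⟩ := s5t_consts c0 C0 hc0 hC0
  refine ⟨Cv, hCv, ?_⟩
  intro q θ Cb cs Cq kmin hq2 _ hcore X k D₁ D δ₀ E₁ hk hv hD₁ hDk hDk' hD8 hδ hδ1 hM hK hrepl hpair N CN s0 hCN hLB hdepth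
  obtain ⟨hmult, hinact⟩ := HC q X D₁ δ₀ hq2 hv hD₁ hδ hδ1
  obtain ⟨i, j, a, b, hs, hhi⟩ := s5t_slots X.hi hv.hi_card
  obtain ⟨hij, hia, hib, hja, hjb, hab⟩ := id hs
  set η : ℝ := Real.exp (-(k ^ θ)) with hη
  have hη0 : 0 < η := Real.exp_pos _
  have hlo : ∀ l, l ≠ a → l ≠ b → X.hi l = false := by
    intro l ha hb
    by_contra h
    rcases (hhi l).1 (by simpa using h) with h | h
    · exact ha h
    · exact hb h
  set Sa : Finset Cell := X.S.filter (fun I => ActiveAt X.w X.mm δ₀ I) with hSa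
  set Si : Finset Cell := X.S.filter (fun I => ¬ ActiveAt X.w X.mm δ₀ I) with hSi
  have hSaS : Sa ⊆ X.S := Finset.filter_subset _ _
  have hSiS : Si ⊆ X.S := Finset.filter_subset _ _
  -- the base segment of the active cells
  have hval : (X.toBase Sa).Valid c0 C0 q η D (actM Cv D₁ δ₀) ((X.K0 : ℝ) ^ 2) :=
    s5t_toBase_valid hq2 hv hD₁ hD8 Sa hSaS
      (fun I hI l l' hll => s5t_pairSmall_mono (hpair I (hSaS hI) l l' hll) (by linarith))
      (fun A hA hch => hmult A (hA.trans hSaS) hch fun I hI => (Finset.mem_filter.1 (hA hI)).2)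
  have hok : (X.toBase Sa).Ok c0 C0 q θ Cb k := ⟨D, actM Cv D₁ δ₀, (X.K0 : ℝ) ^ 2, hDk, hDk', hM, hK, hval⟩
  have hcoreP : ∀ pat : Fin 4 → Bool, PatOk pat →
      ∑ I ∈ Sa, I.len * min η ‖formV I (X.w I) (X.argv pat I)‖ ≤ Cq * η ^ cs * (1 + CN) * X.root.len :=
    fun pat hp => by
      have h := hcore k hk (X.toBase Sa) hok N CN s0 hCN hLB (fun I hI => hdepth I (hSaS hI)) pat hp
      refine le_trans (le_of_eq (Finset.sum_congr rfl fun I hI => ?_)) h
      rw [s5t_toBase_arg X hv.tree Sa pat (hv.S_sub (hSaS hI))]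
      rfl
  -- one pattern with at most one basic side
  have hpat : ∀ (l : Fin 4) (pat : Fin 4 → Bool), PatOk pat → (∀ m, m ≠ l → pat m = false) →
      ∑ I ∈ X.S, I.len * min η ‖formV I (X.w I) (X.argv pat I)‖
        ≤ (inactE Cv D₁ δ₀ + Cq * η ^ cs * (1 + CN)) * X.root.len := by
    intro l pat hp hl
    rw [← Finset.sum_filter_add_sum_filter_not X.S (fun I => ActiveAt X.w X.mm δ₀ I)]
    have h1 := hcoreP pat hp
    have h2 := hinact Si hSiS (fun I hI => (Finset.mem_filter.1 hI).2) l pat hl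
    have h3 : ∑ I ∈ Si, I.len * min η ‖formV I (X.w I) (X.argv pat I)‖
        ≤ ∑ I ∈ Si, I.len * ‖formV I (X.w I) (X.argv pat I)‖ :=
      Finset.sum_le_sum fun I _ => mul_le_mul_of_nonneg_left (min_le_right _ _) (cell_len_nonneg I)
    linarith
  have hp0 := hpat a (s5tPat ∅) (s5t_patOk (by simp)) (fun m _ => by simp [s5tPat])
  have hpa := hpat a (s5tPat {a}) (s5t_patOk (by simp)) (fun m hm => by simp [s5tPat, hm])
  have hpb := hpat b (s5tPat {b}) (s5t_patOk (by simp)) (fun m hm => by simp [s5tPat, hm])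
  have hUU := s5t_UU_sum hq2 hv a b
  -- one cell
  have hcell : ∀ I ∈ X.S, ‖formV I (X.w I) (fun l => X.Xv l I)‖
      ≤ ‖formV I (X.w I) (fun l => X.Xv l I) - formV I (X.w I) (fun l => X.Yv l I)‖
        + min η ‖formV I (X.w I) (X.argv (s5tPat ∅) I)‖ + min η ‖formV I (X.w I) (X.argv (s5tPat {a}) I)‖
        + min η ‖formV I (X.w I) (X.argv (s5tPat {b}) I)‖ + η * (n2 I (X.Uv a I) * n2 I (X.Uv b I)) := by
    intro I hI
    have hIT := hv.S_sub hI
    have hY1 : ‖formV I (X.w I) (fun l => X.Yv l I)‖ ≤ η := by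
      have h := hpair I hI i j hij (fun l => X.Yv l I) rfl rfl
      rw [s5t_erase i j a b hij hia hib hja hjb hab, Finset.prod_pair hab] at h
      have ha3 := s5t_n2_Yv hq2 hv a hIT
      have hb3 := s5t_n2_Yv hq2 hv b hIT
      have ha0 := s5f_n2_nonneg I (X.Yv a I)
      have hb0 := s5f_n2_nonneg I (X.Yv b I)
      have h9 : n2 I (X.Yv a I) * n2 I (X.Yv b I) ≤ 3 * 3 := mul_le_mul ha3 hb3 hb0 (by norm_num)
      have : η / 9 * (n2 I (X.Yv a I) * n2 I (X.Yv b I)) ≤ η / 9 * (3 * 3) :=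
        mul_le_mul_of_nonneg_left h9 (by positivity)
      linarith
    have hUUc : ‖formV I (X.w I) (X.argv (s5tPat {a, b}) I)‖ ≤ η * (n2 I (X.Uv a I) * n2 I (X.Uv b I)) := by
      have h := hpair I hI i j hij (X.argv (s5tPat {a, b}) I)
        (by rw [s5t_Yv_lo X (hlo i hia hib)]; simp [TSeg.argv, s5tPat, hia, hib])
        (by rw [s5t_Yv_lo X (hlo j hja hjb)]; simp [TSeg.argv, s5tPat, hja, hjb])
      rw [s5t_erase i j a b hij hia hib hja hjb hab, Finset.prod_pair hab] at h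
      have ea : X.argv (s5tPat {a, b}) I a = X.Uv a I := by simp [TSeg.argv, s5tPat]
      have eb : X.argv (s5tPat {a, b}) I b = X.Uv b I := by simp [TSeg.argv, s5tPat]
      rw [ea, eb] at h
      have hnn : 0 ≤ n2 I (X.Uv a I) * n2 I (X.Uv b I) := mul_nonneg (s5f_n2_nonneg _ _) (s5f_n2_nonneg _ _)
      refine h.trans (mul_le_mul_of_nonneg_right (by linarith) hnn)
    have hY2 : ‖formV I (X.w I) (fun l => X.Yv l I)‖ ≤ ‖formV I (X.w I) (X.argv (s5tPat ∅) I)‖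
        + ‖formV I (X.w I) (X.argv (s5tPat {a}) I)‖ + ‖formV I (X.w I) (X.argv (s5tPat {b}) I)‖
        + η * (n2 I (X.Uv a I) * n2 I (X.Uv b I)) := by
      rw [s5t_form_Y hc0 hv hI hab hhi]
      refine (norm_add_le _ _).trans (add_le_add ((norm_add_le _ _).trans (add_le_add (norm_add_le _ _) le_rfl)) hUUc)
    have hY3 := s5t_min4 hη0.le (norm_nonneg _) (norm_nonneg _) (norm_nonneg _)
      (mul_nonneg hη0.le (mul_nonneg (s5f_n2_nonneg _ _) (s5f_n2_nonneg _ _))) hY1 hY2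
    have htri : ‖formV I (X.w I) (fun l => X.Xv l I)‖
        ≤ ‖formV I (X.w I) (fun l => X.Xv l I) - formV I (X.w I) (fun l => X.Yv l I)‖
          + ‖formV I (X.w I) (fun l => X.Yv l I)‖ := by
      have := norm_add_le (formV I (X.w I) (fun l => X.Xv l I) - formV I (X.w I) (fun l => X.Yv l I))
        (formV I (X.w I) (fun l => X.Yv l I))
      simpa using this
    linarith
  have hsum : ∑ I ∈ X.S, I.len * ‖formV I (X.w I) (fun l => X.Xv l I)‖
      ≤ ∑ I ∈ X.S, I.len * ‖formV I (X.w I) (fun l => X.Xv l I) - formV I (X.w I) (fun l => X.Yv l I)‖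
        + ∑ I ∈ X.S, I.len * min η ‖formV I (X.w I) (X.argv (s5tPat ∅) I)‖
        + ∑ I ∈ X.S, I.len * min η ‖formV I (X.w I) (X.argv (s5tPat {a}) I)‖
        + ∑ I ∈ X.S, I.len * min η ‖formV I (X.w I) (X.argv (s5tPat {b}) I)‖
        + η * ∑ I ∈ X.S, I.len * (n2 I (X.Uv a I) * n2 I (X.Uv b I)) := by
    rw [Finset.mul_sum, ← Finset.sum_add_distrib, ← Finset.sum_add_distrib, ← Finset.sum_add_distrib,
      ← Finset.sum_add_distrib]
    refine Finset.sum_le_sum fun I hI => ?_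
    have := mul_le_mul_of_nonneg_left (hcell I hI) (cell_len_nonneg I)
    refine this.trans (le_of_eq ?_)
    ring
  have hrepl' : ∑ I ∈ X.S, I.len * ‖formV I (X.w I) (fun l => X.Xv l I) - formV I (X.w I) (fun l => X.Yv l I)‖
      ≤ E₁ * X.root.len := hrepl
  have hUU' := mul_le_mul_of_nonneg_left hUU hη0.le
  calc ∑ I ∈ X.S, I.len * ‖formV I (X.w I) (fun l => X.Xv l I)‖
      ≤ E₁ * X.root.len + (inactE Cv D₁ δ₀ + Cq * η ^ cs * (1 + CN)) * X.root.len
        + (inactE Cv D₁ δ₀ + Cq * η ^ cs * (1 + CN)) * X.root.len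
        + (inactE Cv D₁ δ₀ + Cq * η ^ cs * (1 + CN)) * X.root.len + η * ((X.K0 : ℝ) ^ 2 * X.root.len) := by linarith
    _ = (E₁ + η * (X.K0 : ℝ) ^ 2 + 3 * inactE Cv D₁ δ₀ + 3 * (Cq * η ^ cs * (1 + CN))) * X.root.len := by ring

theorem s5t_early (c0 C0 : ℝ) (hc0 : 0 < c0) (hC0 : 1 ≤ C0) :
    ∃ Cv Cw : ℝ, 1 ≤ Cv ∧ 1 ≤ Cw ∧ ∀ q : ℝ, 2 < q → q < 3 →
      ∀ (X : TSeg) (D₁ δ₀ E₁ : ℝ), X.Valid c0 C0 q D₁ → 1 ≤ D₁ → 0 < δ₀ → δ₀ ≤ 1 → X.Repl E₁ →
          ∑ I ∈ X.S, I.len * ‖formV I (X.w I) (fun l => X.Xv l I)‖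
            ≤ (E₁ + 4 * Cw * (X.K0 : ℝ) ^ 2 + 3 * inactE Cv D₁ δ₀ + 48 * Cw * actM Cv D₁ δ₀) * X.root.len := by
  classical
  obtain ⟨Cv, hCv, HC⟩ := s5t_consts c0 C0 hc0 hC0
  obtain ⟨Cw, hCw, HW⟩ := s5f_bound c0 C0 hc0 hC0
  refine ⟨Cv, Cw, hCv, hCw, ?_⟩
  intro q hq2 _ X D₁ δ₀ E₁ hv hD₁ hδ hδ1 hrepl
  obtain ⟨hmult, hinact⟩ := HC q X D₁ δ₀ hq2 hv hD₁ hδ hδ1
  obtain ⟨i, j, a, b, hs, hhi⟩ := s5t_slots X.hi hv.hi_card
  obtain ⟨hij, hia, hib, hja, hjb, hab⟩ := id hs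
  have hCw0 : 0 < Cw := by linarith
  set Sa : Finset Cell := X.S.filter (fun I => ActiveAt X.w X.mm δ₀ I) with hSa
  set Si : Finset Cell := X.S.filter (fun I => ¬ ActiveAt X.w X.mm δ₀ I) with hSi
  have hSaS : Sa ⊆ X.S := Finset.filter_subset _ _
  have hSiS : Si ⊆ X.S := Finset.filter_subset _ _
  have hM0 : 0 ≤ actM Cv D₁ δ₀ := by
    have := hmult ∅ (Finset.empty_subset _) (by simp) (by simp)
    simpa using this
  -- total length of the active cells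
  have hact : ∑ I ∈ Sa, I.len * 1 ≤ actM Cv D₁ δ₀ * X.root.len := by
    refine cell_chain_bound (fun I hI => hv.tree.le_root I (hv.S_sub (hSaS hI))) (fun _ => 1) hM0 fun L _ => ?_
    have h := hmult (Sa.filter fun I => L ≤ I) ((Finset.filter_subset _ _).trans hSaS)
      (fun I hI I' hI' => cell_chain (Finset.mem_filter.1 hI).2 (Finset.mem_filter.1 hI').2)
      (fun I hI => (Finset.mem_filter.1 (Finset.mem_filter.1 hI).1).2)
    simpa using h
  have hbd : ∀ (pat : Fin 4 → Bool), ∀ I ∈ X.S, ‖formV I (X.w I) (X.argv pat I)‖ ≤ 16 * Cw := by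
    intro pat I hI
    have h := HW I (X.w I) (hv.adm I hI) (X.argv pat I)
    have h2 : ∏ l, n2 I (X.argv pat I l) ≤ ∏ _l : Fin 4, (2 : ℝ) :=
      Finset.prod_le_prod (fun l _ => s5f_n2_nonneg _ _) fun l _ => s5t_n2_argv hq2 hv pat l (hv.S_sub hI)
    have h3 : ∏ _l : Fin 4, (2 : ℝ) = 16 := by
      rw [Finset.prod_const, Finset.card_univ, Fintype.card_fin]; norm_num
    rw [h3] at h2
    have := mul_le_mul_of_nonneg_left h2 hCw0.le
    linarith
  have hpat : ∀ (l : Fin 4) (pat : Fin 4 → Bool), (∀ m, m ≠ l → pat m = false) →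
      ∑ I ∈ X.S, I.len * ‖formV I (X.w I) (X.argv pat I)‖
        ≤ (inactE Cv D₁ δ₀ + 16 * Cw * actM Cv D₁ δ₀) * X.root.len := by
    intro l pat hl
    rw [← Finset.sum_filter_add_sum_filter_not X.S (fun I => ActiveAt X.w X.mm δ₀ I)]
    have h2 := hinact Si hSiS (fun I hI => (Finset.mem_filter.1 hI).2) l pat hl
    have h1 : ∑ I ∈ Sa, I.len * ‖formV I (X.w I) (X.argv pat I)‖ ≤ 16 * Cw * ∑ I ∈ Sa, I.len * 1 := by
      rw [Finset.mul_sum]
      refine Finset.sum_le_sum fun I hI => ?_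
      have := mul_le_mul_of_nonneg_left (hbd pat I (hSaS hI)) (cell_len_nonneg I)
      linarith
    have h3 := mul_le_mul_of_nonneg_left hact (by positivity : (0:ℝ) ≤ 16 * Cw)
    linarith
  have hp0 := hpat a (s5tPat ∅) (fun m _ => by simp [s5tPat])
  have hpa := hpat a (s5tPat {a}) (fun m hm => by simp [s5tPat, hm])
  have hpb := hpat b (s5tPat {b}) (fun m hm => by simp [s5tPat, hm])
  have hUU := s5t_UU_sum hq2 hv a b
  have hcell : ∀ I ∈ X.S, ‖formV I (X.w I) (fun l => X.Xv l I)‖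
      ≤ ‖formV I (X.w I) (fun l => X.Xv l I) - formV I (X.w I) (fun l => X.Yv l I)‖
        + ‖formV I (X.w I) (X.argv (s5tPat ∅) I)‖ + ‖formV I (X.w I) (X.argv (s5tPat {a}) I)‖
        + ‖formV I (X.w I) (X.argv (s5tPat {b}) I)‖ + 4 * Cw * (n2 I (X.Uv a I) * n2 I (X.Uv b I)) := by
    intro I hI
    have hIT := hv.S_sub hI
    have hUUc : ‖formV I (X.w I) (X.argv (s5tPat {a, b}) I)‖ ≤ 4 * Cw * (n2 I (X.Uv a I) * n2 I (X.Uv b I)) := by
      have h := HW I (X.w I) (hv.adm I hI) (X.argv (s5tPat {a, b}) I)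
      rw [s5t_prod4 hs] at h
      have ea : X.argv (s5tPat {a, b}) I a = X.Uv a I := by simp [TSeg.argv, s5tPat]
      have eb : X.argv (s5tPat {a, b}) I b = X.Uv b I := by simp [TSeg.argv, s5tPat]
      rw [ea, eb] at h
      have hnn : 0 ≤ n2 I (X.Uv a I) * n2 I (X.Uv b I) := mul_nonneg (s5f_n2_nonneg _ _) (s5f_n2_nonneg _ _)
      have h4 : n2 I (X.argv (s5tPat {a, b}) I i) * n2 I (X.argv (s5tPat {a, b}) I j) ≤ 2 * 2 :=
        mul_le_mul (s5t_n2_argv hq2 hv _ i hIT) (s5t_n2_argv hq2 hv _ j hIT) (s5f_n2_nonneg _ _) (by norm_num)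
      have h5 := mul_le_mul_of_nonneg_right h4 hnn
      have h6 := mul_le_mul_of_nonneg_left h5 hCw0.le
      linarith
    have hY2 : ‖formV I (X.w I) (fun l => X.Yv l I)‖ ≤ ‖formV I (X.w I) (X.argv (s5tPat ∅) I)‖
        + ‖formV I (X.w I) (X.argv (s5tPat {a}) I)‖ + ‖formV I (X.w I) (X.argv (s5tPat {b}) I)‖
        + 4 * Cw * (n2 I (X.Uv a I) * n2 I (X.Uv b I)) := by
      rw [s5t_form_Y hc0 hv hI hab hhi]
      refine (norm_add_le _ _).trans (add_le_add ((norm_add_le _ _).trans (add_le_add (norm_add_le _ _) le_rfl)) hUUc)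
    have htri : ‖formV I (X.w I) (fun l => X.Xv l I)‖
        ≤ ‖formV I (X.w I) (fun l => X.Xv l I) - formV I (X.w I) (fun l => X.Yv l I)‖
          + ‖formV I (X.w I) (fun l => X.Yv l I)‖ := by
      have := norm_add_le (formV I (X.w I) (fun l => X.Xv l I) - formV I (X.w I) (fun l => X.Yv l I))
        (formV I (X.w I) (fun l => X.Yv l I))
      simpa using this
    linarith
  have hsum : ∑ I ∈ X.S, I.len * ‖formV I (X.w I) (fun l => X.Xv l I)‖
      ≤ ∑ I ∈ X.S, I.len * ‖formV I (X.w I) (fun l => X.Xv l I) - formV I (X.w I) (fun l => X.Yv l I)‖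
        + ∑ I ∈ X.S, I.len * ‖formV I (X.w I) (X.argv (s5tPat ∅) I)‖
        + ∑ I ∈ X.S, I.len * ‖formV I (X.w I) (X.argv (s5tPat {a}) I)‖
        + ∑ I ∈ X.S, I.len * ‖formV I (X.w I) (X.argv (s5tPat {b}) I)‖
        + 4 * Cw * ∑ I ∈ X.S, I.len * (n2 I (X.Uv a I) * n2 I (X.Uv b I)) := by
    rw [Finset.mul_sum, ← Finset.sum_add_distrib, ← Finset.sum_add_distrib, ← Finset.sum_add_distrib,
      ← Finset.sum_add_distrib]
    refine Finset.sum_le_sum fun I hI => ?_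
    have := mul_le_mul_of_nonneg_left (hcell I hI) (cell_len_nonneg I)
    refine this.trans (le_of_eq ?_)
    ring
  have hrepl' : ∑ I ∈ X.S, I.len * ‖formV I (X.w I) (fun l => X.Xv l I) - formV I (X.w I) (fun l => X.Yv l I)‖
      ≤ E₁ * X.root.len := hrepl
  have hUU' := mul_le_mul_of_nonneg_left hUU (by positivity : (0:ℝ) ≤ 4 * Cw)
  calc ∑ I ∈ X.S, I.len * ‖formV I (X.w I) (fun l => X.Xv l I)‖
      ≤ E₁ * X.root.len + (inactE Cv D₁ δ₀ + 16 * Cw * actM Cv D₁ δ₀) * X.root.len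
        + (inactE Cv D₁ δ₀ + 16 * Cw * actM Cv D₁ δ₀) * X.root.len
        + (inactE Cv D₁ δ₀ + 16 * Cw * actM Cv D₁ δ₀) * X.root.len
        + 4 * Cw * ((X.K0 : ℝ) ^ 2 * X.root.len) := by linarith
    _ = (E₁ + 4 * Cw * (X.K0 : ℝ) ^ 2 + 3 * inactE Cv D₁ δ₀ + 48 * Cw * actM Cv D₁ δ₀) * X.root.len := by ring

end Claimed.Agent.R258
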