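/-
Row 258, Secs. 5.3-5.5 + 10.4, architect helper182.   THE ESTIMATE OF ONE TUPLE `(u,t)` ON THE GLOBAL NORMALIZED TREE.
`TPar` = the parameters of the tuples of level `t` (functions of `k = k_t` only), `TPar.Ok` = the inequalities between them (satisfiability: S5/Num.lean).
`s5u_tuple`: there are absolute constants `Cp` (predictors), `Cv` (active cells, late levels), `CvE, Cw` (early levels) such that
   late  (`t ≥ 12`):  `∑_{I ∈ S} |I| |H_I(X^{(u,t)})| ≤ 64 (4 e^{-k} + η K0² + 3 C_q η^{c_*} (1 + C_N)) |root|`,  `η = exp(-k^θ)`;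
   early           :  `… ≤ 64 (e^{-k} + 4 Cw K0² + 3 inactE + 48 Cw actM) |root|`.
PROOF: `s5l_older` (factor 16), `s5b_high` (factor 4), `s5l_pairs`, `s5t_late` / `s5t_early`.
-/
import Claimed.Agent.R258.Pack003
import Claimed.Agent.R258.S5.Tuple

set_option autoImplicit false
open MeasureTheory

namespace Claimed.Agent.R258

/-- the parameters of the tuples of one level -/
structure TPar where
  Dold : ℝ
  B : ℝ
  ε : ℝ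
  K0 : ℕ
  δa : ℝ
  ρa : ℝ
  Ha : ℝ
  δb : ℝ
  ρb : ℝ
  Hb : ℝ
  Da : ℝ
  D₁ : ℝ
  D : ℝ
  δ₀ : ℝ

/-- the inequalities between the parameters at accuracy log `k` -/
structure TPar.Ok (P : TPar) (Cp Cv Cb k : ℝ) : Prop where
  Dold1 : 1 ≤ P.Dold
  B1 : 1 ≤ P.B
  ε0 : 0 < P.ε
  ε1 : P.ε ≤ 1
  ρa0 : 0 < P.ρa
  ρa1 : P.ρa ≤ 1
  Ha0 : 0 ≤ P.Ha
  ρb0 : 0 < P.ρb
  ρb1 : P.ρb ≤ 1
  Hb0 : 0 ≤ P.Hb
  Da_ge : preBud Cp P.Dold P.B P.ε + (P.Ha + 9 / P.ρa ^ 2) ≤ P.Da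
  Da_le : P.Da ≤ P.D₁
  Db_le : preBud Cp P.Dold P.B P.ε + (P.Hb + 9 / P.ρb ^ 2) ≤ P.D₁
  Dold_le : P.Dold ≤ P.D₁
  D_ge : Real.exp k ≤ P.D
  D_le : P.D ≤ Real.exp (k ^ Cb)
  D_sq : 8 * P.D₁ ^ 2 ≤ P.D
  δ₀0 : 0 < P.δ₀
  δ₀1 : P.δ₀ ≤ 1
  act : actM Cv P.D₁ P.δ₀ ≤ P.D ^ Cb
  K0_le : (P.K0 : ℝ) ^ 2 ≤ k ^ Cb
  err : highErr Cp P.Dold P.B P.ε P.D₁ P.K0 ≤ Real.exp (-k)
  inact : inactE Cv P.D₁ P.δ₀ ≤ Real.exp (-k)
  δb0 : 0 ≤ P.δb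
  δba : P.δb ≤ P.δa
  dom : P.δb * newSz P.Da P.K0 ≤ P.δa

/-- the context of one tuple -/
structure TupCtx (c0 C0 q : ℝ) (G : GTree) (L : ℕ → LevData) (Dl δ : ℕ → ℝ) (u t : ℕ) (P : TPar) : Prop where
  hG : G.Valid c0 C0 q
  sys : LevSys G q L Dl δ
  u1 : 1 ≤ u
  ut : u < t
  pos : pos4 u ≠ pos4 t
  detA : Detect c0 C0 q P.δa P.ρa P.Ha
  detB : Detect c0 C0 q P.δb P.ρb P.Hb
  Dold : ∀ s, s ≤ t → Dl s ≤ P.Dold

/-- the tuple sum -/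
noncomputable def tupSum (G : GTree) (L : ℕ → LevData) (u t : ℕ) : ℝ :=
  ∑ I ∈ G.S, I.len * ‖formV I (G.w I) (xarg (fun l => restr I.set (G.F l)) (fun s => levG G L s I) u t)‖

/-- the bound of a late tuple -/
noncomputable def bdLate (θ cs Cq k CN : ℝ) (K0 : ℕ) : ℝ :=
  4 * Real.exp (-k) + Real.exp (-(k ^ θ)) * (K0 : ℝ) ^ 2 + 3 * (Cq * Real.exp (-(k ^ θ)) ^ cs * (1 + CN))

/-- the bound of an early tuple -/
noncomputable def bdEarly (CvE Cw k : ℝ) (P : TPar) : ℝ :=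
  Real.exp (-k) + 4 * Cw * (P.K0 : ℝ) ^ 2 + 3 * inactE CvE P.D₁ P.δ₀ + 48 * Cw * actM CvE P.D₁ P.δ₀

theorem s5u_exists_slots {i j : Fin 4} (h : i ≠ j) : ∃ a b, slot4 i j a b := by
  unfold slot4
  revert i j
  decide

theorem s5u_tuple (c0 C0 : ℝ) (hc0 : 0 < c0) (hC0 : 1 ≤ C0) :
    ∃ Cp Cv CvE Cw : ℝ, 1 ≤ Cp ∧ 1 ≤ Cv ∧ 1 ≤ CvE ∧ 1 ≤ Cw ∧
      (∀ q θ Cb cs Cq kmin : ℝ, 2 < q → q < 3 → 0 ≤ Cq → CoreEstimate c0 C0 q θ Cb cs Cq kmin →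
        ∀ (G : GTree) (L : ℕ → LevData) (Dl δ : ℕ → ℝ) (u t : ℕ) (P : TPar) (k : ℝ),
          TupCtx c0 C0 q G L Dl δ u t P → P.Ok Cp Cv Cb k → kmin ≤ k → 12 ≤ t →
          (∀ s, 1 ≤ Dl s) → (∀ s, 0 ≤ δ s) → Antitone δ → (∀ x y : ℕ, x < y → δ y * (Dl x) ^ 2 ≤ δ (y - 1)) →
          P.δa ≤ δ (t + 1) → 72 * δ (t - 7) ≤ Real.exp (-(k ^ θ)) →
          ∀ (N : ℕ) (CN : ℝ) (s0 : ℤ), 0 ≤ CN → LocalBound c0 C0 q N CN →
            (∀ I ∈ G.S, s0 ≤ I.depth ∧ I.depth < s0 + N) →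
            tupSum G L u t ≤ 64 * bdLate θ cs Cq k CN P.K0 * G.root.len) ∧
      (∀ q Cb : ℝ, 2 < q → q < 3 →
        ∀ (G : GTree) (L : ℕ → LevData) (Dl δ : ℕ → ℝ) (u t : ℕ) (P : TPar) (k : ℝ),
          TupCtx c0 C0 q G L Dl δ u t P → P.Ok Cp Cv Cb k →
            tupSum G L u t ≤ 64 * bdEarly CvE Cw k P * G.root.len) := by
  obtain ⟨Cp, hCp, hhigh⟩ := s5b_high c0 C0 hc0 hC0
  obtain ⟨Cv, hCv, hlate⟩ := s5t_late c0 C0 hc0 hC0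
  obtain ⟨CvE, Cw, hCvE, hCw, hearly⟩ := s5t_early c0 C0 hc0 hC0
  refine ⟨Cp, Cv, CvE, Cw, hCp, hCv, hCvE, hCw, ?_, ?_⟩
  · intro q θ Cb cs Cq kmin hq2 hq3 hCq hcore G L Dl δ u t P k hctx hP hk ht hDl hδ0 hδm hst hδa hη N CN s0 hCN hLB hdep
    obtain ⟨a, b, hs⟩ := s5u_exists_slots hctx.pos
    have hBd : 0 ≤ bdLate θ cs Cq k CN P.K0 := by
      unfold bdLate
      have : 0 ≤ Real.exp (-(k ^ θ)) ^ cs := Real.rpow_nonneg (Real.exp_pos _).le _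
      positivity
    have hD₁ : 1 ≤ P.D₁ := hP.Dold1.trans hP.Dold_le
    have hDa0 : 0 < P.Da := by
      have h1 : 0 < preBud Cp P.Dold P.B P.ε := by
        unfold preBud qpoly
        have := hP.Dold1
        have := Real.sqrt_pos.2 hP.ε0
        positivity
      have h2 : 0 ≤ 9 / P.ρa ^ 2 := by have := hP.ρa0; positivity
      linarith [hP.Da_ge, hP.Ha0]
    have h := s5l_older c0 C0 q G hctx.hG L Dl δ hctx.sys u t hctx.u1 hctx.ut a b hs P.Dold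
      (4 * bdLate θ cs Cq k CN P.K0) hctx.Dold (by positivity) (fun X₀ hv₀ hold hS hT hw hf hlink => ?_)
    · unfold tupSum
      refine h.trans (le_of_eq ?_)
      ring
    refine hhigh q hq2 hq3 X₀ _ _ a b (levLab 0) P.Dold P.B P.ε P.δa P.ρa P.Ha P.δb P.ρb P.Hb P.K0 hv₀ hold hP.Dold1 hP.B1
      hP.ε0 hP.ε1 hctx.detA hP.ρa0 hP.ρa1 hP.Ha0 hctx.detB hP.ρb0 hP.ρb1 hP.Hb0 P.Da P.D₁ (Real.exp (-k)) _ hP.Da_ge hP.Da_le
      hP.Db_le hP.Dold_le hP.err hBd (fun X hXv hXr hK hrepl hBa hsa hsb => ?_)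
    have hpairs := s5l_pairs c0 C0 q hc0 hq2 G hctx.hG L Dl δ hctx.sys hDl hδ0 hδm hst u t hctx.u1 hctx.ut ht a b X₀ X P.D₁ P.Da
      P.δa P.δb (Real.exp (-(k ^ θ))) hS hv₀.S_sub hw hf hold.toSlots hlink hXv hXr (by linarith) hDa0 hBa
      (by rw [hK]; exact hsa) (by rw [hK]; exact hsb) hδa hP.δb0 hP.δba (by rw [hK]; exact hP.dom) hη
    have h1 := hlate q θ Cb cs Cq kmin hq2 hq3 hcore X k P.D₁ P.D P.δ₀ (Real.exp (-k)) hk hXv hD₁ hP.D_ge hP.D_le hP.D_sq hP.δ₀0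
      hP.δ₀1 hP.act (by rw [hK]; exact hP.K0_le) hrepl hpairs N CN s0 hCN hLB (fun I hI => hdep I (hS (hXr.S_sub hI)))
    refine h1.trans (mul_le_mul_of_nonneg_right ?_ (cell_len_nonneg _))
    unfold bdLate
    rw [hK]
    have := hP.inact
    linarith
  · intro q Cb hq2 hq3 G L Dl δ u t P k hctx hP
    obtain ⟨a, b, hs⟩ := s5u_exists_slots hctx.pos
    have hD₁ : 1 ≤ P.D₁ := hP.Dold1.trans hP.Dold_le
    have hlog : 0 ≤ Real.log (2 * P.D₁) + Real.log (1 / P.δ₀) := by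
      have h1 : 0 ≤ Real.log (2 * P.D₁) := Real.log_nonneg (by linarith)
      have h2 : 0 ≤ Real.log (1 / P.δ₀) := Real.log_nonneg (by
        rw [le_div_iff₀ hP.δ₀0]; linarith [hP.δ₀1])
      linarith
    have hpl : 0 ≤ plog CvE (Real.log (2 * P.D₁) + Real.log (1 / P.δ₀)) := s5b_plog_nonneg (by linarith) hlog
    have hBd : 0 ≤ bdEarly CvE Cw k P := by
      unfold bdEarly inactE actM
      have := hP.δ₀0
      positivity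
    have h := s5l_older c0 C0 q G hctx.hG L Dl δ hctx.sys u t hctx.u1 hctx.ut a b hs P.Dold
      (4 * bdEarly CvE Cw k P) hctx.Dold (by positivity) (fun X₀ hv₀ hold hS hT hw hf hlink => ?_)
    · unfold tupSum
      refine h.trans (le_of_eq ?_)
      ring
    refine hhigh q hq2 hq3 X₀ _ _ a b (levLab 0) P.Dold P.B P.ε P.δa P.ρa P.Ha P.δb P.ρb P.Hb P.K0 hv₀ hold hP.Dold1 hP.B1
      hP.ε0 hP.ε1 hctx.detA hP.ρa0 hP.ρa1 hP.Ha0 hctx.detB hP.ρb0 hP.ρb1 hP.Hb0 P.Da P.D₁ (Real.exp (-k)) _ hP.Da_ge hP.Da_le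
      hP.Db_le hP.Dold_le hP.err hBd (fun X hXv hXr hK hrepl hBa hsa hsb => ?_)
    have h1 := hearly q hq2 hq3 X P.D₁ P.δ₀ (Real.exp (-k)) hXv hD₁ hP.δ₀0 hP.δ₀1 hrepl
    refine h1.trans (le_of_eq ?_)
    unfold bdEarly
    rw [hK]

end Claimed.Agent.R258
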