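/-
Row 258, Secs. 5.4-5.5, helper182.   NUMERICS: the parameters of the tuples (`s5n_par`).   Sketch: header of S5/Num.lean.
-/
import Claimed.Agent.R258.S5.TupleSum

set_option autoImplicit false
open Filter

namespace Claimed.Agent.R258


theorem s5n_gap (c a b : ℝ) (h : a < b) : ∀ᶠ k : ℝ in atTop, c * k ^ a ≤ k ^ b := by
  have h1 : Tendsto (fun k : ℝ => k ^ (b - a)) atTop atTop := tendsto_rpow_atTop (by linarith)
  filter_upwards [h1.eventually_ge_atTop c, eventually_gt_atTop 0] with k hk hk0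
  have : k ^ b = k ^ (b - a) * k ^ a := by rw [← Real.rpow_add hk0]; congr 1; ring
  rw [this]
  exact mul_le_mul_of_nonneg_right hk (Real.rpow_nonneg hk0.le _)

theorem s5n_pow_le_exp (p : ℝ) : ∀ᶠ k : ℝ in atTop, k ^ p ≤ Real.exp k := by
  have := (isLittleO_rpow_exp_atTop p).bound (c := 1) one_pos
  filter_upwards [this, eventually_gt_atTop 0] with k hk hk0
  simpa [abs_of_pos (Real.rpow_pos_of_pos hk0 p), abs_of_pos (Real.exp_pos k)] using hk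

theorem s5n_two_pow (n : ℕ) : (2 : ℝ) ^ n ≤ Real.exp n := by
  have h : (2 : ℝ) ≤ Real.exp 1 := by have := Real.add_one_le_exp (1 : ℝ); linarith
  calc (2 : ℝ) ^ n ≤ (Real.exp 1) ^ n := pow_le_pow_left₀ (by norm_num) h n
    _ = Real.exp n := by rw [← Real.exp_nat_mul]; simp

/-- polylogarithmic factors are eventually at most `e^k` -/
theorem s5n_plog_le (C e : ℝ) (hC : 1 ≤ C) (he : 0 ≤ e) :
    ∀ᶠ k : ℝ in atTop, ∀ x : ℝ, 0 ≤ x → x ≤ k ^ e → plog C x ≤ Real.exp k := by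
  filter_upwards [s5n_gap (2 * C) e (e + 1) (by linarith), s5n_pow_le_exp ((e + 1) * C), eventually_ge_atTop 1]
    with k h1 h2 hk
  intro x hx hxk
  have hk0 : 0 ≤ k := by linarith
  have hC0 : 0 ≤ C := by linarith
  have hke : 1 ≤ k ^ e := Real.one_le_rpow hk he
  refine (s5b_plog_mono hC0 hx hxk).trans ?_
  unfold plog
  have h4 : C * (1 + k ^ e) ≤ k ^ (e + 1) := by nlinarith
  calc (C * (1 + k ^ e)) ^ C ≤ (k ^ (e + 1)) ^ C := Real.rpow_le_rpow (by positivity) h4 hC0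
    _ = k ^ ((e + 1) * C) := by rw [← Real.rpow_mul hk0]
    _ ≤ Real.exp k := h2

theorem s5n_log_two_exp (x : ℝ) : Real.log (2 * Real.exp x) ≤ 1 + x := by
  rw [Real.log_mul (by norm_num) (Real.exp_pos x).ne', Real.log_exp]
  have : Real.log 2 ≤ 2 - 1 := Real.log_le_sub_one_of_pos (by norm_num)
  linarith

theorem s5n_log_two_exp_nonneg {x : ℝ} (hx : 0 ≤ x) : 0 ≤ Real.log (2 * Real.exp x) := by
  apply Real.log_nonneg
  have := Real.one_le_exp hx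
  linarith

/-- the predictor budget -/
theorem s5n_Q_le {Cp k e1 e2 e3 : ℝ} (hCp : 1 ≤ Cp) (hk : 1 ≤ k) (he1 : 0 ≤ e1) (he2 : 0 ≤ e2) (h12 : 1 + k ^ e1 ≤ k ^ e2)
    (h3 : Cp * 3 ^ Cp * k ^ (e2 * Cp) ≤ k ^ e3) :
    qpoly Cp (k ^ e2 + Real.log (2 * Real.exp (k ^ e1))) ≤ Real.exp (k ^ e3) := by
  unfold qpoly
  apply Real.exp_le_exp.2
  have hk0 : 0 ≤ k := by linarith
  have h1 : 1 ≤ k ^ e2 := Real.one_le_rpow hk he2
  have h0 : 0 ≤ k ^ e1 := Real.rpow_nonneg hk0 _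
  have hl := s5n_log_two_exp (k ^ e1)
  have hl0 := s5n_log_two_exp_nonneg h0
  have h4 : 1 + (k ^ e2 + Real.log (2 * Real.exp (k ^ e1))) ≤ 3 * k ^ e2 := by linarith
  calc Cp * (1 + (k ^ e2 + Real.log (2 * Real.exp (k ^ e1)))) ^ Cp ≤ Cp * (3 * k ^ e2) ^ Cp :=
        mul_le_mul_of_nonneg_left (Real.rpow_le_rpow (by positivity) h4 (by linarith)) (by linarith)
    _ = Cp * 3 ^ Cp * k ^ (e2 * Cp) := by
        rw [Real.mul_rpow (by norm_num) (by positivity), ← Real.rpow_mul hk0]; ring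
    _ ≤ k ^ e3 := h3

theorem s5n_sqrt_exp (x : ℝ) : Real.sqrt (Real.exp (-(2 * x))) = Real.exp (-x) := by
  rw [← Real.exp_half]; congr 1; ring

theorem s5n_two_rpow_neg {K x : ℝ} (h : x ≤ K) (hx : 0 ≤ x) : (2 : ℝ) ^ (-K) ≤ Real.exp (-(x / 2)) := by
  rw [Real.rpow_def_of_pos (by norm_num)]
  apply Real.exp_le_exp.2
  have := Real.log_two_gt_d9
  nlinarith

theorem s5n_two_rpow_le {K : ℝ} (hK : 0 ≤ K) : (2 : ℝ) ^ (K / 2) ≤ Real.exp K := by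
  rw [Real.rpow_def_of_pos (by norm_num)]
  apply Real.exp_le_exp.2
  have : Real.log 2 ≤ 2 - 1 := Real.log_le_sub_one_of_pos (by norm_num)
  nlinarith

theorem s5n_lin_le_exp_half {x : ℝ} (hx : 6 ≤ x) : 2 + x ≤ Real.exp (x / 2) := by
  have := Real.quadratic_le_exp_of_nonneg (x := x / 2) (by linarith)
  nlinarith

/-- `c e^y ≤ e^z` if `c ≤ 2^n`, `n + y ≤ z` -/
theorem s5n_mul_exp_le {c y z : ℝ} (n : ℕ) (hc : c ≤ 2 ^ n) (h : (n : ℝ) + y ≤ z) : c * Real.exp y ≤ Real.exp z := by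
  calc c * Real.exp y ≤ Real.exp n * Real.exp y :=
        mul_le_mul_of_nonneg_right (hc.trans (s5n_two_pow n)) (Real.exp_pos y).le
    _ = Real.exp (n + y) := by rw [Real.exp_add]
    _ ≤ Real.exp z := Real.exp_le_exp.2 h

theorem s5n_le_sq {x : ℝ} (h : 1 ≤ x) : x ≤ x ^ 2 := by nlinarith

theorem s5n_sqrt_le_self {x : ℝ} (h : 1 ≤ x) : Real.sqrt x ≤ x := by
  rw [Real.sqrt_le_left (by linarith)]
  exact s5n_le_sq h

/-- the record of parameters -/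
noncomputable def s5nP (Cp p1 p2 p4 pA pAd p7 p7d : ℝ) (K0 : ℕ) : TPar :=
  let Dold := Real.exp p1
  let ε := Real.exp (-(2 * p4))
  let pB := preBud Cp Dold p2 ε
  let Da := pB + (Real.exp pAd + 9 / (Real.exp (-pAd)) ^ 2)
  let D₁ := Da + (pB + (Real.exp p7d + 9 / (Real.exp (-p7d)) ^ 2)) + Dold
  { Dold := Dold, B := p2, ε := ε, K0 := K0, δa := Real.exp (-pA), ρa := Real.exp (-pAd), Ha := Real.exp pAd,
    δb := Real.exp (-p7), ρb := Real.exp (-p7d), Hb := Real.exp p7d, Da := Da, D₁ := D₁, D := 8 * D₁ ^ 2,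
    δ₀ := (D₁ ^ 8)⁻¹ }

theorem s5n_nine_div (x : ℝ) : 9 / (Real.exp (-x)) ^ 2 = 9 * Real.exp (2 * x) := by
  rw [← Real.exp_nat_mul, div_eq_mul_inv, ← Real.exp_neg]
  congr 2
  push_cast; ring

set_option maxHeartbeats 1000000 in
theorem s5n_par_core (Cp Cv Cb k p1 p2 p3 p4 pA pAd p6 p6' p7 p7d p8 p8' : ℝ) (K0 : ℕ) (hCp : 1 ≤ Cp) (hCv : 1 ≤ Cv)
    (hCb : 2 ≤ Cb) (h0 : 10 ≤ k) (h1 : 10 * k ≤ p1) (h2 : 10 * p1 ≤ p2) (h13 : p1 ≤ p3) (h4 : (10 * Cp + 100) * p3 ≤ p4)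
    (h6 : 100 * p4 ≤ p6) (h6a : 100 * pAd ≤ p6) (hAd : pA ≤ pAd) (hA0 : 0 ≤ pA) (h6' : 100 * p6 ≤ p6') (h7 : 100 * p6' ≤ p7)
    (h7d : p7 ≤ p7d) (h8 : 100 * p7d ≤ p8) (h8' : 100 * p8 ≤ p8') (hb : p8' ≤ k ^ Cb) (hKb : (p4 + 1) ^ 2 ≤ k ^ Cb)
    (hK1 : p4 ≤ K0) (hK2 : (K0 : ℝ) ≤ p4 + 1)
    (hQ : qpoly Cp (p2 + Real.log (2 * Real.exp p1)) ≤ Real.exp p3)
    (hpv : ∀ x : ℝ, 0 ≤ x → x ≤ p8' → plog Cv x ≤ Real.exp k)
    (hpp : ∀ x : ℝ, 0 ≤ x → x ≤ p8' → plog Cp x ≤ Real.exp k) :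
    (s5nP Cp p1 p2 p4 pA pAd p7 p7d K0).Ok Cp Cv Cb k := by
  -- opaque names
  obtain ⟨Q, hQdef⟩ : ∃ Q, Q = qpoly Cp (p2 + Real.log (2 * Real.exp p1)) := ⟨_, rfl⟩
  have hQ0 : 0 < Q := by rw [hQdef]; exact Real.exp_pos _
  rw [← hQdef] at hQ
  obtain ⟨pB, hpB⟩ : ∃ x, x = preBud Cp (Real.exp p1) p2 (Real.exp (-(2 * p4))) := ⟨_, rfl⟩
  have hpB' : pB = 4 * Real.exp (2 * p1) * Q + Real.exp p4 := by
    rw [hpB]; unfold preBud
    rw [s5n_sqrt_exp, ← hQdef, one_div, ← Real.exp_neg, neg_neg, mul_pow, ← Real.exp_nat_mul]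
    norm_num
  obtain ⟨Da, hDa⟩ : ∃ x, x = pB + (Real.exp pAd + 9 / (Real.exp (-pAd)) ^ 2) := ⟨_, rfl⟩
  obtain ⟨D₁, hD₁⟩ : ∃ x, x = Da + (pB + (Real.exp p7d + 9 / (Real.exp (-p7d)) ^ 2)) + Real.exp p1 := ⟨_, rfl⟩
  have hP : s5nP Cp p1 p2 p4 pA pAd p7 p7d K0 = (⟨Real.exp p1, p2, Real.exp (-(2 * p4)), K0,
      Real.exp (-pA), Real.exp (-pAd), Real.exp pAd, Real.exp (-p7), Real.exp (-p7d),
      Real.exp p7d, Da, D₁, 8 * D₁ ^ 2, (D₁ ^ 8)⁻¹⟩ : TPar) := by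
    rw [hD₁, hDa, hpB]; rfl
  rw [hP]
  -- sizes
  have hp1 : 100 ≤ p1 := by linarith
  have hp3 : 100 ≤ p3 := by linarith
  have hCp3 : 0 ≤ Cp * p3 := mul_nonneg (by linarith) (by linarith)
  have h4' : 10 * (Cp * p3) + 100 * p3 ≤ p4 := by
    have : (10 * Cp + 100) * p3 = 10 * (Cp * p3) + 100 * p3 := by ring
    linarith
  have hp4 : 100 * p3 ≤ p4 := by linarith
  have hpAd0 : 0 ≤ pAd := hA0.trans hAd
  have hpB0 : 0 < pB := by rw [hpB']; positivity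
  have hpBle : pB ≤ 2 * Real.exp p4 := by
    rw [hpB']
    have : 4 * Real.exp (2 * p1) * Q ≤ Real.exp p4 := by
      calc 4 * Real.exp (2 * p1) * Q ≤ 4 * Real.exp (2 * p1) * Real.exp p3 := mul_le_mul_of_nonneg_left hQ (by positivity)
        _ = 4 * Real.exp (2 * p1 + p3) := by rw [Real.exp_add]; ring
        _ ≤ Real.exp p4 := s5n_mul_exp_le 2 (by norm_num) (by push_cast; linarith)
    linarith
  have hDa' : Da = pB + (Real.exp pAd + 9 * Real.exp (2 * pAd)) := by rw [hDa, s5n_nine_div]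
  have hDa0 : 1 ≤ Da := by
    rw [hDa']
    have := Real.one_le_exp hpAd0
    have := Real.exp_pos (2 * pAd)
    linarith
  have hDale : Da ≤ Real.exp p6 := by
    rw [hDa']
    have e1 : Real.exp p4 ≤ Real.exp (p6 / 50) := Real.exp_le_exp.2 (by linarith)
    have e2 : Real.exp pAd ≤ Real.exp (p6 / 50) := Real.exp_le_exp.2 (by linarith)
    have e3 : Real.exp (2 * pAd) ≤ Real.exp (p6 / 50) := Real.exp_le_exp.2 (by linarith)
    calc pB + (Real.exp pAd + 9 * Real.exp (2 * pAd)) ≤ 16 * Real.exp (p6 / 50) := by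
          have := Real.exp_pos (p6 / 50); linarith
      _ ≤ Real.exp p6 := s5n_mul_exp_le 4 (by norm_num) (by push_cast; linarith)
  have hD₁' : D₁ = Da + (pB + (Real.exp p7d + 9 * Real.exp (2 * p7d))) + Real.exp p1 := by rw [hD₁, s5n_nine_div]
  have hp7d : 0 ≤ p7d := by linarith
  have hD₁ge : Real.exp p1 ≤ D₁ := by
    rw [hD₁']
    have := Real.exp_pos p7d
    have := Real.exp_pos (2 * p7d)
    linarith
  have hD₁le : D₁ ≤ Real.exp p8 := by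
    rw [hD₁']
    have e1 : Real.exp p6 ≤ Real.exp (2 * p7d) := Real.exp_le_exp.2 (by linarith)
    have e2 : Real.exp p4 ≤ Real.exp (2 * p7d) := Real.exp_le_exp.2 (by linarith)
    have e3 : Real.exp p7d ≤ Real.exp (2 * p7d) := Real.exp_le_exp.2 (by linarith)
    have e4 : Real.exp p1 ≤ Real.exp (2 * p7d) := Real.exp_le_exp.2 (by linarith)
    calc Da + (pB + (Real.exp p7d + 9 * Real.exp (2 * p7d))) + Real.exp p1 ≤ 16 * Real.exp (2 * p7d) := by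
          have := Real.exp_pos (2 * p7d); linarith
      _ ≤ Real.exp p8 := s5n_mul_exp_le 4 (by norm_num) (by push_cast; linarith)
  have hek : Real.exp k ≤ D₁ := (Real.exp_le_exp.2 (by linarith)).trans hD₁ge
  have hD₁1 : 1 ≤ D₁ := (Real.one_le_exp (by linarith)).trans hek
  have hD₁0 : 0 < D₁ := by linarith
  have hlog0 : 0 ≤ Real.log D₁ := Real.log_nonneg hD₁1
  have hlogle : Real.log D₁ ≤ p8 := by rw [Real.log_le_iff_le_exp hD₁0]; exact hD₁le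
  have hK0 : (0 : ℝ) ≤ K0 := Nat.cast_nonneg _
  have hexpk : 0 < Real.exp k := Real.exp_pos k
  -- the argument of the polylogarithm of the active cells
  have hδlog : Real.log (1 / (D₁ ^ 8)⁻¹) = 8 * Real.log D₁ := by
    rw [one_div, inv_inv, Real.log_pow]; norm_num
  have hlog2 : Real.log (2 * D₁) ≤ 1 + Real.log D₁ := by
    rw [Real.log_mul (by norm_num) hD₁0.ne']
    have : Real.log 2 ≤ 2 - 1 := Real.log_le_sub_one_of_pos (by norm_num)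
    linarith
  have hlog20 : 0 ≤ Real.log (2 * D₁) := Real.log_nonneg (by linarith)
  have hplv : plog Cv (Real.log (2 * D₁) + Real.log (1 / (D₁ ^ 8)⁻¹)) ≤ Real.exp k := by
    rw [hδlog]
    exact hpv _ (by linarith) (by linarith)
  have hplv0 : 0 ≤ plog Cv (Real.log (2 * D₁) + Real.log (1 / (D₁ ^ 8)⁻¹)) := by
    rw [hδlog]
    exact s5b_plog_nonneg (by linarith) (by linarith)
  have hplp : plog Cp (Real.log D₁ + K0 + K0) ≤ Real.exp k := hpp _ (by linarith) (by linarith)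
  have hplp0 : 0 ≤ plog Cp (Real.log D₁ + K0 + K0) := s5b_plog_nonneg (by linarith) (by linarith)
  refine ⟨?_, ?_, ?_, ?_, ?_, ?_, ?_, ?_, ?_, ?_, ?_, ?_, ?_, ?_, ?_, ?_, ?_, ?_, ?_, ?_, ?_, ?_, ?_, ?_, ?_, ?_⟩
  · exact Real.one_le_exp (by linarith)
  · show 1 ≤ p2
    linarith
  · exact Real.exp_pos _
  · exact Real.exp_le_one_iff.2 (by linarith)
  · exact Real.exp_pos _
  · exact Real.exp_le_one_iff.2 (by linarith)
  · exact (Real.exp_pos _).le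
  · exact Real.exp_pos _
  · exact Real.exp_le_one_iff.2 (by linarith)
  · exact (Real.exp_pos _).le
  · show preBud Cp (Real.exp p1) p2 (Real.exp (-(2 * p4))) + (Real.exp pAd + 9 / (Real.exp (-pAd)) ^ 2) ≤ Da
    rw [hDa, hpB]
  · show Da ≤ D₁
    rw [hD₁']
    have := Real.exp_pos p7d
    have := Real.exp_pos (2 * p7d)
    have := Real.exp_pos p1
    linarith
  · show preBud Cp (Real.exp p1) p2 (Real.exp (-(2 * p4))) + (Real.exp p7d + 9 / (Real.exp (-p7d)) ^ 2) ≤ D₁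
    rw [hD₁, ← hpB]
    have := Real.exp_pos p1
    linarith
  · exact hD₁ge
  · show Real.exp k ≤ 8 * D₁ ^ 2
    have := s5n_le_sq hD₁1
    linarith
  · show 8 * D₁ ^ 2 ≤ Real.exp (k ^ Cb)
    calc 8 * D₁ ^ 2 ≤ 8 * (Real.exp p8) ^ 2 := by
          have := pow_le_pow_left₀ hD₁0.le hD₁le 2
          linarith
      _ = 8 * Real.exp (2 * p8) := by rw [← Real.exp_nat_mul]; norm_num
      _ ≤ Real.exp (k ^ Cb) := s5n_mul_exp_le 3 (by norm_num) (by push_cast; linarith)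
  · exact le_refl _
  · show 0 < (D₁ ^ 8)⁻¹
    positivity
  · show (D₁ ^ 8)⁻¹ ≤ 1
    exact inv_le_one_of_one_le₀ (one_le_pow₀ hD₁1)
  · show actM Cv D₁ (D₁ ^ 8)⁻¹ ≤ (8 * D₁ ^ 2) ^ Cb
    unfold actM
    have h8 : 1 ≤ 8 * D₁ ^ 2 := by
      have := s5n_le_sq hD₁1
      linarith
    calc 4 * (2 * D₁) ^ 3 * plog Cv (Real.log (2 * D₁) + Real.log (1 / (D₁ ^ 8)⁻¹)) ≤ 4 * (2 * D₁) ^ 3 * D₁ :=
          mul_le_mul_of_nonneg_left (hplv.trans hek) (by positivity)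
      _ ≤ (8 * D₁ ^ 2) ^ (2 : ℝ) := by
          rw [Real.rpow_two]
          have h4p : 0 ≤ D₁ ^ 4 := by positivity
          have e : (8 * D₁ ^ 2) ^ 2 - 4 * (2 * D₁) ^ 3 * D₁ = 32 * D₁ ^ 4 := by ring
          linarith
      _ ≤ (8 * D₁ ^ 2) ^ Cb := Real.rpow_le_rpow_of_exponent_le h8 hCb
  · show (K0 : ℝ) ^ 2 ≤ k ^ Cb
    exact (pow_le_pow_left₀ hK0 hK2 2).trans hKb
  · show highErr Cp (Real.exp p1) p2 (Real.exp (-(2 * p4))) D₁ K0 ≤ Real.exp (-k)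
    unfold highErr replErr
    rw [← hQdef, s5n_sqrt_exp]
    have hQC : Q ^ Cp ≤ Real.exp (Cp * p3) := by
      calc Q ^ Cp ≤ (Real.exp p3) ^ Cp := Real.rpow_le_rpow hQ0.le hQ (by linarith)
        _ = Real.exp (Cp * p3) := by rw [← Real.exp_mul]; congr 1; ring
    have hQC0 : 0 ≤ Q ^ Cp := Real.rpow_nonneg hQ0.le _
    have ha : (2 : ℝ) ^ (-(K0 : ℝ)) ≤ Real.exp (-(p4 / 2)) := s5n_two_rpow_neg hK1 (by linarith)
    have hb : (1 + (K0 : ℝ)) * Real.exp (-p4) ≤ Real.exp (-(p4 / 2)) := by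
      have h1 : 1 + (K0 : ℝ) ≤ Real.exp (p4 / 2) := le_trans (by linarith) (s5n_lin_le_exp_half (x := p4) (by linarith))
      calc (1 + (K0 : ℝ)) * Real.exp (-p4) ≤ Real.exp (p4 / 2) * Real.exp (-p4) :=
            mul_le_mul_of_nonneg_right h1 (Real.exp_pos _).le
        _ = Real.exp (-(p4 / 2)) := by rw [← Real.exp_add]; congr 1; ring
    have hc : ((2 : ℝ) ^ (-(K0 : ℝ)) + (1 + (K0 : ℝ)) * Real.exp (-p4)) * Q ^ Cp
        ≤ 2 * Real.exp (-(p4 / 2) + Cp * p3) := by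
      calc ((2 : ℝ) ^ (-(K0 : ℝ)) + (1 + (K0 : ℝ)) * Real.exp (-p4)) * Q ^ Cp
          ≤ (2 * Real.exp (-(p4 / 2))) * Real.exp (Cp * p3) :=
            mul_le_mul (by linarith) hQC hQC0 (by positivity)
        _ = 2 * Real.exp (-(p4 / 2) + Cp * p3) := by rw [Real.exp_add]; ring
    have hsum0 : 0 ≤ Real.exp (-p2) + ((2 : ℝ) ^ (-(K0 : ℝ)) + (1 + (K0 : ℝ)) * Real.exp (-p4)) * Q ^ Cp := by
      have : (0 : ℝ) ≤ (2 : ℝ) ^ (-(K0 : ℝ)) := Real.rpow_nonneg (by norm_num) _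
      positivity
    have hpre : Real.exp p1 ^ 2 * (2 * Real.exp p1) ^ 2 = 4 * Real.exp (4 * p1) := by
      rw [mul_pow, ← Real.exp_nat_mul, show (4 : ℝ) * p1 = ((2 : ℕ) : ℝ) * p1 + ((2 : ℕ) : ℝ) * p1 by push_cast; ring, Real.exp_add]
      ring
    rw [hpre]
    have t1 : 8 * Real.exp (4 * p1 + -p2 + k) ≤ Real.exp (-k - 1) :=
      s5n_mul_exp_le 3 (by norm_num) (by push_cast; linarith)
    have t2 : 16 * Real.exp (4 * p1 + (-(p4 / 2) + Cp * p3) + k) ≤ Real.exp (-k - 1) :=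
      s5n_mul_exp_le 4 (by norm_num) (by push_cast; linarith)
    have t3 : 2 * Real.exp (-k - 1) ≤ Real.exp (-k) := s5n_mul_exp_le 1 (by norm_num) (by push_cast; linarith)
    calc 4 * Real.exp (4 * p1) * (2 * ((Real.exp (-p2) + ((2 : ℝ) ^ (-(K0 : ℝ)) + (1 + (K0 : ℝ)) * Real.exp (-p4)) * Q ^ Cp)
          * plog Cp (Real.log D₁ + K0 + K0)))
        ≤ 4 * Real.exp (4 * p1) * (2 * ((Real.exp (-p2) + 2 * Real.exp (-(p4 / 2) + Cp * p3)) * Real.exp k)) := by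
          refine mul_le_mul_of_nonneg_left ?_ (by positivity)
          refine mul_le_mul_of_nonneg_left ?_ (by norm_num)
          exact mul_le_mul (by linarith) hplp hplp0 (by positivity)
      _ = 8 * Real.exp (4 * p1 + -p2 + k) + 16 * Real.exp (4 * p1 + (-(p4 / 2) + Cp * p3) + k) := by
          simp only [Real.exp_add]
          ring
      _ ≤ Real.exp (-k) := by linarith
  · show inactE Cv D₁ (D₁ ^ 8)⁻¹ ≤ Real.exp (-k)
    unfold inactE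
    have e1 : D₁ ^ 3 * 2 * (2 * D₁) ^ 3 * (D₁ ^ 8)⁻¹ = 16 * (D₁ ^ 2)⁻¹ := by
      field_simp
      ring
    rw [e1]
    have e2 : (D₁ ^ 2)⁻¹ ≤ Real.exp (-(2 * p1)) := by
      rw [Real.exp_neg]
      apply inv_anti₀ (Real.exp_pos _)
      calc Real.exp (2 * p1) = (Real.exp p1) ^ 2 := by rw [← Real.exp_nat_mul]; norm_num
        _ ≤ D₁ ^ 2 := pow_le_pow_left₀ (Real.exp_pos _).le hD₁ge 2
    calc 16 * (D₁ ^ 2)⁻¹ * plog Cv (Real.log (2 * D₁) + Real.log (1 / (D₁ ^ 8)⁻¹))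
        ≤ 16 * Real.exp (-(2 * p1)) * Real.exp k :=
          mul_le_mul (by linarith) hplv hplv0 (by positivity)
      _ = 16 * Real.exp (-(2 * p1) + k) := by rw [Real.exp_add]; ring
      _ ≤ Real.exp (-k) := s5n_mul_exp_le 4 (by norm_num) (by push_cast; linarith)
  · exact (Real.exp_pos _).le
  · exact Real.exp_le_exp.2 (by linarith)
  · show Real.exp (-p7) * newSz Da K0 ≤ Real.exp (-pA)
    unfold newSz
    have s1 : Real.sqrt Da ≤ Da := s5n_sqrt_le_self hDa0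
    have s2 : (2 : ℝ) ^ ((K0 : ℝ) / 2) ≤ Real.exp K0 := s5n_two_rpow_le hK0
    have s3 : Real.sqrt Da * Da * (2 : ℝ) ^ ((K0 : ℝ) / 2) ≤ Real.exp (p6 + p6 + K0) := by
      rw [Real.exp_add, Real.exp_add]
      refine mul_le_mul (mul_le_mul (s1.trans hDale) hDale (by linarith) (Real.exp_pos _).le) s2
        (Real.rpow_nonneg (by norm_num) _) (by positivity)
    calc Real.exp (-p7) * (Real.sqrt Da * Da * (2 : ℝ) ^ ((K0 : ℝ) / 2)) ≤ Real.exp (-p7) * Real.exp (p6 + p6 + K0) :=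
          mul_le_mul_of_nonneg_left s3 (Real.exp_pos _).le
      _ = Real.exp (-p7 + (p6 + p6 + K0)) := (Real.exp_add _ _).symm
      _ ≤ Real.exp (-pA) := Real.exp_le_exp.2 (by linarith)

/-- the parameters of the tuples -/
theorem s5n_par (d Cp Cv A : ℝ) (hd : 1 ≤ d) (hCp : 1 ≤ Cp) (hCv : 1 ≤ Cv) (hA : d + 2 ≤ A) :
    ∃ Cb k₀ : ℝ, 1 ≤ Cb ∧ ∀ k : ℝ, k₀ ≤ k → ∃ P : TPar, P.Ok Cp Cv Cb k ∧ P.Dold = Real.exp (k ^ (d + 1)) ∧
      P.δa = Real.exp (-(k ^ A)) ∧ P.ρa = Real.exp (-((k ^ A) ^ d)) ∧ P.Ha = Real.exp ((k ^ A) ^ d) ∧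
      ∃ κb : ℝ, k ≤ κb ∧ P.δb = Real.exp (-κb) ∧ P.ρb = Real.exp (-(κb ^ d)) ∧ P.Hb = Real.exp (κb ^ d) := by
  obtain ⟨e1, he1⟩ : ∃ e, e = d + 1 := ⟨_, rfl⟩
  obtain ⟨e2, he2⟩ : ∃ e, e = d + 2 := ⟨_, rfl⟩
  obtain ⟨e3, he3⟩ : ∃ e, e = e2 * Cp + 1 := ⟨_, rfl⟩
  obtain ⟨e4, he4⟩ : ∃ e, e = e3 + 1 := ⟨_, rfl⟩
  obtain ⟨m, hm⟩ : ∃ e, e = max e4 (A * d) := ⟨_, rfl⟩
  obtain ⟨e6, he6⟩ : ∃ e, e = m + 1 := ⟨_, rfl⟩
  obtain ⟨e7, he7⟩ : ∃ e, e = e6 + 2 := ⟨_, rfl⟩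
  obtain ⟨e8, he8⟩ : ∃ e, e = e7 * d + 1 := ⟨_, rfl⟩
  have hm4 : e4 ≤ m := hm ▸ le_max_left _ _
  have hmA : A * d ≤ m := hm ▸ le_max_right _ _
  have h23 : e2 ≤ e2 * Cp := le_mul_of_one_le_right (by linarith) hCp
  have h7d : e7 ≤ e7 * d := le_mul_of_one_le_right (by linarith) hd
  have ev : ∀ᶠ k : ℝ in atTop, ∃ P : TPar, P.Ok Cp Cv (2 * e8 + 2) k ∧ P.Dold = Real.exp (k ^ (d + 1)) ∧
      P.δa = Real.exp (-(k ^ A)) ∧ P.ρa = Real.exp (-((k ^ A) ^ d)) ∧ P.Ha = Real.exp ((k ^ A) ^ d) ∧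
      ∃ κb : ℝ, k ≤ κb ∧ P.δb = Real.exp (-κb) ∧ P.ρb = Real.exp (-(κb ^ d)) ∧ P.Hb = Real.exp (κb ^ d) := by
    filter_upwards [eventually_ge_atTop 10, s5n_gap 10 1 e1 (by linarith), s5n_gap 10 e1 e2 (by linarith),
      s5n_gap 1 e1 e3 (by linarith), s5n_gap (10 * Cp + 100) e3 e4 (by linarith), s5n_gap 100 e4 e6 (by linarith),
      s5n_gap 100 (A * d) e6 (by linarith), s5n_gap 100 e6 (e6 + 1) (by linarith), s5n_gap 100 (e6 + 1) e7 (by linarith),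
      s5n_gap 100 (e7 * d) e8 (by linarith), s5n_gap 100 e8 (e8 + 1) (by linarith),
      s5n_gap 1 (e8 + 1) (2 * e8 + 2) (by linarith), s5n_gap 4 (2 * e4) (2 * e8 + 2) (by linarith),
      s5n_gap (Cp * 3 ^ Cp) (e2 * Cp) e3 (by linarith), s5n_plog_le Cv (e8 + 1) hCv (by linarith),
      s5n_plog_le Cp (e8 + 1) hCp (by linarith)]
      with k h0 g1 g2 g3 g4 g5 g6 g7 g8 g9 g10 g11 g12 g13 hpv hpp
    have hk1 : 1 ≤ k := by linarith
    have hk0 : 0 ≤ k := by linarith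
    rw [Real.rpow_one] at g1
    rw [one_mul] at g3 g11
    have hAd : (k ^ A) ^ d = k ^ (A * d) := (Real.rpow_mul hk0 _ _).symm
    have h7dd : (k ^ e7) ^ d = k ^ (e7 * d) := (Real.rpow_mul hk0 _ _).symm
    have hkA : 1 ≤ k ^ A := Real.one_le_rpow hk1 (by linarith)
    have hk7 : 1 ≤ k ^ e7 := Real.one_le_rpow hk1 (by linarith)
    have hp4 : 1 ≤ k ^ e4 := Real.one_le_rpow hk1 (by linarith)
    have hself : ∀ x : ℝ, 1 ≤ x → x ≤ x ^ d := fun x hx => by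
      have := Real.rpow_le_rpow_of_exponent_le hx hd
      rwa [Real.rpow_one] at this
    refine ⟨s5nP Cp (k ^ e1) (k ^ e2) (k ^ e4) (k ^ A) ((k ^ A) ^ d) (k ^ e7) ((k ^ e7) ^ d) ⌈k ^ e4⌉₊, ?_, ?_, rfl, rfl, rfl,
      k ^ e7, ?_, rfl, rfl, rfl⟩
    · refine s5n_par_core Cp Cv (2 * e8 + 2) k (k ^ e1) (k ^ e2) (k ^ e3) (k ^ e4) (k ^ A) ((k ^ A) ^ d) (k ^ e6) (k ^ (e6 + 1))
        (k ^ e7) ((k ^ e7) ^ d) (k ^ e8) (k ^ (e8 + 1)) _ hCp hCv (by linarith) h0 g1 g2 g3 g4 g5 (by rw [hAd]; exact g6)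
        (hself _ hkA) (by linarith) g7 g8 (hself _ hk7) (by rw [h7dd]; exact g9) g10 g11 ?_ (Nat.le_ceil _)
        (Nat.ceil_lt_add_one (by linarith)).le ?_ hpv hpp
      · have e : (k ^ e4) ^ 2 = k ^ (2 * e4) := by
          rw [← Real.rpow_natCast, ← Real.rpow_mul hk0]; congr 1; push_cast; ring
        calc (k ^ e4 + 1) ^ 2 ≤ (2 * k ^ e4) ^ 2 := pow_le_pow_left₀ (by linarith) (by linarith) 2
          _ = 4 * k ^ (2 * e4) := by rw [mul_pow, e]; norm_num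
          _ ≤ k ^ (2 * e8 + 2) := g12
      · refine s5n_Q_le hCp hk1 (by linarith) (by linarith) ?_ g13
        have : 1 ≤ k ^ e1 := Real.one_le_rpow hk1 (by linarith)
        linarith
    · rw [he1]; rfl
    · have := Real.rpow_le_rpow_of_exponent_le hk1 (show (1 : ℝ) ≤ e7 by linarith)
      rwa [Real.rpow_one] at this
  obtain ⟨k₀, hk₀⟩ := eventually_atTop.1 ev
  exact ⟨2 * e8 + 2, k₀, by linarith, hk₀⟩

end Claimed.Agent.R258
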