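/-
Row 258, Sec. 10.4, helper182.   NUMERICS: the sum over the late levels (`s5n_sum_late`).
-/
import Claimed.Agent.R258.S5.Num
import Claimed.Agent.R258.S5.NumPar

set_option autoImplicit false
open Filter

namespace Claimed.Agent.R258

/-- `t M e^{-a t} ≤ (c/2) 2^{-t}` for `a ≥ 2 + M + 2/c` -/
theorem s5n_term_num {M c a : ℝ} (hM : 0 ≤ M) (hc : 0 < c) (ha : 2 + M + 2 / c ≤ a) (t : ℕ) (ht : 1 ≤ t) :
    (t : ℝ) * M * Real.exp (-(a * t)) ≤ c / 2 * (1 / 2) ^ t := by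
  have ht1 : (1 : ℝ) ≤ t := by exact_mod_cast ht
  have h2c : 0 < 2 / c := by positivity
  have e1 : (t : ℝ) ≤ Real.exp t := by have := Real.add_one_le_exp (t : ℝ); linarith
  have e2 : M ≤ Real.exp (M * t) := by
    have := Real.add_one_le_exp (M * t)
    nlinarith
  have e3 : Real.exp (-(t : ℝ)) ≤ (1 / 2) ^ t := by
    rw [Real.exp_neg, one_div, inv_pow]
    exact inv_anti₀ (by positivity) (s5n_two_pow t)
  have e4 : Real.exp (-(2 / c * t)) ≤ c / 2 := by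
    have h1 : 2 / c ≤ Real.exp (2 / c * t) := by
      have := Real.add_one_le_exp (2 / c * t)
      nlinarith
    rw [Real.exp_neg, show c / 2 = (2 / c)⁻¹ by rw [inv_div]]
    exact inv_anti₀ h2c h1
  calc (t : ℝ) * M * Real.exp (-(a * t)) ≤ Real.exp t * Real.exp (M * t) * Real.exp (-(a * t)) := by
        refine mul_le_mul_of_nonneg_right ?_ (Real.exp_pos _).le
        exact mul_le_mul e1 e2 hM (Real.exp_pos _).le
    _ = Real.exp (t + M * t + -(a * t)) := by rw [Real.exp_add, Real.exp_add]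
    _ ≤ Real.exp (-(2 / c * t) + -(t : ℝ)) := by
        apply Real.exp_le_exp.2
        nlinarith
    _ = Real.exp (-(2 / c * t)) * Real.exp (-(t : ℝ)) := Real.exp_add _ _
    _ ≤ c / 2 * (1 / 2) ^ t := mul_le_mul e4 e3 (Real.exp_pos _).le (by positivity)

theorem s5n_pow_le_exp_half (p : ℝ) : ∀ᶠ x : ℝ in atTop, x ^ p ≤ Real.exp (x / 2) := by
  have := (isLittleO_rpow_exp_pos_mul_atTop p (b := 1 / 2) (by norm_num)).bound (c := 1) one_pos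
  filter_upwards [this, eventually_gt_atTop 0] with x hx hx0
  have e : (1 : ℝ) / 2 * x = x / 2 := by ring
  rw [e, Real.norm_eq_abs, Real.norm_eq_abs, abs_of_pos (Real.rpow_pos_of_pos hx0 p), abs_of_pos (Real.exp_pos _), one_mul] at hx
  exact hx

theorem s5n_kk_pow {k1 A : ℝ} (hk : 0 ≤ k1) {t : ℕ} (ht : 8 ≤ t) : kk k1 A t = (kk k1 A (t - 8)) ^ (A ^ 8) := by
  unfold kk
  rw [← Real.rpow_mul hk, ← pow_add]
  congr 2
  omega

/-- one late level -/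
theorem s5n_late_term (A Cb cs Cq c : ℝ) (hA : 2 ≤ A) (hCb : 1 ≤ Cb) (hcs : 0 < cs) (hCq : 0 ≤ Cq) (hc : 0 < c) :
    ∃ K : ℝ, ∀ k1 : ℝ, K ≤ k1 → ∀ (t K0 : ℕ), 12 ≤ t → (K0 : ℝ) ^ 2 ≤ (kk k1 A t) ^ Cb → ∀ CN : ℝ, 0 ≤ CN →
      (t : ℝ) * (64 * bdLate ((A ^ 8)⁻¹) cs Cq (kk k1 A t) CN K0) ≤ c / 2 * (1 + CN) * (1 / 2) ^ t := by
  obtain ⟨X0, hX0⟩ := eventually_atTop.1 (s5n_pow_le_exp_half (A ^ 8 * Cb))
  obtain ⟨c', hc'⟩ : ∃ c', c' = min (1 / 2) cs := ⟨_, rfl⟩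
  have hc'0 : 0 < c' := by rw [hc']; exact lt_min (by norm_num) hcs
  have hc'1 : c' ≤ 1 / 2 := hc' ▸ min_le_left _ _
  have hc'2 : c' ≤ cs := hc' ▸ min_le_right _ _
  obtain ⟨M, hM⟩ : ∃ M, M = 64 * (5 + 3 * Cq) := ⟨_, rfl⟩
  have hM0 : 0 ≤ M := by rw [hM]; positivity
  refine ⟨max (max 2 X0) (3 * (2 + M + 2 / c) / c'), fun k1 hk1 t K0 ht hK0 CN hCN => ?_⟩
  have hk2 : 2 ≤ k1 := ((le_max_left _ _).trans (le_max_left _ _)).trans hk1
  have hkX : X0 ≤ k1 := ((le_max_right _ _).trans (le_max_left _ _)).trans hk1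
  have hka : 2 + M + 2 / c ≤ c' * k1 / 3 := by
    have := (le_max_right _ _).trans hk1
    rw [div_le_iff₀ hc'0] at this
    linarith
  have ht8 : 8 ≤ t := by omega
  have htR : (12 : ℝ) ≤ t := by exact_mod_cast ht
  obtain ⟨x, hx⟩ : ∃ x, x = kk k1 A (t - 8) := ⟨_, rfl⟩
  have hθ : (kk k1 A t) ^ ((A ^ 8)⁻¹) = x := by rw [hx]; exact s5n_kk_theta (by linarith) (by linarith) ht8
  have hxle : x ≤ kk k1 A t := by rw [hx]; exact s5n_kk_mono (by linarith) (by linarith) (Nat.sub_le _ _)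
  have hxge : k1 * ((t : ℝ) / 3) ≤ x := by
    have := s5n_kk_ge hk2 hA (t - 8)
    rw [← hx, Nat.cast_sub ht8] at this
    push_cast at this
    nlinarith
  have hxk : k1 ≤ x := by nlinarith
  have hx0 : 0 ≤ x := by linarith
  have hK0' : (K0 : ℝ) ^ 2 ≤ Real.exp (x / 2) := by
    refine hK0.trans ?_
    rw [s5n_kk_pow (by linarith) ht8, ← hx, ← Real.rpow_mul hx0]
    exact hX0 x (hkX.trans hxk)
  obtain ⟨E, hE⟩ : ∃ E, E = Real.exp (-(c' * x)) := ⟨_, rfl⟩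
  have hE0 : 0 < E := by rw [hE]; exact Real.exp_pos _
  have b1 : Real.exp (-(kk k1 A t)) ≤ E := by
    rw [hE]; apply Real.exp_le_exp.2; nlinarith
  have b2 : Real.exp (-x) * (K0 : ℝ) ^ 2 ≤ E := by
    calc Real.exp (-x) * (K0 : ℝ) ^ 2 ≤ Real.exp (-x) * Real.exp (x / 2) :=
          mul_le_mul_of_nonneg_left hK0' (Real.exp_pos _).le
      _ = Real.exp (-x + x / 2) := (Real.exp_add _ _).symm
      _ ≤ E := by rw [hE]; apply Real.exp_le_exp.2; nlinarith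
  have b3 : Real.exp (-x) ^ cs ≤ E := by
    rw [← Real.exp_mul, hE]
    apply Real.exp_le_exp.2
    nlinarith
  have hbd : bdLate ((A ^ 8)⁻¹) cs Cq (kk k1 A t) CN K0 ≤ (5 + 3 * Cq) * E * (1 + CN) := by
    unfold bdLate
    rw [hθ]
    have h3 : Cq * Real.exp (-x) ^ cs * (1 + CN) ≤ Cq * E * (1 + CN) :=
      mul_le_mul_of_nonneg_right (mul_le_mul_of_nonneg_left b3 hCq) (by linarith)
    have h4 : 0 ≤ E * CN := by positivity
    nlinarith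
  have hEle : E ≤ Real.exp (-(c' * k1 / 3 * t)) := by
    rw [hE]; apply Real.exp_le_exp.2
    have := mul_le_mul_of_nonneg_left hxge hc'0.le
    linarith
  have hnum := s5n_term_num hM0 hc hka t (by omega)
  calc (t : ℝ) * (64 * bdLate ((A ^ 8)⁻¹) cs Cq (kk k1 A t) CN K0)
      ≤ (t : ℝ) * (64 * ((5 + 3 * Cq) * E * (1 + CN))) := by
        refine mul_le_mul_of_nonneg_left ?_ (by linarith)
        linarith
    _ = ((t : ℝ) * M * E) * (1 + CN) := by rw [hM]; ring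
    _ ≤ ((t : ℝ) * M * Real.exp (-(c' * k1 / 3 * t))) * (1 + CN) := by
        refine mul_le_mul_of_nonneg_right ?_ (by linarith)
        exact mul_le_mul_of_nonneg_left hEle (by positivity)
    _ ≤ (c / 2 * (1 / 2) ^ t) * (1 + CN) := mul_le_mul_of_nonneg_right hnum (by linarith)
    _ = c / 2 * (1 + CN) * (1 / 2) ^ t := by ring

/-- the sum over the late levels -/
theorem s5n_sum_late (A Cb cs Cq c : ℝ) (hA : 2 ≤ A) (hCb : 1 ≤ Cb) (hcs : 0 < cs) (hCq : 0 ≤ Cq) (hc : 0 < c) :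
    ∃ K : ℝ, ∀ k1 : ℝ, K ≤ k1 → ∀ K0 : ℕ → ℕ, (∀ t, ((K0 t : ℕ) : ℝ) ^ 2 ≤ (kk k1 A t) ^ Cb) →
      ∀ CN : ℝ, 0 ≤ CN → ∀ τ : ℕ,
        ∑ t ∈ Finset.Icc 12 τ, (t : ℝ) * (64 * bdLate ((A ^ 8)⁻¹) cs Cq (kk k1 A t) CN (K0 t)) ≤ c * (1 + CN) := by
  obtain ⟨K, hK⟩ := s5n_late_term A Cb cs Cq c hA hCb hcs hCq hc
  refine ⟨K, fun k1 hk1 K0 hK0 CN hCN τ => ?_⟩
  calc ∑ t ∈ Finset.Icc 12 τ, (t : ℝ) * (64 * bdLate ((A ^ 8)⁻¹) cs Cq (kk k1 A t) CN (K0 t))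
      ≤ ∑ t ∈ Finset.Icc 12 τ, c / 2 * (1 + CN) * (1 / 2) ^ t :=
        Finset.sum_le_sum (fun t ht => hK k1 hk1 t (K0 t) (Finset.mem_Icc.1 ht).1 (hK0 t) CN hCN)
    _ ≤ ∑ t ∈ Finset.range (τ + 1), c / 2 * (1 + CN) * (1 / 2) ^ t := by
        refine Finset.sum_le_sum_of_subset_of_nonneg ?_ (fun t _ _ => by positivity)
        intro t ht
        rw [Finset.mem_range]
        have := (Finset.mem_Icc.1 ht).2
        omega
    _ = c / 2 * (1 + CN) * ∑ t ∈ Finset.range (τ + 1), (1 / (2 : ℝ)) ^ t := by rw [Finset.mul_sum]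
    _ ≤ c / 2 * (1 + CN) * 2 := mul_le_mul_of_nonneg_left (sum_geometric_two_le _) (by positivity)
    _ = c * (1 + CN) := by ring

end Claimed.Agent.R258
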