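/-
Row 258, Sec. 10.4 (+ first half of Lemma 5.5), architect helper182.   SUMMING THE BASE EXPANSION:   `s5_baseGoal : DetectGoal c0 C0 → BaseGoal c0 C0`   (theorem (T2) of S5/Base.lean).
-/
import Claimed.Agent.R258.S5.NumSum
import Claimed.Agent.R258.S5.NumPar

set_option autoImplicit false
open MeasureTheory

namespace Claimed.Agent.R258

theorem s5_core_mono {c0 C0 q θ Cb cs Cq Cq' kmin : ℝ} (h : CoreEstimate c0 C0 q θ Cb cs Cq kmin) (hC : Cq ≤ Cq') :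
    CoreEstimate c0 C0 q θ Cb cs Cq' kmin := by
  intro k hk X hX N CN s0 hCN hLB hdep pat hpat
  refine (h k hk X hX N CN s0 hCN hLB hdep pat hpat).trans ?_
  have h1 : 0 ≤ Real.exp (-(k ^ θ)) ^ cs := Real.rpow_nonneg (Real.exp_pos _).le _
  have h2 := cell_len_nonneg X.root
  have h3 : 0 ≤ Real.exp (-(k ^ θ)) ^ cs * (1 + CN) * X.root.len := by positivity
  calc Cq * Real.exp (-(k ^ θ)) ^ cs * (1 + CN) * X.root.len = Cq * (Real.exp (-(k ^ θ)) ^ cs * (1 + CN) * X.root.len) := by ring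
    _ ≤ Cq' * (Real.exp (-(k ^ θ)) ^ cs * (1 + CN) * X.root.len) := mul_le_mul_of_nonneg_right hC h3
    _ = _ := by ring

theorem s5_lev_mono {L : LevData} {G : GTree} {D D' : ℝ} {ι : ℕ → ℕ} (h : L.Ok G D ι) (hD : D ≤ D') : L.Ok G D' ι :=
  ⟨h.segm, h.inh, h.av, fun R hR => s5r_bud_mono _ _ _ _ _ (h.bud R hR) hD, h.lab⟩

theorem s5_levG_zero {G : GTree} {q : ℝ} {L : ℕ → LevData} {Dl δ : ℕ → ℝ} (hsys : LevSys G q L Dl δ) (I : Cell) :
    levG G L 0 I = 0 := by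
  unfold levG; rw [hsys.zero, s5l_triv_g]

theorem s5_n2_levG {c0 C0 q : ℝ} (hq : 2 < q) {G : GTree} (hG : G.Valid c0 C0 q) (L : ℕ → LevData) (s : ℕ) {I : Cell}
    (hI : I ∈ G.T) : n2 I (levG G L s I) ≤ 1 := by
  have h := s5r_n2_dproj ((L s).ext ((L s).seg I)) I 0 (G.F (pos4 s))
  rw [s5r_dproj_zero] at h
  exact h.trans (s5l_n2_F hq hG _ hI)

/-- the expansion at one cell -/
theorem s5_cell_expand (c0 C0 q : ℝ) (hc0 : 0 < c0) (hq : 2 < q) (G : GTree) (hG : G.Valid c0 C0 q) (L : ℕ → LevData)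
    (Dl δ : ℕ → ℝ) (hsys : LevSys G q L Dl δ) (hDl : ∀ s, 1 ≤ Dl s) (hδ0 : ∀ s, 0 ≤ δ s) (hδm : Antitone δ)
    (hst : ∀ x y : ℕ, x < y → δ y * (Dl x) ^ 2 ≤ δ (y - 1)) (τ : ℕ) (hτ : 4 ≤ τ) (I : Cell) (hI : I ∈ G.S) :
    ‖form I (G.w I) G.f‖ ≤ ∑ t ∈ Finset.Icc 1 τ, ∑ u ∈ (Finset.Ico 1 t).filter (fun u => pos4 u ≠ pos4 t),
        ‖formV I (G.w I) (xarg (fun l => restr I.set (G.F l)) (fun s => levG G L s I) u t)‖ + 40 * δ (τ - 3) := by
  have hadm := hG.adm I hI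
  have hIT := hG.S_sub hI
  have hq1 : 1 ≤ q := by linarith
  obtain ⟨M, hM⟩ := s5f_multilinear c0 C0 hc0 I (G.w I) hadm
  have e1 : form I (G.w I) G.f = M (fun l => restr I.set (G.F l)) := by
    rw [hM, s5f_restr c0 C0 hc0 I _ hadm (fun l => G.F l)]
    exact (s5f_scalar c0 C0 I _ hadm G.f hG.f_cs).symm
  have e2 := s5x_expand M (fun l => restr I.set (G.F l)) (fun s => levG G L s I) (s5_levG_zero hsys I) τ
  have hrem := s5c_rem c0 C0 q hc0 hq1 I (G.w I) hadm M hM G.F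
    (fun l => s5c_lq_mono (s5r_lq_scalar q hq1 I (G.f l) (hG.f_cs l)) (hG.f_norm l I hIT))
    (fun l => s5l_n2_F hq hG l hIT) (fun s => levG G L s I) δ (fun s => (Dl s) ^ 2)
    (fun t ht => s5l_appr_old hq hG hsys hDl ht hI) (fun t => s5_n2_levG hq hG L t hIT) hδ0 τ hτ (2 * δ (τ - 3)) (by
      intro a b h1 h2 h3
      have h4 := hst b a h2
      have h5 : δ (a - 1) ≤ δ (τ - 3) := hδm (by omega)
      have h6 : 1 ≤ (Dl b) ^ 2 := one_le_pow₀ (hDl b)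
      have h7 := hδ0 a
      nlinarith)
  rw [e1, e2]
  refine (norm_add_le _ _).trans (add_le_add ?_ (by linarith))
  refine (norm_sum_le _ _).trans (Finset.sum_le_sum fun t _ => ?_)
  refine (norm_sum_le _ _).trans (Finset.sum_le_sum fun u _ => ?_)
  rw [hM]

/-- the expansion, summed over the cells -/
theorem s5_sum_expand (c0 C0 q : ℝ) (hc0 : 0 < c0) (hq : 2 < q) (G : GTree) (hG : G.Valid c0 C0 q) (L : ℕ → LevData)
    (Dl δ : ℕ → ℝ) (hsys : LevSys G q L Dl δ) (hDl : ∀ s, 1 ≤ Dl s) (hδ0 : ∀ s, 0 ≤ δ s) (hδm : Antitone δ)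
    (hst : ∀ x y : ℕ, x < y → δ y * (Dl x) ^ 2 ≤ δ (y - 1)) (τ : ℕ) (hτ : 4 ≤ τ) :
    ∑ I ∈ G.S, I.len * ‖form I (G.w I) G.f‖ ≤
      ∑ t ∈ Finset.Icc 1 τ, ∑ u ∈ (Finset.Ico 1 t).filter (fun u => pos4 u ≠ pos4 t), tupSum G L u t
        + (40 * ∑ I ∈ G.S, I.len) * δ (τ - 3) := by
  calc ∑ I ∈ G.S, I.len * ‖form I (G.w I) G.f‖
      ≤ ∑ I ∈ G.S, I.len * (∑ t ∈ Finset.Icc 1 τ, ∑ u ∈ (Finset.Ico 1 t).filter (fun u => pos4 u ≠ pos4 t),
        ‖formV I (G.w I) (xarg (fun l => restr I.set (G.F l)) (fun s => levG G L s I) u t)‖ + 40 * δ (τ - 3)) :=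
        Finset.sum_le_sum fun I hI => mul_le_mul_of_nonneg_left
          (s5_cell_expand c0 C0 q hc0 hq G hG L Dl δ hsys hDl hδ0 hδm hst τ hτ I hI) (cell_len_nonneg I)
    _ = _ := by
        simp only [mul_add, Finset.sum_add_distrib, Finset.mul_sum, tupSum]
        congr 1
        · rw [Finset.sum_comm]
          refine Finset.sum_congr rfl fun t _ => ?_
          rw [Finset.sum_comm]
        · rw [Finset.sum_mul]
          refine Finset.sum_congr rfl fun I _ => ?_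
          ring

/-- number of earlier levels -/
theorem s5_card_u (t : ℕ) : (((Finset.Ico 1 t).filter (fun u => pos4 u ≠ pos4 t)).card : ℝ) ≤ t := by
  have h1 : ((Finset.Ico 1 t).filter (fun u => pos4 u ≠ pos4 t)).card ≤ (Finset.Ico 1 t).card := Finset.card_filter_le _ _
  have h2 : (Finset.Ico 1 t).card = t - 1 := by simp
  have h3 : ((Finset.Ico 1 t).filter (fun u => pos4 u ≠ pos4 t)).card ≤ t := by omega
  exact_mod_cast h3

/-- **Theorem (T2)** -/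
theorem s5_baseGoal (c0 C0 : ℝ) (hc0 : 0 < c0) (hC0 : 1 ≤ C0) (hdet : DetectGoal c0 C0) : BaseGoal c0 C0 := by
  obtain ⟨d, hd, hdet'⟩ := s5n_detect hdet
  obtain ⟨Cp, Cv, CvE, Cw, hCp, hCv, hCvE, hCw, hlate, hearly⟩ := s5u_tuple c0 C0 hc0 hC0
  set A : ℝ := d + 2 with hAdef
  have hA2 : 2 ≤ A := by linarith
  have hA0 : 0 < A := by linarith
  obtain ⟨Cb, k₀, hCb, hpar⟩ := s5n_par d Cp Cv A hd hCp hCv le_rfl
  obtain ⟨K1, hK1, hstag⟩ := s5n_stagger d A hd le_rfl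
  have hA8 : 1 < A ^ 8 := one_lt_pow₀ (by linarith) (by norm_num)
  refine ⟨(A ^ 8)⁻¹, Cb, by positivity, inv_lt_one_of_one_lt₀ hA8, hCb, ?_⟩
  intro q hq2 hq3 cs Cq kmin hcs hcore c hc
  have hcore' := s5_core_mono hcore (le_max_left Cq 0)
  obtain ⟨κ₀, hκ₀⟩ := hdet' q hq2 hq3
  obtain ⟨K2, hK2⟩ := s5n_sum_late A Cb cs (max Cq 0) c hA2 hCb hcs (le_max_right _ _) hc
  set k1 : ℝ := max (max K1 K2) (max (max k₀ κ₀) kmin) with hk1
  have hkK1 : K1 ≤ k1 := (le_max_left _ _).trans (le_max_left _ _)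
  have hkK2 : K2 ≤ k1 := (le_max_right _ _).trans (le_max_left _ _)
  have hkk₀ : k₀ ≤ k1 := ((le_max_left _ _).trans (le_max_left _ _)).trans (le_max_right _ _)
  have hkκ₀ : κ₀ ≤ k1 := ((le_max_right _ _).trans (le_max_left _ _)).trans (le_max_right _ _)
  have hkmin : kmin ≤ k1 := (le_max_right _ _).trans (le_max_right _ _)
  have hk2 : 2 ≤ k1 := hK1.trans hkK1
  have hk0 : 0 ≤ k1 := by linarith
  have hmono : Monotone (kk k1 A) := s5n_kk_mono (by linarith) (by linarith)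
  have hkk : ∀ s, k1 ≤ kk k1 A s := fun s => by
    have := hmono (Nat.zero_le s)
    rwa [s5n_kk_zero] at this
  obtain ⟨hst, h72, hlevbud⟩ := hstag k1 hkK1
  choose P hP using fun t : ℕ => hpar (kk k1 A t) (hkk₀.trans (hkk t))
  refine ⟨∑ t ∈ Finset.Icc (1 : ℕ) 11, (t : ℝ) * (64 * bdEarly CvE Cw (kk k1 A t) (P t)) + c, ?_⟩
  intro N CN hCN hLB root T S htree hS s0 hdep w hw f hf hnorm
  set G : GTree := ⟨root, T, S, w, f⟩ with hGdef
  have hG : G.Valid c0 C0 q := ⟨htree, hS, hw, hf, hnorm⟩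
  set δ : ℕ → ℝ := fun s => Real.exp (-(kk k1 A s)) with hδdef
  set Dl : ℕ → ℝ := fun s => Real.exp ((kk k1 A s) ^ (d + 1)) with hDldef
  have hDl : ∀ s, 1 ≤ Dl s := fun s => Real.one_le_exp (Real.rpow_nonneg (hk0.trans (hkk s)) _)
  have hδ0 : ∀ s, 0 ≤ δ s := fun s => (Real.exp_pos _).le
  have hδm : Antitone δ := fun s t hst' => Real.exp_le_exp.2 (neg_le_neg (hmono hst'))
  -- the levels
  have hlev : ∀ t : ℕ, ∃ L : LevData, L.Ok G (Dl t) (levLab t) ∧ (1 ≤ t → L.Acc G q (pos4 t) (δ t)) ∧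
      (t = 0 → L = LevData.triv G) := by
    intro t
    by_cases ht : t = 0
    · exact ⟨LevData.triv G, s5l_triv_ok hG (by linarith [hDl t]) _, fun h => by omega, fun _ => rfl⟩
    · obtain ⟨L, h1, h2⟩ := s5l_exists c0 C0 q (δ t) (Real.exp (-((kk k1 A t) ^ d))) (Real.exp ((kk k1 A t) ^ d))
        (hκ₀ _ (hkκ₀.trans (hkk t))) (Real.exp_pos _)
        (Real.exp_le_one_iff.2 (neg_nonpos.2 (Real.rpow_nonneg (hk0.trans (hkk t)) _))) (Real.exp_pos _).le hq2 G hG (pos4 t)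
        (levLab t) (s5l_levLab_inj t)
      exact ⟨L, s5_lev_mono h1 (hlevbud _ (hkK1.trans (hkk t))), fun _ => h2, fun h => absurd h ht⟩
  choose L hL using hlev
  have hsys : LevSys G q L Dl δ := ⟨(hL 0).2.2 rfl, fun t => (hL t).1, fun t ht => (hL t).2.1 ht⟩
  -- the tuples
  have hctx : ∀ u t : ℕ, 1 ≤ u → u < t → pos4 u ≠ pos4 t → TupCtx c0 C0 q G L Dl δ u t (P t) := by
    intro u t hu hut hpos
    obtain ⟨_, hDold, hδa, hρa, hHa, κb, hκb, hδb, hρb, hHb⟩ := hP t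
    refine ⟨hG, hsys, hu, hut, hpos, ?_, ?_, ?_⟩
    · rw [hδa, hρa, hHa]
      refine hκ₀ _ ?_
      rw [← s5n_kk_succ hk0]
      exact hkκ₀.trans (hkk _)
    · rw [hδb, hρb, hHb]
      exact hκ₀ _ ((hkκ₀.trans (hkk t)).trans hκb)
    · intro s hs
      rw [hDold]
      exact Real.exp_le_exp.2 (Real.rpow_le_rpow (hk0.trans (hkk s)) (hmono hs) (by linarith))
  have hE : ∀ u t : ℕ, 1 ≤ u → u < t → pos4 u ≠ pos4 t →
      tupSum G L u t ≤ 64 * bdEarly CvE Cw (kk k1 A t) (P t) * root.len := fun u t hu hut hpos =>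
    hearly q Cb hq2 hq3 G L Dl δ u t (P t) (kk k1 A t) (hctx u t hu hut hpos) (hP t).1
  have hLt : ∀ u t : ℕ, 1 ≤ u → u < t → pos4 u ≠ pos4 t → 12 ≤ t →
      tupSum G L u t ≤ 64 * bdLate ((A ^ 8)⁻¹) cs (max Cq 0) (kk k1 A t) CN (P t).K0 * root.len := by
    intro u t hu hut hpos ht
    refine hlate q ((A ^ 8)⁻¹) Cb cs (max Cq 0) kmin hq2 hq3 (le_max_right _ _) hcore' G L Dl δ u t (P t) (kk k1 A t)
      (hctx u t hu hut hpos) (hP t).1 (hkmin.trans (hkk t)) ht hDl hδ0 hδm hst ?_ ?_ N CN s0 hCN hLB hdep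
    · rw [(hP t).2.2.1, ← s5n_kk_succ hk0]
    · rw [s5n_kk_theta hk0 hA0 (by omega)]
      have := h72 (t - 8)
      have e : t - 8 + 1 = t - 7 := by omega
      rwa [e] at this
  have hrl : 0 ≤ root.len := cell_len_nonneg root
  -- nonnegativity of the bounds (they bound nonnegative sums; we only need it to multiply by the number of `u`)
  have hts0 : ∀ u t, 0 ≤ tupSum G L u t := fun u t =>
    Finset.sum_nonneg fun I _ => mul_nonneg (cell_len_nonneg I) (norm_nonneg _)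
  have hsumu : ∀ (t : ℕ) (X : ℝ), (∀ u, 1 ≤ u → u < t → pos4 u ≠ pos4 t → tupSum G L u t ≤ X) → 0 ≤ X →
      ∑ u ∈ (Finset.Ico 1 t).filter (fun u => pos4 u ≠ pos4 t), tupSum G L u t ≤ (t : ℝ) * X := by
    intro t X hX hX0
    calc ∑ u ∈ (Finset.Ico 1 t).filter (fun u => pos4 u ≠ pos4 t), tupSum G L u t
        ≤ ∑ _u ∈ (Finset.Ico 1 t).filter (fun u => pos4 u ≠ pos4 t), X := Finset.sum_le_sum fun u hu => by
          rw [Finset.mem_filter, Finset.mem_Ico] at hu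
          exact hX u hu.1.1 hu.1.2 hu.2
      _ = (((Finset.Ico 1 t).filter (fun u => pos4 u ≠ pos4 t)).card : ℝ) * X := by rw [Finset.sum_const, nsmul_eq_mul]
      _ ≤ (t : ℝ) * X := mul_le_mul_of_nonneg_right (s5_card_u t) hX0
  have hbE0 : ∀ t, 0 ≤ bdEarly CvE Cw (kk k1 A t) (P t) := by
    intro t
    have hPt := (hP t).1
    have hD₁ : 1 ≤ (P t).D₁ := hPt.Dold1.trans hPt.Dold_le
    have hlog : 0 ≤ Real.log (2 * (P t).D₁) + Real.log (1 / (P t).δ₀) := by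
      have h1 : 0 ≤ Real.log (2 * (P t).D₁) := Real.log_nonneg (by linarith)
      have h2 : 0 ≤ Real.log (1 / (P t).δ₀) := Real.log_nonneg (by
        rw [le_div_iff₀ hPt.δ₀0]; linarith [hPt.δ₀1])
      linarith
    have hpl : 0 ≤ plog CvE (Real.log (2 * (P t).D₁) + Real.log (1 / (P t).δ₀)) := s5b_plog_nonneg (by linarith) hlog
    unfold bdEarly inactE actM
    have := hPt.δ₀0
    positivity
  have hbL0 : ∀ t, 0 ≤ bdLate ((A ^ 8)⁻¹) cs (max Cq 0) (kk k1 A t) CN (P t).K0 := by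
    intro t
    unfold bdLate
    have h1 : 0 ≤ Real.exp (-(kk k1 A t ^ (A ^ 8)⁻¹)) ^ cs := Real.rpow_nonneg (Real.exp_pos _).le _
    have h2 : 0 ≤ max Cq 0 := le_max_right _ _
    positivity
  -- the bound for every cutoff
  have hcut : ∀ τ : ℕ, 12 ≤ τ → ∑ I ∈ S, I.len * ‖form I (w I) f‖ ≤
      (∑ t ∈ Finset.Icc (1 : ℕ) 11, (t : ℝ) * (64 * bdEarly CvE Cw (kk k1 A t) (P t)) + c + c * CN) * root.len
        + (40 * ∑ I ∈ S, I.len) * Real.exp (-(kk k1 A (τ - 3))) := by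
    intro τ hτ
    have h := s5_sum_expand c0 C0 q hc0 hq2 G hG L Dl δ hsys hDl hδ0 hδm hst τ (by omega)
    refine h.trans (add_le_add ?_ le_rfl)
    have hsplit : Finset.Icc 1 τ = Finset.Icc 1 11 ∪ Finset.Icc 12 τ := by
      ext x; simp only [Finset.mem_union, Finset.mem_Icc]; omega
    have hdisj : Disjoint (Finset.Icc 1 11) (Finset.Icc 12 τ) := by
      rw [Finset.disjoint_left]; intro x; simp only [Finset.mem_Icc]; omega
    rw [hsplit, Finset.sum_union hdisj]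
    have hA1 : ∑ t ∈ Finset.Icc 1 11, ∑ u ∈ (Finset.Ico 1 t).filter (fun u => pos4 u ≠ pos4 t), tupSum G L u t
        ≤ (∑ t ∈ Finset.Icc (1 : ℕ) 11, (t : ℝ) * (64 * bdEarly CvE Cw (kk k1 A t) (P t))) * root.len := by
      rw [Finset.sum_mul]
      refine Finset.sum_le_sum fun t _ => ?_
      refine (hsumu t _ (hE · t) (by have := hbE0 t; positivity)).trans (le_of_eq ?_)
      ring
    have hA2' : ∑ t ∈ Finset.Icc 12 τ, ∑ u ∈ (Finset.Ico 1 t).filter (fun u => pos4 u ≠ pos4 t), tupSum G L u t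
        ≤ (c * (1 + CN)) * root.len := by
      refine le_trans ?_ (mul_le_mul_of_nonneg_right
        (hK2 k1 hkK2 (fun t => (P t).K0) (fun t => (hP t).1.K0_le) CN hCN τ) hrl)
      rw [Finset.sum_mul]
      refine Finset.sum_le_sum fun t ht => ?_
      rw [Finset.mem_Icc] at ht
      refine (hsumu t _ (fun u hu hut hpos => hLt u t hu hut hpos ht.1) (by have := hbL0 t; positivity)).trans (le_of_eq ?_)
      ring
    calc _ ≤ _ := add_le_add hA1 hA2'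
      _ = _ := by ring
  -- let the cutoff tend to infinity
  have hfinal : ∑ I ∈ S, I.len * ‖form I (w I) f‖ ≤
      (∑ t ∈ Finset.Icc (1 : ℕ) 11, (t : ℝ) * (64 * bdEarly CvE Cw (kk k1 A t) (P t)) + c + c * CN) * root.len := by
    apply le_of_forall_pos_le_add
    intro ϵ hϵ
    obtain ⟨τ, hτ, hτϵ⟩ := s5n_rem hk2 hA2 (40 * ∑ I ∈ S, I.len) ϵ hϵ
    exact (hcut τ hτ).trans (add_le_add le_rfl hτϵ)
  exact hfinal

end Claimed.Agent.R258
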