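/-
Row 258, architect helper182.   ADAPTER: `s4b_Detect` (block [S4b], helper99) ⟹ `DetectGoal` (S5/Num.lean);   hence `BaseGoal` from the two interfaces of [S4b].
-/
import Claimed.Agent.R258.S4b.Adapt
import Claimed.Agent.R258.S5.Sum

set_option autoImplicit false
open MeasureTheory

namespace Claimed.Agent.R258

theorem s5_detectGoal (c0 C0 : ℝ) (hc0 : 0 < c0) (hC0 : 1 ≤ C0) (hU3 : s4b_U3Target) (hPD : s4b_PairDetect c0 C0) :
    DetectGoal c0 C0 := by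
  obtain ⟨C, h⟩ := s4b_Detect c0 C0 hc0 hC0 hU3 hPD
  refine ⟨max 1 (C : ℝ), le_max_left _ _, fun q hq2 _ => ?_⟩
  obtain ⟨Cq, hCq, hd⟩ := h q hq2
  refine ⟨max 1 Cq, le_max_left _ _, fun δ hδ0 hδ1 => ?_⟩
  have hlog : 0 ≤ Real.log (1 / δ) := Real.log_nonneg (by rw [le_div_iff₀ hδ0]; linarith)
  have hbase : 1 ≤ 1 + Real.log (1 / δ) := by linarith
  have h1 : (1 + Real.log (1 / δ)) ^ C ≤ (1 + Real.log (1 / δ)) ^ (max 1 (C : ℝ)) := by
    rw [← Real.rpow_natCast]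
    exact Real.rpow_le_rpow_of_exponent_le hbase (le_max_right _ _)
  have h2 : Cq * (1 + Real.log (1 / δ)) ^ C ≤ max 1 Cq * (1 + Real.log (1 / δ)) ^ (max 1 (C : ℝ)) :=
    mul_le_mul (le_max_right _ _) h1 (by positivity) (by positivity)
  refine s5n_detect_mono (hd δ hδ0 hδ1) ?_ (Real.exp_le_exp.2 h2)
  rw [← Real.exp_neg]
  exact Real.exp_le_exp.2 (neg_le_neg h2)

theorem s5_baseGoal' (c0 C0 : ℝ) (hc0 : 0 < c0) (hC0 : 1 ≤ C0) (hU3 : s4b_U3Target) (hPD : s4b_PairDetect c0 C0) :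
    BaseGoal c0 C0 :=
  s5_baseGoal c0 C0 hc0 hC0 (s5_detectGoal c0 C0 hc0 hC0 hU3 hPD)

end Claimed.Agent.R258
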