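/-
Row 258, Sec. 5.5 (last paragraph of Prop. 5.8), architect helper182.   HEREDITY OF BASE SEGMENTS (`RestrictOk` of S10/Attempt.lean) and the two extra exports (`BaseExtra` of S10/Att.lean, in raw form).
-/
import Claimed.Agent.R258.S10.Attempt

set_option autoImplicit false
open MeasureTheory

namespace Claimed.Agent.R258

open Classical in
theorem s5_restrict_valid {X : BaseSeg} {c0 C0 q η D M LU : ℝ} (h : X.Valid c0 C0 q η D M LU) {R' : Cell} (hR : R' ∈ X.T) :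
    (X.restrict R').Valid c0 C0 q η D M LU := by
  have hRr : R' ≤ X.root := h.tree.le_root R' hR
  have hT : ∀ I, I ∈ (X.restrict R').T ↔ I ∈ X.T ∧ I ≤ R' := fun I => by simp [BaseSeg.restrict]
  have hS : ∀ I, I ∈ (X.restrict R').S ↔ I ∈ X.S ∧ I ≤ R' := fun I => by simp [BaseSeg.restrict]
  refine
    { tree := ⟨(hT _).2 ⟨hR, le_rfl⟩, fun I hI => ((hT I).1 hI).2, fun I hI J hIJ hJR =>
        (hT J).2 ⟨h.tree.conv I ((hT I).1 hI).1 J hIJ (hJR.trans hRr), hJR⟩⟩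
      S_sub := fun I hI => (hT I).2 ⟨h.S_sub ((hS I).1 hI).1, ((hS I).1 hI).2⟩
      adm := fun I hI => h.adm I ((hS I).1 hI).1
      f_cs := h.f_cs
      f_norm := fun l I hI => h.f_norm l I ((hT I).1 hI).1
      cat_birth := h.cat_birth
      cat_mono := fun l c I I' hI hI' => h.cat_mono l c I I' (hI.trans hRr) hI'
      lab_inj := h.lab_inj
      col_chart := h.col_chart
      col_cplx := h.col_cplx
      col_bdd := h.col_bdd
      col_eps := h.col_eps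
      count := fun I hI A hA => h.count I (hI.trans hRr) A fun Φ hΦ => by
        obtain ⟨⟨l, c, I', hI', hm⟩, hb⟩ := hA Φ hΦ
        exact ⟨⟨l, c, I', hI'.trans hRr, hm⟩, hb⟩
      coef := fun l c I hI => h.coef l c I ((hT I).1 hI).1
      U_supp := h.U_supp
      U_size := fun l I hI => h.U_size l I ((hT I).1 hI).1
      U_sq := fun l R'' hR'' A hA => h.U_sq l R'' ((hT R'').1 hR'').1 A hA
      pair := fun I hI => h.pair I ((hS I).1 hI).1
      mult := fun J hJ A hA hAJ => h.mult J ((hT J).1 hJ).1 A (fun I hI => ((hS I).1 (hA hI)).1) hAJ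
      cat_tree := ?_
      U_lab := h.U_lab }
  intro l c I hI Φ hΦ
  obtain ⟨I', hI', hII', hm⟩ := h.cat_tree l c I (hI.trans hRr) Φ hΦ
  rcases cell_chain hII' hI with hle | hle
  · exact ⟨I', (hT I').2 ⟨hI', hle⟩, hII', hm⟩
  · exact ⟨R', (hT R').2 ⟨hR, le_rfl⟩, hI, h.cat_mono l c I' R' (h.tree.le_root I' hI') hle hm⟩

theorem s5_restrictOk (c0 C0 q θ Cb : ℝ) : RestrictOk c0 C0 q θ Cb := by
  intro k X hX R' hR
  obtain ⟨D, M, LU, h1, h2, h3, h4, hV⟩ := hX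
  exact ⟨D, M, LU, h1, h2, h3, h4, s5_restrict_valid hV hR⟩

/-- `BaseExtra c0 C0` of S10/Att.lean, in raw form (`LabFree N0 x` unfolds to the last clause) -/
theorem s5_baseExtra (c0 C0 : ℝ) (X : BaseSeg) (q θ Cb k : ℝ) (hX : X.Ok c0 C0 q θ Cb k) :
    (∀ l c I, I ≤ X.root → ∀ Φ ∈ X.cat l c I, ∃ I' ∈ X.T, I ≤ I' ∧ Φ ∈ X.cat l c I') ∧
    ∃ N0 : ℕ, ∀ l I, ∀ v, N0 ≤ v → ∀ᵐ y ∂(volume : Measure ℝ), (X.U l I : ℝ → HV) y (v + 1) = 0 := by
  obtain ⟨D, M, LU, _, _, _, _, hV⟩ := hX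
  exact ⟨hV.cat_tree, hV.U_lab⟩

end Claimed.Agent.R258
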